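import Vale.Agent.P277.H762.CoreX2

/-!
# P277, task TX-CORE: the analytic half with a branch divisor
-/

open scoped Manifold ContDiff ComplexOrder Topology ENNReal
open Complex Vale.Agent.P272.K Vale.Agent.P272 Filter Set Metric MeasureTheory

noncomputable section

namespace Vale.Agent.P277.TD

/-- the Green function and an integrable function -/
theorem green_splitX {f : ℂ → ℝ} {R s M A : ℝ} (hs : 0 < s) (hsR : s ≤ R)
    (hf : IntegrableOn f (ball (0 : ℂ) R)) (hf0 : ∀ ζ ∈ ball (0 : ℂ) R, 0 ≤ f ζ)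
    (hfM : ∀ ζ ∈ ball (0 : ℂ) s, f ζ ≤ M) (hA : ∫ ζ in ball (0 : ℂ) R, f ζ ≤ A) :
    IntegrableOn (fun ζ => GJ.Gr R ζ * f ζ) (ball (0 : ℂ) R) ∧
    ∫ ζ in ball (0 : ℂ) R, GJ.Gr R ζ * f ζ ≤ 2 / Real.pi * Real.log (R / s) * A + M * s ^ 2 := by
  have hR : 0 < R := hs.trans_le hsR
  have hM : 0 ≤ M := (hf0 0 (mem_ball_self hR)).trans (hfM 0 (mem_ball_self hs))
  have hsub : ball (0 : ℂ) s ⊆ ball 0 R := ball_subset_ball hsR
  have hG : IntegrableOn (fun ζ => M * GJ.Gr s ζ) (ball (0 : ℂ) s) :=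
    (GJ.integrableOn_Gr hs).const_mul M
  have hl : 0 ≤ Real.log (R / s) := Real.log_nonneg ((one_le_div hs).2 hsR)
  have hc : 0 ≤ 2 / Real.pi * Real.log (R / s) := mul_nonneg (by positivity) hl
  have hi2 : IntegrableOn (fun ζ => 2 / Real.pi * Real.log (R / s) * f ζ) (ball (0 : ℂ) R) :=
    hf.const_mul _
  have hi3 : Integrable ((ball (0 : ℂ) s).indicator fun ζ => M * GJ.Gr s ζ)
      (volume.restrict (ball (0 : ℂ) R)) :=
    ((integrable_indicator_iff measurableSet_ball).2 hG).integrableOn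
  have hpt : ∀ ζ ∈ ball (0 : ℂ) R, GJ.Gr R ζ * f ζ ≤ 2 / Real.pi * Real.log (R / s) * f ζ +
      (ball (0 : ℂ) s).indicator (fun ζ => M * GJ.Gr s ζ) ζ := by
    intro ζ hζ
    have h0 := hf0 ζ hζ
    by_cases hζs : ζ ∈ ball (0 : ℂ) s
    · rw [indicator_of_mem hζs]
      have hM' := hfM ζ hζs
      have hGs := GJ.Gr_nonneg hζs
      rcases eq_or_ne ζ 0 with h | h
      · have : GJ.Gr R ζ = 0 := by simp [GJ.Gr, h]
        rw [this, zero_mul]
        positivity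
      · have hζ0 : 0 < ‖ζ‖ := norm_pos_iff.2 h
        have e1 : GJ.Gr R ζ = 2 / Real.pi * Real.log (R / s) + GJ.Gr s ζ := by
          unfold GJ.Gr
          rw [← mul_add, ← Real.log_mul (by positivity) (by positivity)]
          congr 2
          field_simp
        rw [e1, add_mul]
        have := mul_le_mul_of_nonneg_left hM' hGs
        linarith
    · rw [indicator_of_notMem hζs, add_zero]
      have h1 : s ≤ ‖ζ‖ := by simpa using hζs
      have e1 : GJ.Gr R ζ ≤ 2 / Real.pi * Real.log (R / s) := by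
        unfold GJ.Gr
        have h2 : 0 < ‖ζ‖ := hs.trans_le h1
        have h3 : Real.log (R / ‖ζ‖) ≤ Real.log (R / s) :=
          Real.log_le_log (by positivity) (by gcongr)
        gcongr
      gcongr
  have hint : IntegrableOn (fun ζ => GJ.Gr R ζ * f ζ) (ball (0 : ℂ) R) := by
    refine Integrable.mono' (hi2.add hi3)
      ((GJ.measurable_Gr R).aestronglyMeasurable.mul hf.aestronglyMeasurable) ?_
    filter_upwards [ae_restrict_mem measurableSet_ball] with ζ hζ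
    rw [Real.norm_of_nonneg (mul_nonneg (GJ.Gr_nonneg hζ) (hf0 ζ hζ))]
    exact hpt ζ hζ
  refine ⟨hint, ?_⟩
  calc ∫ ζ in ball (0 : ℂ) R, GJ.Gr R ζ * f ζ
      ≤ ∫ ζ in ball (0 : ℂ) R, (2 / Real.pi * Real.log (R / s) * f ζ +
          (ball (0 : ℂ) s).indicator (fun ζ => M * GJ.Gr s ζ) ζ) :=
        setIntegral_mono_on hint (hi2.add hi3) measurableSet_ball hpt
    _ = 2 / Real.pi * Real.log (R / s) * (∫ ζ in ball (0 : ℂ) R, f ζ) + M * s ^ 2 := by
        rw [integral_add hi2 hi3, integral_const_mul]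
        congr 1
        rw [setIntegral_indicator measurableSet_ball, inter_eq_self_of_subset_right hsub,
          integral_const_mul, GJ.integral_Gr hs]
    _ ≤ _ := by gcongr

section
variable {c : Cm 4} {r : ℝ} {θ : Cm 4 → ℂ} {E : Set (Cm 4)}
  {H : Cm 4 → Matrix (Fin 4) (Fin 4) ℂ} {e p₀ : Cm 4} {R η : ℝ} {K : Set (Cm 4)}

/-- upper bound for quasi-plurisubharmonic functions -/
theorem phi_upperX {φ : Cm 4 → ℝ} {δ : ℝ} (hδ : 0 ≤ δ)
    (hθ : ∀ z ∈ ball c r, AnalyticAt ℂ θ z) (hp : ∀ z ∈ ball c r \ E, (H z).PosSemidef)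
    (hφ : ∀ z ∈ ball c r \ E, θ z ≠ 0 → ContDiffAt ℝ 2 φ z ∧
      (cHess φ z + (δ : ℂ) • H z).PosSemidef)
    (hφb : TX.LocBdAbove c r θ E φ)
    (hR : 0 < R) (hKc : IsCompact K) (hKD : K ⊆ {x | x ∈ ball c r \ E ∧ θ x ≠ 0})
    (hin : ∀ p ∈ ball p₀ η, ∀ ζ : ℂ, ‖ζ‖ ≤ R → p + ζ • e ∈ ball c r)
    (hK : ∀ p ∈ ball p₀ η, ∀ ζ : ℂ, R / 2 ≤ ‖ζ‖ → ‖ζ‖ ≤ R → p + ζ • e ∈ K) :
    ∃ C' : ℝ, ∀ p ∈ ball p₀ η, (∀ ζ : ℂ, ‖ζ‖ ≤ R → p + ζ • e ∉ E) → θ p ≠ 0 →
      IntegrableOn (fun ζ : ℂ => GJ.Gr (R / 2) ζ * (hh H e e (p + ζ • e)).re)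
        (ball (0 : ℂ) (R / 2)) →
      φ p ≤ C' + δ * ∫ ζ in ball (0 : ℂ) (R / 2),
        GJ.Gr (R / 2) ζ * (hh H e e (p + ζ • e)).re := by
  obtain ⟨C', hC'⟩ := hKc.exists_bound_of_continuousOn
    (f := φ) fun x hx => ((hφ x (hKD hx).1 (hKD hx).2).1.continuousAt).continuousWithinAt
  refine ⟨C' + 1, fun p hp' hpg hp0 hpi => ?_⟩
  have hR2 : 0 < R / 2 := by positivity
  have hD : ∀ ζ ∈ closedBall (0 : ℂ) (R / 2), p + ζ • e ∈ ball c r \ E := by
    intro ζ hζ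
    have : ‖ζ‖ ≤ R := by
      rw [mem_closedBall_zero_iff] at hζ; linarith
    exact ⟨hin p hp' ζ this, hpg ζ this⟩
  have hsph : ∀ ζ ∈ sphere (0 : ℂ) (R / 2), p + ζ • e ∈ K := by
    intro ζ hζ
    rw [mem_sphere_zero_iff_norm] at hζ
    exact hK p hp' ζ hζ.ge (by linarith)
  have hcont : ∀ ζ : ℂ, ContinuousAt (fun ζ : ℂ => p + ζ • e) ζ := fun ζ => by fun_prop
  have key := jensen_punct hR2 (f := fun ζ : ℂ => φ (p + ζ • e))
    (τ := fun ζ => δ * (hh H e e (p + ζ • e)).re) (D := fun ζ : ℂ => θ (p + ζ • e))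
    (C' := C')
    (fun ζ hζ => analyticAt_line (hθ _ (hD ζ hζ).1)) (by simpa using hp0)
    (fun ζ hζ => (hKD (hsph ζ hζ)).2)
    (fun ζ hζ h0 => (hφ _ (hD ζ hζ) h0).1.comp ζ
      ((contDiff_const.add (contDiff_id.smul contDiff_const) :
        ContDiff ℝ 2 fun ζ : ℂ => p + ζ • e).contDiffAt))
    (fun ζ hζ h0 => by
      obtain ⟨C, hC⟩ := hφb _ (hD ζ hζ)
      refine ⟨C, ?_⟩
      have hζ2 : ∀ᶠ w : ℂ in 𝓝 ζ, ‖w‖ < R := by
        refine (continuous_norm.continuousAt (x := ζ)).eventually (gt_mem_nhds ?_)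
        rw [mem_closedBall_zero_iff] at hζ
        linarith
      filter_upwards [(hcont ζ).eventually hC, hζ2] with w h1 h2 h3
      exact h1 ⟨hpg w h2.le, h3⟩)
    (fun ζ hζ => (le_abs_self _).trans (hC' _ (hsph ζ hζ)))
    (fun ζ hζ => mul_nonneg hδ (hh_re_nonneg (hp _ (hD ζ (ball_subset_closedBall hζ)))))
    (fun ζ hζ h0 => by
      have hx := hφ _ (hD ζ (ball_subset_closedBall hζ)) h0
      rw [ddb_line hx.1]
      have h1 := hh_re_nonneg (H := fun _ => cHess φ (p + ζ • e) + (δ : ℂ) • H (p + ζ • e))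
        (x := p + ζ • e) (e := e) hx.2
      rw [hh_add_smul] at h1
      have h2 : (hh (fun _ => cHess φ (p + ζ • e)) e e (p + ζ • e)).re =
        (hh (cHess φ) e e (p + ζ • e)).re := rfl
      have h3 : (hh (fun _ => H (p + ζ • e)) e e (p + ζ • e)).re =
        (hh H e e (p + ζ • e)).re := rfl
      rw [h2, h3] at h1
      linarith)
    (by
      have := hpi.const_mul δ
      refine this.congr (ae_of_all _ fun ζ => ?_)
      simp only []
      ring)
  have e1 : ∫ ζ in ball (0 : ℂ) (R / 2), GJ.Gr (R / 2) ζ * (δ * (hh H e e (p + ζ • e)).re) =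
      δ * ∫ ζ in ball (0 : ℂ) (R / 2), GJ.Gr (R / 2) ζ * (hh H e e (p + ζ • e)).re := by
    rw [← integral_const_mul]
    refine setIntegral_congr_fun measurableSet_ball fun ζ _ => ?_
    ring
  rw [e1] at key
  simpa using key

end

/-- the form vanishing on `{θ = 0}` and outside the domain -/
def Hz (c : Cm 4) (r : ℝ) (θ : Cm 4 → ℂ) (E : Set (Cm 4))
    (H : Cm 4 → Matrix (Fin 4) (Fin 4) ℂ) (z : Cm 4) : Matrix (Fin 4) (Fin 4) ℂ :=
  open Classical in if z ∈ ball c r \ E ∧ θ z = 0 then 0 else H z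

theorem stCoreX : TX.StCoreX := by
  intro c r hr θ hθ hθne E hE H₀ hH₀ hi₀ hc₀ w₀ hw0 hw hC hbl κ hκ hφ
  obtain ⟨hopen, Ω, g, hΩ, hg, hEc⟩ := hE
  -- reduction to forms which are positive everywhere
  have hnull : volume {z ∈ ball c r | θ z = 0} = 0 := by
    refine Vale.Agent.P285.H16.null_zero isOpen_ball (convex_ball c r) hθ ?_
    by_contra h
    push Not at h
    refine hθne c (mem_ball_self hr) ?_
    filter_upwards [ball_mem_nhds c hr] with z hz using h z hz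
  set H := Hz c r θ E H₀ with hHd
  have hHe : ∀ z, θ z ≠ 0 → H z = H₀ z := by
    intro z hz
    simp only [hHd, Hz]
    rw [if_neg]
    exact fun h => hz h.2
  have hHae : ∀ᵐ z, H z = H₀ z := by
    rw [ae_iff]
    refine measure_mono_null (fun z hz => ?_) hnull
    by_contra h2
    refine hz ?_
    simp only [hHd, Hz]
    rw [if_neg]
    exact fun h => h2 ⟨h.1.1, h.2⟩
  have hHnear : ∀ z ∈ ball c r \ E, θ z ≠ 0 → H =ᶠ[𝓝 z] H₀ := by
    intro z hz h0
    filter_upwards [(hθ z hz.1).continuousAt.eventually_ne h0] with w hw using hHe w hw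
  have hHs : ∀ z ∈ ball c r \ E, θ z ≠ 0 → ∀ i j, ContinuousAt (fun w => H w i j) z := by
    intro z hz h0 i j
    refine ((hH₀ z hz h0).1 i j).continuousAt.congr ?_
    filter_upwards [hHnear z hz h0] with w hw
    rw [hw]
  have hHp : ∀ z ∈ ball c r \ E, (H z).PosSemidef := by
    intro z hz
    by_cases h0 : θ z = 0
    · simp only [hHd, Hz]
      rw [if_pos ⟨hz, h0⟩]
      exact Matrix.PosSemidef.zero
    · rw [hHe z h0]
      exact (hH₀ z hz h0).2.2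
  have hi : LocInt (ball c r \ E) H := by
    intro z hz
    obtain ⟨U, hU, hUi⟩ := hi₀ z hz
    refine ⟨U, hU, fun i j => (hUi i j).congr ?_⟩
    filter_upwards [ae_restrict_of_ae hHae] with w hw
    rw [hw]
  have hcl : WeakCl (ball c r \ E) H := by
    intro a ha hac has i j k
    have h1 : ∀ i j k, ∫ z, H z i j * dz k (fun w => (a w : ℂ)) z =
        ∫ z, H₀ z i j * dz k (fun w => (a w : ℂ)) z := by
      intro i j k
      refine integral_congr_ae ?_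
      filter_upwards [hHae] with z hz
      rw [hz]
    rw [h1, h1]
    exact hc₀ a ha hac has i j k
  -- the discs
  obtain ⟨C, hC⟩ := hC
  have hCw : ∀ᶠ w in 𝓝 w₀, w 0 ≠ 0 → bl w ∉ E → ∀ i j, ‖H (bl w) i j‖ ≤ C / ‖w 0‖ ^ 2 := by
    filter_upwards [hC, hbl] with w h1 h2 h3 h4 i j
    rw [hHe _ (h2 h3)]
    exact h1 h3 h4 (h2 h3) i j
  obtain ⟨e, R, η, K, he, hR, hη, hKc, hKD, hin, hK⟩ :=
    exists_setupX hopen hg hEc hθ hw (hθne _ hw)
  obtain ⟨A₀, hA0, hA⟩ := area_boundX hopen hg hEc hθ hHp hi hcl hHs he hR hη hKc hKD hin hK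
  obtain ⟨c₁, M, hc₁, hcM⟩ := wedge_bound (E₀ := E) hw0 he hCw
  set a : ℝ := 2 / Real.pi * A₀ with ha
  have ha0 : 0 ≤ a := mul_nonneg (by positivity) hA0
  set δ : ℝ := κ / (2 * (a + 1)) with hδ
  have hδ0 : 0 < δ := by positivity
  have hδa : δ * a ≤ κ / 2 := by
    rw [hδ, div_mul_eq_mul_div, div_le_div_iff₀ (by positivity) (by norm_num)]
    nlinarith
  obtain ⟨φ, hφ1, hφb, C₂, hφ2⟩ := hφ δ hδ0
  have hφ1' : ∀ z ∈ ball c r \ E, θ z ≠ 0 → ContDiffAt ℝ 2 φ z ∧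
      (cHess φ z + (δ : ℂ) • H z).PosSemidef := by
    intro z hz h0
    rw [hHe z h0]
    exact hφ1 z hz h0
  obtain ⟨C₁, hC₁⟩ := phi_upperX hδ0.le hθ hHp hφ1' hφb hR hKc hKD hin hK
  set B : ℝ := C₁ + C₂ + δ * (a * Real.log (R / 2 / c₁) + M * c₁ ^ 2) with hB
  -- the contradiction for good points of the wedge
  have key : ∀ᶠ w in 𝓝 w₀, w 0 ≠ 0 → (∀ ζ : ℂ, bl w + ζ • e ∉ ball c r ∩ E) →
      κ / 2 * Real.log (1 / ‖w 0‖) ≤ B := by
    have hb : ∀ᶠ w in 𝓝 w₀, bl w ∈ ball (bl w₀) η :=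
      continuous_bl.continuousAt.eventually (ball_mem_nhds _ hη)
    have hs : ∀ᶠ w : Cm 4 in 𝓝 w₀, c₁ * ‖w 0‖ < R / 2 ∧ ‖w 0‖ < 1 := by
      have h2 : ContinuousAt (fun w : Cm 4 => ‖w 0‖) w₀ :=
        (continuous_apply (0 : Fin 4)).norm.continuousAt
      have h1 : ContinuousAt (fun w : Cm 4 => c₁ * ‖w 0‖) w₀ := continuousAt_const.mul h2
      refine (h1.eventually_lt continuousAt_const ?_).and (h2.eventually_lt continuousAt_const ?_)
      · rw [hw0, norm_zero, mul_zero]; positivity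
      · rw [hw0, norm_zero]; exact one_pos
    filter_upwards [hb, hs, hcM, hφ2, hbl] with w hbw hsw hcw hφw hblw hwne hgood
    have ht : 0 < ‖w 0‖ := norm_pos_iff.2 hwne
    have hgood' : ∀ ζ : ℂ, ‖ζ‖ ≤ R → bl w + ζ • e ∉ E := fun ζ hζ h =>
      hgood ζ ⟨hin _ hbw ζ hζ, h⟩
    have hbE : bl w ∉ E := by simpa using hgood' 0 (by simpa using hR.le)
    have hθw : θ (bl w) ≠ 0 := hblw hwne
    obtain ⟨hAi, hAb⟩ := hA _ hbw hgood' hθw
    have h2 := green_splitX (f := fun ζ : ℂ => (hh H e e (bl w + ζ • e)).re) (R := R / 2)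
      (s := c₁ * ‖w 0‖) (M := M / ‖w 0‖ ^ 2) (A := A₀) (by positivity) hsw.1.le hAi
      (fun ζ hζ => by
        rw [mem_ball_zero_iff] at hζ
        exact hh_re_nonneg (hHp _ ⟨hin _ hbw ζ (by linarith), hgood' ζ (by linarith)⟩))
      (fun ζ hζ => by
        rw [mem_ball_zero_iff] at hζ
        exact hcw hwne ζ hζ (hgood' ζ (by linarith [hsw.1])))
      hAb
    have h1 := hC₁ _ hbw hgood' hθw h2.1
    have hlow := hφw hwne hbE
    have h2 := h2.2
    have e1 : M / ‖w 0‖ ^ 2 * (c₁ * ‖w 0‖) ^ 2 = M * c₁ ^ 2 := by field_simp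
    have e2 : Real.log (R / 2 / (c₁ * ‖w 0‖)) = Real.log (R / 2 / c₁) + Real.log (1 / ‖w 0‖) := by
      rw [← Real.log_mul (by positivity) (by positivity)]
      congr 1
      field_simp
    rw [e1, e2] at h2
    have hl0 : 0 ≤ Real.log (1 / ‖w 0‖) :=
      Real.log_nonneg ((one_le_div ht).2 hsw.2.le)
    have h3 : δ * ∫ ζ in ball (0 : ℂ) (R / 2), GJ.Gr (R / 2) ζ * (hh H e e (bl w + ζ • e)).re ≤
        δ * (2 / Real.pi * (Real.log (R / 2 / c₁) + Real.log (1 / ‖w 0‖)) * A₀ + M * c₁ ^ 2) :=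
      mul_le_mul_of_nonneg_left h2 hδ0.le
    have h4 : δ * (2 / Real.pi * (Real.log (R / 2 / c₁) + Real.log (1 / ‖w 0‖)) * A₀ +
        M * c₁ ^ 2) =
        δ * (a * Real.log (R / 2 / c₁) + M * c₁ ^ 2) + (δ * a) * Real.log (1 / ‖w 0‖) := by
      rw [ha]; ring
    have h5 : (δ * a) * Real.log (1 / ‖w 0‖) ≤ κ / 2 * Real.log (1 / ‖w 0‖) := by gcongr
    rw [hB]
    linarith
  -- points with `‖w 0‖` small
  have hsmall : ∀ᶠ w : Cm 4 in 𝓝 w₀, ‖w 0‖ < Real.exp (-(2 * |B| / κ + 1)) := by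
    have h2 : ContinuousAt (fun w : Cm 4 => ‖w 0‖) w₀ :=
      (continuous_apply (0 : Fin 4)).norm.continuousAt
    refine h2.eventually_lt continuousAt_const ?_
    rw [hw0, norm_zero]; positivity
  obtain ⟨w, ⟨h1, h2⟩, hwne, hgood⟩ := exists_good hg hEc hw0 e (key.and hsmall)
  have ht : 0 < ‖w 0‖ := norm_pos_iff.2 hwne
  have h3 := h1 hwne hgood
  have h4 : 2 * |B| / κ + 1 < Real.log (1 / ‖w 0‖) := by
    rw [one_div, Real.log_inv]
    have := Real.log_lt_log ht h2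
    rw [Real.log_exp] at this
    linarith
  have h5 : κ / 2 * (2 * |B| / κ + 1) < κ / 2 * Real.log (1 / ‖w 0‖) := by gcongr
  have h6 : κ / 2 * (2 * |B| / κ + 1) = |B| + κ / 2 := by field_simp
  have h7 := le_abs_self B
  linarith

end Vale.Agent.P277.TD

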