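import Vale.Agent.P277.Stmts2

/-!
# P277, task TD: the two halves of `StTD`
-/

open scoped Manifold ContDiff ComplexOrder Topology
open Vale.Agent.P272.K Vale.Agent.P285.H281.FD Set Metric

noncomputable section

namespace Vale.Agent.P277.TD

/-- analytic half (no manifold): a closed semipositive form `H` on `B \ E₀` with a bound at the
wedge, and `δ H`-plurisubharmonic functions which tend to infinity at the wedge. -/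
def StCore : Prop :=
  ∀ (r : ℝ) (E₀ : Set (Cm 4)) (_ : IsOpen (ball (0 : Cm 4) r \ E₀))
    (Ω : ℕ → Set (Cm 2)) (g : ℕ → Cm 2 → Cm 4) (_ : ∀ k, ∀ p ∈ Ω k, AnalyticAt ℂ (g k) p)
    (_ : E₀ ⊆ ⋃ k, g k '' Ω k) (H : Cm 4 → Matrix (Fin 4) (Fin 4) ℂ)
    (_ : ∀ x ∈ ball (0 : Cm 4) r \ E₀, ∀ i j, ContDiffAt ℝ 1 (fun y => H y i j) x)
    (_ : ∀ x ∈ ball (0 : Cm 4) r \ E₀, ∀ i j k,
      dz k (fun y => H y i j) x = dz i (fun y => H y k j) x)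
    (_ : ∀ x ∈ ball (0 : Cm 4) r \ E₀, (H x).PosSemidef)
    (w₀ : Cm 4) (_ : w₀ 0 = 0) (_ : bl w₀ ∈ ball (0 : Cm 4) r)
    (_ : ∃ C : ℝ, ∀ᶠ w in 𝓝 w₀, w 0 ≠ 0 → bl w ∉ E₀ → ∀ i j, ‖H (bl w) i j‖ ≤ C / ‖w 0‖ ^ 2)
    (κ : ℝ) (_ : 0 < κ)
    (_ : ∀ δ : ℝ, 0 < δ → ∃ φ : Cm 4 → ℝ, (∀ x ∈ ball (0 : Cm 4) r \ E₀, ContDiffAt ℝ 2 φ x ∧
        (cHess φ x + (δ : ℂ) • H x).PosSemidef) ∧
      ∃ C' : ℝ, ∀ᶠ w in 𝓝 w₀, w 0 ≠ 0 → bl w ∉ E₀ →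
        κ * Real.log (1 / ‖w 0‖) - C' ≤ φ (bl w)), False

/-- geometric half: `H` is the pull-back of the Kähler form by `ρ`, and
`φ = -log |n_i|² + q ψ_i ∘ ρ`. -/
def StPull : Prop :=
  ∀ (Y : Type) [TopologicalSpace Y] [T2Space Y] [CompactSpace Y] [ChartedSpace (Cm 4) Y]
    [IsManifold 𝓘(ℂ, Cm 4) ω Y] (χ : Chart 4 Y → Cm 4 → Matrix (Fin 4) (Fin 4) ℂ)
    (_ : IsKahler χ) (M : Bd Y) (_ : IsLB 4 M) (_ : Nef χ M) (q : ℕ) (D : Set (Cm 4))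
    (_ : IsOpen D) (ρ : Cm 4 → Y) (_ : ∀ x ∈ D, ContinuousAt ρ x ∧
      ∀ e : Chart 4 Y, At e (ρ x) → AnalyticAt ℂ (fun z => e (ρ z)) x)
    (n : M.ι → Cm 4 → ℂ) (_ : ∀ i, ∀ x ∈ D, ρ x ∈ M.U i → AnalyticAt ℂ (n i) x ∧ n i x ≠ 0)
    (_ : ∀ i j, ∀ x ∈ D, ρ x ∈ M.U i → ρ x ∈ M.U j → n i x = M.g i j (ρ x) ^ q * n j x)
    (w₀ : Cm 4) (γ₀ : Cm 4 → Y) (_ : ContinuousAt γ₀ w₀) (_ : ∀ e : Chart 4 Y, At e (γ₀ w₀) →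
      AnalyticAt ℂ (fun z => e (γ₀ z)) w₀)
    (_ : ∀ᶠ w in 𝓝 w₀, bl w ∈ D → γ₀ w = ρ (bl w)) (i : M.ι) (_ : γ₀ w₀ ∈ M.U i)
    (ν : ℕ) (Φ : Cm 4 → ℂ) (_ : ContinuousAt Φ w₀)
    (_ : ∀ᶠ w in 𝓝 w₀, bl w ∈ D → n i (bl w) = w 0 ^ ν * Φ w),
    ∃ H : Cm 4 → Matrix (Fin 4) (Fin 4) ℂ,
      (∀ x ∈ D, ∀ i j, ContDiffAt ℝ 1 (fun y => H y i j) x) ∧
      (∀ x ∈ D, ∀ i j k, dz k (fun y => H y i j) x = dz i (fun y => H y k j) x) ∧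
      (∀ x ∈ D, (H x).PosSemidef) ∧
      (∃ C : ℝ, ∀ᶠ w in 𝓝 w₀, w 0 ≠ 0 → bl w ∈ D → ∀ i j, ‖H (bl w) i j‖ ≤ C / ‖w 0‖ ^ 2) ∧
      ∀ δ : ℝ, 0 < δ → ∃ φ : Cm 4 → ℝ, (∀ x ∈ D, ContDiffAt ℝ 2 φ x ∧
          (cHess φ x + (δ : ℂ) • H x).PosSemidef) ∧
        ∃ C' : ℝ, ∀ᶠ w in 𝓝 w₀, w 0 ≠ 0 → bl w ∈ D →
          2 * ν * Real.log (1 / ‖w 0‖) - C' ≤ φ (bl w)

theorem stTD_of (hC : StCore) (hP : StPull) : StTD := by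
  intro Y _ _ _ _ _ χ hχ M hM hN q r hr E₀ hopen Ω g hΩ hg hE ρ hρ n hn hch w₀ hw0 hw γ₀ hγc hγa
    hγ i hi ν hν Φ hΦ hΦ0 hnΦ
  have hball : ∀ᶠ w in 𝓝 w₀, bl w ∈ ball (0 : Cm 4) r := by
    have hc : Continuous bl := by
      refine continuous_pi fun a => ?_
      fin_cases a <;> simp [bl] <;> fun_prop
    exact hc.continuousAt.eventually (isOpen_ball.mem_nhds hw)
  obtain ⟨H, h1, h2, h3, ⟨C, h4⟩, h5⟩ := hP Y χ hχ M hM hN q (ball (0 : Cm 4) r \ E₀) hopen ρ hρ n hn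
    hch w₀ γ₀ hγc hγa (by filter_upwards [hγ] with w h1 h2 using h1 h2.2) i hi ν Φ hΦ
    (by filter_upwards [hnΦ] with w h1 h2 using h1 h2.2)
  refine hC r E₀ hopen Ω g hg hE H h1 h2 h3 w₀ hw0 hw ⟨C, ?_⟩ (2 * ν) (by positivity) ?_
  · filter_upwards [h4, hball] with w a1 a2 a3 a4 using a1 a3 ⟨a2, a4⟩
  · intro δ hδ
    obtain ⟨φ, hφ, C', hC'⟩ := h5 δ hδ
    refine ⟨φ, hφ, C', ?_⟩
    filter_upwards [hC', hball] with w a1 a2 a3 a4 using a1 a3 ⟨a2, a4⟩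

end Vale.Agent.P277.TD
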