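import Vale.Agent.P277.H762.L1a
import Vale.Agent.P277.H335.RE
import Vale.Agent.P277.H622.B1
import Vale.Agent.P277.H73.IFT

/-!
# P277, task CL (closure of hypersurfaces): extension theorems, straightening, division
-/

open scoped Manifold ContDiff Topology
open Vale.Agent.P272.K Set Filter Metric MeasureTheory
open Vale.Agent.P277.H335

noncomputable section

namespace Vale.Agent.P277.H762

/-! ### thin sets -/

section thin

variable {V V' : Type*} [NormedAddCommGroup V] [NormedSpace ℂ V] [NormedAddCommGroup V']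
  [NormedSpace ℂ V']

theorem Cv.succ {k : ℕ} {S : Set V} (h : Cv k S) : Cv (k + 1) S := by
  obtain ⟨Ω, g, h1, h2, h3⟩ := h
  refine ⟨fun l => ini k ⁻¹' Ω l, fun l p => g l (ini k p),
    fun l => (h1 l).preimage (ini k).continuous,
    fun l p hp => (h2 l _ hp).comp_of_eq ((ini k).analyticAt p) rfl, fun x hx => ?_⟩
  obtain ⟨l, q, hq, hqx⟩ := mem_iUnion.1 (h3 hx)
  refine mem_iUnion.2 ⟨l, Fin.snoc q 0, ?_, ?_⟩
  · show ini k _ ∈ Ω l
    rw [ini_snoc]; exact hq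
  · simp only [ini_snoc]; exact hqx

theorem Cv.dense_compl [FiniteDimensional ℂ V] {k : ℕ} {S : Set V} (h : Cv k S)
    (hk : k < Module.finrank ℂ V) : Dense Sᶜ := by
  intro x
  rw [mem_closure_iff_nhds]
  intro N hN
  by_contra hcon
  have h1 : N ⊆ S := by
    intro z hz
    by_contra hzS
    exact hcon ⟨z, hz, hzS⟩
  exact not_cv_nhds hk hN (h.mono h1)

/-- an open set minus a thin set is dense in the open set -/
theorem Cv.mem_closure [FiniteDimensional ℂ V] {k : ℕ} {S Ω : Set V} (h : Cv k (Ω ∩ S))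
    (hk : k < Module.finrank ℂ V) (hΩ : IsOpen Ω) {x : V} (hx : x ∈ Ω) : x ∈ closure (Ω \ S) := by
  have h1 := (h.dense_compl hk).open_subset_closure_inter hΩ hx
  refine closure_mono ?_ h1
  rintro z ⟨hz, hz'⟩
  exact ⟨hz, fun hzS => hz' ⟨hz, hzS⟩⟩

/-- Riemann extension across thin sets, in a finite dimensional space -/
theorem riemann_ext_cv [FiniteDimensional ℂ V] {n : ℕ} (hV : Module.finrank ℂ V = n + 1)
    {Ω E : Set V} (hΩ : IsOpen Ω) (hΩE : IsOpen (Ω \ E)) (hE : Cv n (Ω ∩ E)) {f : V → ℂ}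
    (hf : ∀ z ∈ Ω \ E, AnalyticAt ℂ f z)
    (hb : ∀ z ∈ Ω, ∃ C, ∀ᶠ w in 𝓝 z, w ∉ E → ‖f w‖ ≤ C) :
    ∃ F : V → ℂ, (∀ z ∈ Ω, AnalyticAt ℂ F z) ∧ ∀ z ∈ Ω \ E, F z = f z := by
  let e : V ≃L[ℂ] Cm (n + 1) := ContinuousLinearEquiv.ofFinrankEq (by simp [hV])
  have h1 : Cv n (e.symm ⁻¹' Ω ∩ e.symm ⁻¹' E) := by
    refine (hE.image isOpen_univ (subset_univ _) (F := e) fun z _ =>
      (e : V →L[ℂ] Cm (n + 1)).analyticAt z).mono ?_
    rintro z ⟨h1, h2⟩
    exact ⟨e.symm z, ⟨h1, h2⟩, e.apply_symm_apply z⟩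
  obtain ⟨W, g, -, hg, hcov⟩ := h1
  obtain ⟨F, hF, hFf⟩ := riemann_ext (Ω := e.symm ⁻¹' Ω) (E := e.symm ⁻¹' E) (W := W) (g := g)
    (f := fun z => f (e.symm z)) (hΩ.preimage e.symm.continuous)
    (hΩE.preimage e.symm.continuous) hg hcov
    (fun z hz => (hf (e.symm z) hz).comp_of_eq
      ((e.symm : Cm (n + 1) →L[ℂ] V).analyticAt z) rfl)
    (fun z hz => by
      obtain ⟨C, hC⟩ := hb (e.symm z) hz
      exact ⟨C, (e.symm.continuous.continuousAt (x := z)).eventually hC⟩)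
  refine ⟨fun z => F (e z), fun z hz => ?_, fun z hz => ?_⟩
  · refine (hF (e z) ?_).comp_of_eq ((e : V →L[ℂ] Cm (n + 1)).analyticAt z) rfl
    show e.symm (e z) ∈ Ω
    rw [e.symm_apply_apply]; exact hz
  · have h2 := hFf (e z) (by
      show e.symm (e z) ∈ Ω ∧ ¬ e.symm (e z) ∈ E
      rw [e.symm_apply_apply]; exact hz)
    show F (e z) = f z
    rw [h2, e.symm_apply_apply]

end thin

/-! ### Hartogs extension -/

section hartogs

/-- the value at the centre of a disc avoiding the singularities is bounded by the values on the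
circle -/
theorem disc_bound {V : Type*} [NormedAddCommGroup V] [NormedSpace ℂ V] {f : V → ℂ} {z v : V}
    {C : ℝ} (hf : ∀ ζ ∈ closedBall (0 : ℂ) 1, AnalyticAt ℂ f (z + ζ • v))
    (hb : ∀ ζ ∈ sphere (0 : ℂ) 1, ‖f (z + ζ • v)‖ ≤ C) : ‖f z‖ ≤ C := by
  have h1 : DiffContOnCl ℂ (fun ζ : ℂ => f (z + ζ • v)) (ball 0 1) := by
    refine DifferentiableOn.diffContOnCl fun ζ hζ => ?_
    rw [closure_ball (0 : ℂ) one_ne_zero] at hζ
    have h2 : DifferentiableAt ℂ (fun ζ : ℂ => z + ζ • v) ζ := by fun_prop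
    have h3 : DifferentiableAt ℂ f (z + ζ • v) := (hf ζ hζ).differentiableAt
    exact (DifferentiableAt.comp (g := f) ζ h3 h2).differentiableWithinAt
  have h2 := Complex.norm_le_of_forall_mem_frontier_norm_le (U := ball (0 : ℂ) 1) isBounded_ball h1
    (C := C) (fun ζ hζ => hb ζ (by rwa [frontier_ball (0 : ℂ) one_ne_zero] at hζ))
    (subset_closure (mem_ball_self one_pos))
  simpa using h2

theorem hartogs_bdd {n : ℕ} {Ω E : Set (Cm (n + 2))} (hΩ : IsOpen Ω) (hΩE : IsOpen (Ω \ E))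
    (hE : Cv n (Ω ∩ E)) {f : Cm (n + 2) → ℂ} (hf : ∀ z ∈ Ω \ E, AnalyticAt ℂ f z) {z0 : Cm (n + 2)}
    (hz0 : z0 ∈ Ω) : ∃ C, ∀ᶠ w in 𝓝 z0, w ∉ E → ‖f w‖ ≤ C := by
  obtain ⟨W, g, -, hg, hcov⟩ := hE
  obtain ⟨R, hR, hRΩ⟩ := Metric.isOpen_iff.1 hΩ z0 hz0
  -- the direction
  have hT1 := volume_thin (n := n + 1)
    (W := fun k => {w : Cm (n + 1) | ini n w ∈ W k ∧ lst n w ≠ 0})
    (g := fun k w => (lst n w)⁻¹ • (g k (ini n w) - z0)) (fun k w hw => by
      have h2 : AnalyticAt ℂ (fun x => g k (ini n x)) w :=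
        (hg k _ hw.1).comp_of_eq ((ini n).analyticAt w) rfl
      exact (((lst n).analyticAt w).inv hw.2).smul (h2.sub analyticAt_const))
  obtain ⟨v, hvR, hvT⟩ := (dense_compl_of_null hT1).inter_open_nonempty (ball 0 R) isOpen_ball
    ⟨0, mem_ball_self hR⟩
  have hv1 : ∀ ζ : ℂ, ζ ≠ 0 → z0 + ζ • v ∈ Ω → z0 + ζ • v ∉ E := by
    intro ζ hζ hΩ' hE'
    apply hvT
    obtain ⟨k, q, hq, hqe⟩ := mem_iUnion.1 (hcov ⟨hΩ', hE'⟩)
    refine mem_iUnion.2 ⟨k, Fin.snoc q ζ, ⟨?_, ?_⟩, ?_⟩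
    · rw [ini_snoc]; exact hq
    · rw [lst_snoc]; exact hζ
    · show (lst n _)⁻¹ • (g k (ini n _) - z0) = v
      rw [ini_snoc, lst_snoc, hqe, add_sub_cancel_left, smul_smul, inv_mul_cancel₀ hζ, one_smul]
  have hT2 := volume_thin (n := n + 1) (W := fun k => {w : Cm (n + 1) | ini n w ∈ W k})
    (g := fun k w => g k (ini n w) - lst n w • v) (fun k w hw => by
      have h2 : AnalyticAt ℂ (fun x => g k (ini n x)) w :=
        (hg k _ hw).comp_of_eq ((ini n).analyticAt w) rfl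
      exact h2.sub (((lst n).analyticAt w).smul analyticAt_const))
  set T2 := ⋃ k, (fun w : Cm (n + 1) => g k (ini n w) - lst n w • v) ''
    {w : Cm (n + 1) | ini n w ∈ W k} with hT2d
  have hv2 : ∀ z ∉ T2, ∀ ζ : ℂ, z + ζ • v ∈ Ω → z + ζ • v ∉ E := by
    intro z hz ζ hΩ' hE'
    apply hz
    obtain ⟨k, q, hq, hqe⟩ := mem_iUnion.1 (hcov ⟨hΩ', hE'⟩)
    refine mem_iUnion.2 ⟨k, Fin.snoc q ζ, ?_, ?_⟩
    · show ini n _ ∈ W k
      rw [ini_snoc]; exact hq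
    · show g k (ini n _) - lst n _ • v = z
      rw [ini_snoc, lst_snoc, hqe, add_sub_cancel_right]
  have hdense := dense_compl_of_null hT2
  -- the tube
  have hlin : Continuous fun p : Cm (n + 2) × ℂ => p.1 + p.2 • v := by fun_prop
  have hdisc : ∀ ζ : ℂ, ‖ζ‖ ≤ 1 → z0 + ζ • v ∈ Ω := by
    intro ζ hζ
    apply hRΩ
    rw [mem_ball_iff_norm, add_sub_cancel_left, norm_smul]
    rw [mem_ball_zero_iff] at hvR
    have h1 : ‖ζ‖ * ‖v‖ ≤ 1 * ‖v‖ := mul_le_mul_of_nonneg_right hζ (norm_nonneg v)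
    linarith
  obtain ⟨U1, W1, hU1, hW1, hzU1, hW1s, hUW1⟩ := generalized_tube_lemma
    (s := {z0}) (t := closedBall (0 : ℂ) 1) isCompact_singleton (isCompact_closedBall 0 1)
    (hΩ.preimage hlin) (by
      rintro ⟨z, ζ⟩ ⟨hz, hζ⟩
      simp only [mem_singleton_iff] at hz
      subst hz
      exact hdisc ζ (by simpa using hζ))
  obtain ⟨U2, W2, hU2, hW2, hzU2, hW2s, hUW2⟩ := generalized_tube_lemma
    (s := {z0}) (t := sphere (0 : ℂ) 1) isCompact_singleton (isCompact_sphere 0 1)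
    (hΩE.preimage hlin) (by
      rintro ⟨z, ζ⟩ ⟨hz, hζ⟩
      simp only [mem_singleton_iff] at hz
      subst hz
      have hζ' : ‖ζ‖ = 1 := by simpa using hζ
      have h0 : ζ ≠ 0 := by
        rintro rfl
        rw [norm_zero] at hζ'
        exact one_ne_zero hζ'.symm
      exact ⟨hdisc ζ hζ'.le, hv1 ζ h0 (hdisc ζ hζ'.le)⟩)
  obtain ⟨s, hs, hsU⟩ : ∃ s > 0, closedBall z0 s ⊆ U1 ∩ U2 := by
    obtain ⟨s, hs, h⟩ := Metric.isOpen_iff.1 (hU1.inter hU2) z0 ⟨hzU1 rfl, hzU2 rfl⟩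
    exact ⟨s / 2, by positivity, (closedBall_subset_ball (by linarith)).trans h⟩
  have hcomp : IsCompact (closedBall z0 s ×ˢ sphere (0 : ℂ) 1) :=
    (isCompact_closedBall z0 s).prod (isCompact_sphere 0 1)
  obtain ⟨C, hC⟩ := hcomp.exists_bound_of_continuousOn
    (f := fun p : Cm (n + 2) × ℂ => f (p.1 + p.2 • v)) (by
      rintro ⟨z, ζ⟩ ⟨hz, hζ⟩
      have h1 : z + ζ • v ∈ Ω \ E := hUW2 (show (z, ζ) ∈ U2 ×ˢ W2 from ⟨(hsU hz).2, hW2s hζ⟩)
      have h2 : ContinuousAt f (z + ζ • v) := (hf _ h1).continuousAt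
      exact (ContinuousAt.comp (g := f) (f := fun p : Cm (n + 2) × ℂ => p.1 + p.2 • v)
        (x := (z, ζ)) h2 hlin.continuousAt).continuousWithinAt)
  refine ⟨C, ?_⟩
  have hgood : ∀ z ∈ ball z0 s, z ∉ T2 → ‖f z‖ ≤ C := by
    intro z hz hzT
    have hz' := ball_subset_closedBall hz
    refine disc_bound (v := v) (fun ζ hζ => ?_) fun ζ hζ => ?_
    · have h1 : z + ζ • v ∈ Ω := hUW1 (show (z, ζ) ∈ U1 ×ˢ W1 from ⟨(hsU hz').1, hW1s hζ⟩)
      exact hf _ ⟨h1, hv2 z hzT ζ h1⟩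
    · exact hC (z, ζ) ⟨hz', hζ⟩
  have hUΩ : ∀ z ∈ closedBall z0 s, z ∈ Ω := by
    intro z hz
    have h1 : z + (0 : ℂ) • v ∈ Ω := hUW1 (show (z, (0 : ℂ)) ∈ U1 ×ˢ W1 from
      ⟨(hsU hz).1, hW1s (mem_closedBall_self zero_le_one)⟩)
    simpa using h1
  filter_upwards [ball_mem_nhds z0 hs] with w hw hwE
  have hne : (𝓝[T2ᶜ] w).NeBot := mem_closure_iff_nhdsWithin_neBot.1 (hdense w)
  have h1 : Tendsto f (𝓝[T2ᶜ] w) (𝓝 (f w)) :=
    (hf w ⟨hUΩ w (ball_subset_closedBall hw), hwE⟩).continuousAt.mono_left nhdsWithin_le_nhds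
  refine le_of_tendsto h1.norm ?_
  filter_upwards [mem_nhdsWithin_of_mem_nhds (isOpen_ball.mem_nhds hw), self_mem_nhdsWithin]
    with z h2 h3 using hgood z h2 h3

variable {V : Type*} [NormedAddCommGroup V] [NormedSpace ℂ V] [FiniteDimensional ℂ V]

/-- **Hartogs**: holomorphic functions extend across thin sets of codimension two. -/
theorem hartogs_cv {n : ℕ} (hV : Module.finrank ℂ V = n + 2)
    {Ω E : Set V} (hΩ : IsOpen Ω) (hΩE : IsOpen (Ω \ E)) (hE : Cv n (Ω ∩ E)) {f : V → ℂ}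
    (hf : ∀ z ∈ Ω \ E, AnalyticAt ℂ f z) :
    ∃ F : V → ℂ, (∀ z ∈ Ω, AnalyticAt ℂ F z) ∧ ∀ z ∈ Ω \ E, F z = f z := by
  let e : V ≃L[ℂ] Cm (n + 2) := ContinuousLinearEquiv.ofFinrankEq (by simp [hV])
  have h1 : Cv n (e.symm ⁻¹' Ω ∩ e.symm ⁻¹' E) := by
    refine (hE.image isOpen_univ (subset_univ _) (F := e) fun z _ =>
      (e : V →L[ℂ] Cm (n + 2)).analyticAt z).mono ?_
    rintro z ⟨h1, h2⟩
    exact ⟨e.symm z, ⟨h1, h2⟩, e.apply_symm_apply z⟩
  refine riemann_ext_cv (n := n + 1) hV hΩ hΩE hE.succ hf fun z hz => ?_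
  obtain ⟨C, hC⟩ := hartogs_bdd (Ω := e.symm ⁻¹' Ω) (E := e.symm ⁻¹' E)
    (f := fun z => f (e.symm z)) (z0 := e z) (hΩ.preimage e.symm.continuous)
    (hΩE.preimage e.symm.continuous) h1
    (fun z hz => (hf (e.symm z) hz).comp_of_eq
      ((e.symm : Cm (n + 2) →L[ℂ] V).analyticAt z) rfl) (by
      show e.symm (e z) ∈ Ω
      rw [e.symm_apply_apply]; exact hz)
  refine ⟨C, ?_⟩
  have h2 := (e.continuous.continuousAt (x := z)).eventually hC
  filter_upwards [h2] with w hw hwE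
  have h3 := hw (by
    show ¬ e.symm (e w) ∈ E
    rw [e.symm_apply_apply]; exact hwE)
  rwa [e.symm_apply_apply] at h3

/-- nonvanishing holomorphic functions extend to nonvanishing functions -/
theorem hartogs_unit {n : ℕ} (hV : Module.finrank ℂ V = n + 2)
    {Ω E : Set V} (hΩ : IsOpen Ω) (hΩE : IsOpen (Ω \ E)) (hE : Cv n (Ω ∩ E)) {f : V → ℂ}
    (hf : ∀ z ∈ Ω \ E, AnalyticAt ℂ f z ∧ f z ≠ 0) :
    ∃ F : V → ℂ, (∀ z ∈ Ω, AnalyticAt ℂ F z ∧ F z ≠ 0) ∧ ∀ z ∈ Ω \ E, F z = f z := by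
  obtain ⟨F, hF, hFf⟩ := hartogs_cv hV hΩ hΩE hE fun z hz => (hf z hz).1
  obtain ⟨G, hG, hGf⟩ := hartogs_cv hV hΩ hΩE hE (f := fun z => (f z)⁻¹)
    fun z hz => (hf z hz).1.inv (hf z hz).2
  refine ⟨F, fun z hz => ⟨hF z hz, fun h0 => ?_⟩, hFf⟩
  have h1 : z ∈ closure (Ω \ E) := hE.mem_closure (by omega) hΩ hz
  have hne : (𝓝[Ω \ E] z).NeBot := mem_closure_iff_nhdsWithin_neBot.1 h1
  have h2 : Tendsto (fun w => F w * G w) (𝓝[Ω \ E] z) (𝓝 (F z * G z)) :=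
    ((hF z hz).continuousAt.mul (hG z hz).continuousAt).mono_left nhdsWithin_le_nhds
  have h3 : Tendsto (fun w => F w * G w) (𝓝[Ω \ E] z) (𝓝 1) := by
    refine tendsto_const_nhds.congr' ?_
    filter_upwards [self_mem_nhdsWithin] with w hw
    rw [hFf w hw, hGf w hw, mul_inv_cancel₀ (hf w hw).2]
  have h4 := tendsto_nhds_unique h2 h3
  rw [h0, zero_mul] at h4
  exact zero_ne_one h4

/-- a holomorphic function with thin zero set has no zeros -/
theorem ne_zero_of_cv {n : ℕ} (hV : Module.finrank ℂ V = n + 2)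
    {Ω : Set V} (hΩ : IsOpen Ω) {f : V → ℂ} (hf : ∀ z ∈ Ω, AnalyticAt ℂ f z)
    (hE : Cv n (Ω ∩ {z | f z = 0})) {z : V} (hz : z ∈ Ω) : f z ≠ 0 := by
  have hΩE : IsOpen (Ω \ {z | f z = 0}) := by
    rw [isOpen_iff_mem_nhds]
    rintro w ⟨hw, hw'⟩
    filter_upwards [hΩ.mem_nhds hw, (hf w hw).continuousAt.eventually_ne hw'] with x h1 h2
      using ⟨h1, h2⟩
  obtain ⟨F, hF, hFf⟩ := hartogs_unit hV hΩ hΩE hE fun z hz => ⟨hf z hz.1, hz.2⟩
  have h1 : z ∈ closure (Ω \ {z | f z = 0}) := hE.mem_closure (by omega) hΩ hz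
  have hne : (𝓝[Ω \ {z | f z = 0}] z).NeBot := mem_closure_iff_nhdsWithin_neBot.1 h1
  have h2 : Tendsto F (𝓝[Ω \ {z | f z = 0}] z) (𝓝 (F z)) :=
    (hF z hz).1.continuousAt.mono_left nhdsWithin_le_nhds
  have h3 : Tendsto f (𝓝[Ω \ {z | f z = 0}] z) (𝓝 (f z)) :=
    (hf z hz).continuousAt.mono_left nhdsWithin_le_nhds
  have h4 := tendsto_nhds_unique (h3.congr' (by
    filter_upwards [self_mem_nhdsWithin] with w hw using (hFf w hw).symm)) h2
  rw [h4]
  exact (hF z hz).2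

end hartogs

/-! ### straightening and division -/

section straight

variable {V V' : Type*} [NormedAddCommGroup V] [NormedSpace ℂ V] [NormedAddCommGroup V']
  [NormedSpace ℂ V'] [CompleteSpace V] [CompleteSpace V']

/-- Inverse function theorem for analytic maps. -/
theorem exists_localInvV {F : V → V'} {p : V} (hF : AnalyticAt ℂ F p) (i : V ≃L[ℂ] V')
    (hi : (i : V →L[ℂ] V') = fderiv ℂ F p) :
    ∃ e : OpenPartialHomeomorph V V', (⇑e = F) ∧ p ∈ e.source ∧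
      (∀ q ∈ e.source, AnalyticAt ℂ F q) ∧ ∀ z ∈ e.target, AnalyticAt ℂ e.symm z := by
  have hcd : ContDiffAt ℂ 1 F p := hF.contDiffAt
  have hfd : HasFDerivAt F (i : V →L[ℂ] V') p := by
    rw [hi]
    exact hF.differentiableAt.hasFDerivAt
  let e₀ := hcd.toOpenPartialHomeomorph F hfd one_ne_zero
  have he₀ : (⇑e₀ : V → V') = F := rfl
  have hp : p ∈ e₀.source := hcd.mem_toOpenPartialHomeomorph_source hfd one_ne_zero
  have h1 : ∀ᶠ q in 𝓝 p, AnalyticAt ℂ F q := hF.eventually_analyticAt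
  have h2 : ∀ᶠ q in 𝓝 p, ∃ j : V ≃L[ℂ] V', (j : V →L[ℂ] V') = fderiv ℂ F q := by
    have h3 : {A : V →L[ℂ] V' | ∃ j : V ≃L[ℂ] V', (j : V →L[ℂ] V') = A} ∈
        𝓝 (fderiv ℂ F p) := by
      have := i.nhds
      rw [hi] at this
      exact this
    exact (hF.fderiv.continuousAt) h3
  obtain ⟨O, hO, hOo, hpO⟩ := _root_.eventually_nhds_iff.1 (h1.and h2)
  refine ⟨e₀.restrOpen O hOo, ?_, ?_, ?_, ?_⟩
  · exact he₀
  · simp only [OpenPartialHomeomorph.restrOpen_source]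
    exact ⟨hp, hpO⟩
  · intro q hq
    simp only [OpenPartialHomeomorph.restrOpen_source] at hq
    exact (hO q hq.2).1
  · intro z hz
    have hz' := (e₀.restrOpen O hOo).map_target hz
    simp only [OpenPartialHomeomorph.restrOpen_source] at hz'
    obtain ⟨j, hj⟩ := (hO _ hz'.2).2
    exact (e₀.restrOpen O hOo).analyticAt_symm (i := j) hz (hO _ hz'.2).1 hj.symm

end straight

section straight

variable {V : Type*} [NormedAddCommGroup V] [NormedSpace ℂ V] [FiniteDimensional ℂ V]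

/-- completing a linear form to linear coordinates -/
theorem exists_lin {n : ℕ} (hV : Module.finrank ℂ V = n + 1) {l : V →L[ℂ] ℂ} (hl : l ≠ 0) :
    ∃ i : V ≃L[ℂ] ℂ × Cm n, ∀ v, (i v).1 = l v := by
  obtain ⟨w, hw⟩ : ∃ w, l w ≠ 0 := by
    by_contra hcon
    push Not at hcon
    exact hl (ContinuousLinearMap.ext hcon)
  have hsurj : Function.Surjective l := by
    intro c
    refine ⟨(c / l w) • w, ?_⟩
    rw [map_smul, smul_eq_mul, div_mul_cancel₀ _ hw]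
  have hker : Module.finrank ℂ (LinearMap.ker (l : V →ₗ[ℂ] ℂ)) = n := by
    have h1 := LinearMap.finrank_range_add_finrank_ker (l : V →ₗ[ℂ] ℂ)
    rw [LinearMap.range_eq_top.2 hsurj, finrank_top, Module.finrank_self, hV] at h1
    omega
  let c : LinearMap.ker (l : V →ₗ[ℂ] ℂ) ≃ₗ[ℂ] Cm n := LinearEquiv.ofFinrankEq _ _ (by simp [hker])
  let pr : V →ₗ[ℂ] LinearMap.ker (l : V →ₗ[ℂ] ℂ) :=
    { toFun := fun v => ⟨v - (l v / l w) • w, by
        rw [LinearMap.mem_ker]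
        show l _ = 0
        rw [map_sub, map_smul, smul_eq_mul, div_mul_cancel₀ _ hw, sub_self]⟩
      map_add' := fun x y => by
        ext
        simp only [Submodule.coe_add, map_add, add_div, add_smul]
        abel
      map_smul' := fun a x => by
        ext
        simp only [Submodule.coe_smul, map_smul, smul_eq_mul, RingHom.id_apply, smul_sub, smul_smul,
          mul_div_assoc] }
  let f : V →ₗ[ℂ] ℂ × Cm n := (l : V →ₗ[ℂ] ℂ).prod ((c : _ →ₗ[ℂ] Cm n).comp pr)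
  have hf : Function.Injective f := by
    rw [injective_iff_map_eq_zero]
    intro v hv
    have h1 : l v = 0 := congrArg Prod.fst hv
    have h2 : c (pr v) = 0 := congrArg Prod.snd hv
    have h3 : pr v = 0 := c.injective (by rw [h2, map_zero])
    have h4 : v - (l v / l w) • w = 0 := congrArg Subtype.val h3
    rw [h1, zero_div, zero_smul, sub_zero] at h4
    exact h4
  let i : V ≃ₗ[ℂ] ℂ × Cm n := LinearMap.linearEquivOfInjective f hf (by
    simp [hV, add_comm])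
  exact ⟨i.toContinuousLinearEquiv, fun v => rfl⟩

/-- straightening a smooth hypersurface -/
theorem exists_straight {n : ℕ} (hV : Module.finrank ℂ V = n + 1) {h : V → ℂ} {p : V}
    (hh : AnalyticAt ℂ h p) (hd : fderiv ℂ h p ≠ 0) :
    ∃ e : OpenPartialHomeomorph V (ℂ × Cm n), p ∈ e.source ∧
      (∀ z ∈ e.source, AnalyticAt ℂ e z) ∧ (∀ z ∈ e.target, AnalyticAt ℂ e.symm z) ∧
      ∀ z, (e z).1 = h z := by
  have : CompleteSpace V := FiniteDimensional.complete ℂ V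
  obtain ⟨i, hi⟩ := exists_lin hV hd
  let Pj : V →L[ℂ] Cm n := (ContinuousLinearMap.snd ℂ ℂ (Cm n)).comp (i : V →L[ℂ] ℂ × Cm n)
  have hF : AnalyticAt ℂ (fun z => (h z, Pj z)) p := hh.prod (Pj.analyticAt p)
  have hFd : fderiv ℂ (fun z => (h z, Pj z)) p = (i : V →L[ℂ] ℂ × Cm n) := by
    have h1 : HasFDerivAt (fun z => (h z, Pj z)) ((fderiv ℂ h p).prod Pj) p :=
      hh.differentiableAt.hasFDerivAt.prodMk Pj.hasFDerivAt
    rw [h1.fderiv]
    ext v : 1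
    exact Prod.ext (hi v).symm rfl
  obtain ⟨e, he, hp, h1, h2⟩ := exists_localInvV hF i hFd.symm
  refine ⟨e, hp, fun z hz => by rw [he]; exact h1 z hz, h2, fun z => by rw [he]⟩

/-- division by an equation of a smooth hypersurface -/
theorem exists_div {n : ℕ} (hV : Module.finrank ℂ V = n + 1) {h k : V → ℂ} {p : V}
    (hh : AnalyticAt ℂ h p) (hd : fderiv ℂ h p ≠ 0) (hp : h p = 0) (hk : AnalyticAt ℂ k p)
    (hz : ∀ᶠ z in 𝓝 p, h z = 0 → k z = 0) :
    ∃ u : V → ℂ, AnalyticAt ℂ u p ∧ ∀ᶠ z in 𝓝 p, k z = h z * u z := by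
  obtain ⟨e, hps, h1, h2, h3⟩ := exists_straight hV hh hd
  have hep : (0, (e p).2) = e p := Prod.ext (by rw [h3, hp]) rfl
  have hpt : (0, (e p).2) ∈ e.target := by rw [hep]; exact e.map_source hps
  have hsp : e.symm (0, (e p).2) = p := by rw [hep]; exact e.left_inv hps
  have hK : AnalyticAt ℂ (fun x : ℂ × Cm n => k (e.symm x)) (0, (e p).2) :=
    hk.comp_of_eq (h2 _ hpt) hsp
  obtain ⟨v, r, hv, hr, hdiv⟩ := Vale.Agent.P298.H941.weierstrass_division
    (F := fun x : ℂ × Cm n => x.1) (p0 := (e p).2) analyticAt_fst (b := 1) (u := fun _ => 1)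
    analyticAt_const one_ne_zero (Eventually.of_forall fun x => by simp) hK
  -- the remainder vanishes
  have hr0 : ∀ᶠ y in 𝓝 (e p).2, r 0 y = 0 := by
    have hc : ContinuousAt (fun y : Cm n => ((0 : ℂ), y)) (e p).2 := by fun_prop
    have h4 := hc.eventually hdiv
    have h5 : ∀ᶠ y in 𝓝 (e p).2, h (e.symm (0, y)) = 0 → k (e.symm (0, y)) = 0 := by
      have h6 : ContinuousAt (fun y : Cm n => e.symm ((0 : ℂ), y)) (e p).2 :=
        ContinuousAt.comp (g := e.symm) (h2 _ hpt).continuousAt hc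
      have h7 : ∀ᶠ z in 𝓝 (e.symm (0, (e p).2)), h z = 0 → k z = 0 := by rw [hsp]; exact hz
      exact h6.eventually h7
    have h6 : ∀ᶠ y in 𝓝 (e p).2, ((0 : ℂ), y) ∈ e.target :=
      hc.eventually (e.open_target.mem_nhds hpt)
    filter_upwards [h4, h5, h6] with y a b c
    have h7 : h (e.symm (0, y)) = 0 := by
      rw [← h3, e.right_inv c]
    have h8 := b h7
    rw [h8] at a
    simpa using a.symm
  refine ⟨fun z => v (e z), ?_, ?_⟩
  · exact hv.comp_of_eq (h1 p hps) hep.symm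
  · have hc : ContinuousAt e p := (h1 p hps).continuousAt
    have h4 : ∀ᶠ z in 𝓝 p, k (e.symm (e z)) = v (e z) * (e z).1 +
        ∑ i : Fin 1, r i (e z).2 * (e z).1 ^ (i : ℕ) := by
      have h5 : ∀ᶠ x in 𝓝 (e p), k (e.symm x) = v x * x.1 +
          ∑ i : Fin 1, r i x.2 * x.1 ^ (i : ℕ) := by
        rw [← hep]; exact hdiv
      exact hc.eventually h5
    have h5 : ∀ᶠ z in 𝓝 p, r 0 (e z).2 = 0 :=
      (ContinuousAt.snd hc).eventually hr0
    filter_upwards [h4, h5, e.open_source.mem_nhds hps] with z a b c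
    rw [e.left_inv c, h3] at a
    rw [a]
    simp [b, mul_comm]

/-- two equations of the same smooth hypersurface differ by a unit -/
theorem exists_div_unit {n : ℕ} (hV : Module.finrank ℂ V = n + 1) {h k : V → ℂ} {p : V}
    (hh : AnalyticAt ℂ h p) (hd : fderiv ℂ h p ≠ 0) (hp : h p = 0) (hk : AnalyticAt ℂ k p)
    (hkd : fderiv ℂ k p ≠ 0) (hz : ∀ᶠ z in 𝓝 p, h z = 0 → k z = 0) :
    ∃ u : V → ℂ, AnalyticAt ℂ u p ∧ u p ≠ 0 ∧ ∀ᶠ z in 𝓝 p, k z = h z * u z := by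
  obtain ⟨u, hu, hku⟩ := exists_div hV hh hd hp hk hz
  refine ⟨u, hu, fun h0 => hkd ?_, hku⟩
  have h1 : k =ᶠ[𝓝 p] fun z => h z * u z := hku
  rw [h1.fderiv_eq, fderiv_fun_mul hh.differentiableAt hu.differentiableAt]
  ext v
  show h p * fderiv ℂ u p v + u p * fderiv ℂ h p v = 0
  rw [hp, h0, zero_mul, zero_mul, zero_add]

end straight

end Vale.Agent.P277.H762
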