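import Vale.Agent.P267.H823.Weier
import Vale.Agent.P298.H941.Div
import Vale.Agent.P277.A.Dim
import Mathlib.RingTheory.Polynomial.Resultant.Basic

/-!
# P277, task L1: coverings by analytic images, elimination
-/

open scoped Manifold ContDiff Topology Polynomial
open Vale.Agent.P272.K Vale.Agent.P285.H281.FD Set Filter Metric Polynomial

noncomputable section

namespace Vale.Agent.P277.H762

/-! ### coverings by analytic images -/

section Cv
variable {V V' : Type*} [NormedAddCommGroup V] [NormedSpace ℂ V] [NormedAddCommGroup V']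
  [NormedSpace ℂ V']

/-- `S` is covered by countably many analytic images of open subsets of `ℂ^k`. -/
def Cv (k : ℕ) (S : Set V) : Prop :=
  ∃ (Ω : ℕ → Set (Cm k)) (g : ℕ → Cm k → V), (∀ l, IsOpen (Ω l)) ∧
    (∀ l, ∀ p ∈ Ω l, AnalyticAt ℂ (g l) p) ∧ S ⊆ ⋃ l, g l '' Ω l

variable {k : ℕ} {S S' : Set V}

theorem Cv.mono (h : Cv k S) (hS : S' ⊆ S) : Cv k S' := by
  obtain ⟨Ω, g, h1, h2, h3⟩ := h
  exact ⟨Ω, g, h1, h2, hS.trans h3⟩

theorem cv_of_family {κ : Type*} [Countable κ] (Ω : κ → Set (Cm k))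
    (g : κ → Cm k → V) (h1 : ∀ l, IsOpen (Ω l)) (h2 : ∀ l, ∀ p ∈ Ω l, AnalyticAt ℂ (g l) p)
    (h3 : S ⊆ ⋃ l, g l '' Ω l) : Cv k S := by
  rcases isEmpty_or_nonempty κ with hκ | hκ
  · refine ⟨fun _ => ∅, fun _ _ => 0, fun _ => isOpen_empty, fun _ _ h => h.elim, fun x hx => ?_⟩
    obtain ⟨k, -⟩ := mem_iUnion.1 (h3 hx)
    exact (hκ.false k).elim
  · obtain ⟨e, he⟩ := exists_surjective_nat κ
    refine ⟨fun n => Ω (e n), fun n => g (e n), fun n => h1 _, fun n => h2 _, fun x hx => ?_⟩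
    obtain ⟨k, hk⟩ := mem_iUnion.1 (h3 hx)
    obtain ⟨n, rfl⟩ := he k
    exact mem_iUnion.2 ⟨n, hk⟩

theorem cv_iUnion {κ : Type*} [Countable κ] {T : κ → Set V}
    (h : ∀ i, Cv k (T i)) : Cv k (⋃ i, T i) := by
  choose Ω g h1 h2 h3 using h
  refine cv_of_family (κ := κ × ℕ) (fun i => Ω i.1 i.2) (fun i => g i.1 i.2) (fun i => h1 _ _)
    (fun i => h2 _ _) ?_
  refine iUnion_subset fun i x hx => ?_
  obtain ⟨m, hm⟩ := mem_iUnion.1 (h3 i hx)
  exact mem_iUnion.2 ⟨(i, m), hm⟩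

theorem cv_biUnion {κ : Type*} {I : Set κ} (hI : I.Countable) {T : κ → Set V}
    (h : ∀ i ∈ I, Cv k (T i)) : Cv k (⋃ i ∈ I, T i) := by
  have : Countable I := hI
  rw [biUnion_eq_iUnion]
  exact cv_iUnion fun i => h i.1 i.2

theorem cv_empty : Cv k (∅ : Set V) :=
  ⟨fun _ => ∅, fun _ _ => 0, fun _ => isOpen_empty, fun _ _ h => h.elim, empty_subset _⟩

theorem Cv.union (h : Cv k S) (h' : Cv k S') : Cv k (S ∪ S') := by
  rw [union_eq_iUnion]
  exact cv_iUnion fun b => by cases b <;> assumption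

theorem Cv.image {U : Set V} (h : Cv k S) (hU : IsOpen U) (hS : S ⊆ U)
    {F : V → V'} (hF : ∀ z ∈ U, AnalyticAt ℂ F z) : Cv k (F '' S) := by
  obtain ⟨Ω, g, h1, h2, h3⟩ := h
  refine ⟨fun l => {p | p ∈ Ω l ∧ g l p ∈ U}, fun l p => F (g l p), fun l => ?_, fun l p hp => ?_,
    ?_⟩
  · rw [isOpen_iff_mem_nhds]
    intro p hp
    filter_upwards [(h1 l).mem_nhds hp.1,
      (h2 l p hp.1).continuousAt.eventually (hU.mem_nhds hp.2)] with q hq hq' using ⟨hq, hq'⟩
  · exact (hF _ hp.2).comp (h2 l p hp.1)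
  · rintro _ ⟨x, hx, rfl⟩
    obtain ⟨l, p, hp, hpx⟩ := mem_iUnion.1 (h3 hx)
    exact mem_iUnion.2 ⟨l, p, ⟨hp, by rw [hpx]; exact hS hx⟩, by simp only [hpx]⟩

/-- the notion is local -/
theorem cv_of_local [SecondCountableTopology V]
    (h : ∀ x ∈ S, ∃ N ∈ 𝓝 x, Cv k (N ∩ S)) : Cv k S := by
  choose! N hN hd using h
  obtain ⟨t, htT, htc, ht⟩ := TopologicalSpace.countable_cover_nhdsWithin
    (f := N) (s := S) fun p hp => mem_nhdsWithin_of_mem_nhds (hN p hp)
  refine (cv_biUnion htc fun p hp => hd p (htT hp)).mono fun x hx => ?_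
  obtain ⟨p, hp, hxp⟩ := mem_iUnion₂.1 (ht hx)
  exact mem_iUnion₂.2 ⟨p, hp, hxp, hx⟩

/-- sets of small dimension are not neighbourhoods -/
theorem not_cv_nhds [FiniteDimensional ℂ V] (hk : k < Module.finrank ℂ V) {x : V} (h : S ∈ 𝓝 x) :
    ¬ Cv k S := by
  rintro ⟨Ω, g, h1, h2, h3⟩
  let _ : NormedSpace ℝ V := NormedSpace.restrictScalars ℝ ℂ V
  have : IsScalarTower ℝ ℂ V := Real.isScalarTower
  have : FiniteDimensional ℝ V := FiniteDimensional.complexToReal V
  have hfr : Module.finrank ℝ V = 2 * Module.finrank ℂ V := finrank_real_of_complex V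
  have hd : dimH S ≤ (2 * k : ℕ) := by
    refine (dimH_mono h3).trans ?_
    rw [dimH_iUnion]
    refine iSup_le fun l => ?_
    have h4 : dimH (g l '' Ω l) ≤ dimH (Ω l) := by
      refine dimH_image_le_of_locally_lipschitzOn fun x hx => ?_
      have h5 : ContDiffAt ℝ 1 (g l) x := ((h2 l x hx).restrictScalars (𝕜 := ℝ)).contDiffAt
      obtain ⟨C, t, ht, hC⟩ := h5.exists_lipschitzOnWith
      exact ⟨C, t, mem_nhdsWithin_of_mem_nhds ht, hC⟩
    refine h4.trans ((dimH_mono (subset_univ _)).trans ?_)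
    rw [Real.dimH_univ_eq_finrank]
    exact_mod_cast (finrank_Cm k).le
  rw [Real.dimH_of_nonempty_interior ⟨x, mem_interior_iff_mem_nhds.2 h⟩, hfr] at hd
  have : 2 * Module.finrank ℂ V ≤ 2 * k := by exact_mod_cast hd
  omega

end Cv

/-! ### elimination -/

/-- small roots -/
theorem eventually_root_small {Y : Type} [TopologicalSpace Y] {p₁ : Y} {P : Y → ℂ[X]} {b : ℕ}
    (hP : ∀ y, (P y).Monic ∧ (P y).natDegree = b)
    (hc : ∀ i, ContinuousAt (fun y => (P y).coeff i) p₁) (hp₁ : P p₁ = X ^ b) {ε : ℝ} (hε : 0 < ε) :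
    ∀ᶠ p in 𝓝 p₁, ∀ α, (P p).eval α = 0 → ‖α‖ < ε := by
  wlog h1 : ε ≤ 1 generalizing ε
  · filter_upwards [this one_pos le_rfl] with p hp α hα
    exact (hp α hα).trans (not_le.1 h1)
  set η : ℝ := ε ^ b / (b + 1) with hη
  have hη0 : 0 < η := by positivity
  have h2 : ∀ᶠ p in 𝓝 p₁, ∀ i ∈ Finset.range b, ‖(P p).coeff i‖ < η := by
    refine (Finset.eventually_all _).2 fun i hi => ?_
    have h3 : ContinuousAt (fun y => ‖(P y).coeff i‖) p₁ := (hc i).norm
    refine h3.eventually_lt continuousAt_const ?_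
    rw [hp₁, coeff_X_pow, if_neg (Finset.mem_range.1 hi).ne, norm_zero]
    exact hη0
  filter_upwards [h2] with p hp α hα
  by_contra hcon
  push Not at hcon
  have hα0 : 0 < ‖α‖ := hε.trans_le hcon
  have h4 : (P p).eval α = α ^ b + ∑ i ∈ Finset.range b, (P p).coeff i * α ^ i := by
    rw [eval_eq_sum_range, (hP p).2, Finset.sum_range_succ, add_comm]
    congr 1
    have := (hP p).1.coeff_natDegree
    rw [(hP p).2] at this
    rw [this, one_mul]
  rw [h4] at hα
  have h5 : ‖α‖ ^ b ≤ ∑ i ∈ Finset.range b, η * (‖α‖ ^ b / ε ^ b) := by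
    have h6 : α ^ b = - ∑ i ∈ Finset.range b, (P p).coeff i * α ^ i := eq_neg_of_add_eq_zero_left hα
    rw [← norm_pow, h6, norm_neg]
    refine (norm_sum_le _ _).trans (Finset.sum_le_sum fun i hi => ?_)
    rw [norm_mul, norm_pow]
    have hi' := Finset.mem_range.1 hi
    refine mul_le_mul (hp i hi).le ?_ (by positivity) hη0.le
    rw [← norm_neg (∑ i ∈ Finset.range b, (P p).coeff i * α ^ i), ← h6, norm_pow,
      le_div_iff₀ (by positivity)]
    calc ‖α‖ ^ i * ε ^ b ≤ ‖α‖ ^ i * ε ^ (b - i) := by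
          gcongr ?_ * ?_
          exact pow_le_pow_of_le_one hε.le h1 (Nat.sub_le _ _)
      _ ≤ ‖α‖ ^ i * ‖α‖ ^ (b - i) := by gcongr
      _ = ‖α‖ ^ b := by rw [← pow_add]; congr 1; omega
  rw [Finset.sum_const, Finset.card_range, nsmul_eq_mul] at h5
  have h7 : (b : ℝ) * (η * (‖α‖ ^ b / ε ^ b)) = ‖α‖ ^ b * (b / (b + 1)) := by
    rw [hη]; field_simp
  rw [h7] at h5
  have h8 : (b : ℝ) / (b + 1) < 1 := by rw [div_lt_one (by positivity)]; linarith
  have h9 : 0 < ‖α‖ ^ b := by positivity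
  nlinarith

theorem analyticAt_det {Y : Type} [NormedAddCommGroup Y] [NormedSpace ℂ Y] {m : ℕ}
    {M : Y → Matrix (Fin m) (Fin m) ℂ} {z : Y}
    (h : ∀ i j, AnalyticAt ℂ (fun w => M w i j) z) : AnalyticAt ℂ (fun w => (M w).det) z := by
  simp only [Matrix.det_apply]
  refine Finset.analyticAt_fun_sum _ fun σ _ => ?_
  exact (Finset.analyticAt_fun_prod _ fun i _ => h _ _).const_smul

theorem analyticAt_resultant {Y : Type} [NormedAddCommGroup Y] [NormedSpace ℂ Y] {P Q : Y → ℂ[X]}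
    {m n : ℕ} {z : Y} (hP : ∀ i, AnalyticAt ℂ (fun w => (P w).coeff i) z)
    (hQ : ∀ i, AnalyticAt ℂ (fun w => (Q w).coeff i) z) :
    AnalyticAt ℂ (fun w => resultant (P w) (Q w) m n) z := by
  unfold resultant
  refine analyticAt_det fun i j => ?_
  induction j using Fin.addCases with
  | left j =>
    simp only [sylvester, Matrix.of_apply, Fin.addCases_left]
    by_cases h : (i : ℕ) ∈ Icc (j : ℕ) (j + n)
    · simp only [if_pos h]; exact hQ _
    · simp only [if_neg h]; exact analyticAt_const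
  | right j =>
    simp only [sylvester, Matrix.of_apply, Fin.addCases_right]
    by_cases h : (i : ℕ) ∈ Icc (j : ℕ) (j + m)
    · simp only [if_pos h]; exact hP _
    · simp only [if_neg h]; exact analyticAt_const

/-- **elimination**: the projection of an analytic set -/
theorem exists_elim {Y : Type} [NormedAddCommGroup Y] [NormedSpace ℂ Y] {p₁ : Y} {m : ℕ}
    {F : Fin m → ℂ × Y → ℂ} (hF : ∀ i, AnalyticAt ℂ (F i) (0, p₁)) (j : Fin m) {b : ℕ} {u : ℂ → ℂ}
    (hu : AnalyticAt ℂ u 0) (hu0 : u 0 ≠ 0)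
    (hFu : ∀ᶠ t in 𝓝 (0 : ℂ), F j (t, p₁) = t ^ b * u t) :
    ∃ ε₀ : ℝ, 0 < ε₀ ∧ ∀ ε : ℝ, 0 < ε → ε ≤ ε₀ → ∃ (k : ℕ) (N : Fin k → Y → ℂ),
      (∀ s, AnalyticAt ℂ (N s) p₁) ∧
      ∀ᶠ p in 𝓝 p₁, (∃ t : ℂ, ‖t‖ < ε ∧ ∀ i, F i (t, p) = 0) ↔ ∀ s, N s p = 0 := by
  obtain ⟨P, v, hP, hPa, hP1, hva, hv0, hPv⟩ :=
    Vale.Agent.P267.H823.weierstrass (hF j) hu hu0 hFu
  have hdiv := fun i => Vale.Agent.P298.H941.weierstrass_division (hF j) hu hu0 hFu (hF i)
  choose w r hwa hra hwr using hdiv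
  have hvne : ∀ᶠ z : ℂ × Y in 𝓝 (0, p₁), v z ≠ 0 := hva.continuousAt.eventually_ne hv0
  obtain ⟨ε₀, hε₀, hball⟩ := Metric.eventually_nhds_iff_ball.1
    (hPv.and (hvne.and (eventually_all.2 hwr)))
  refine ⟨ε₀, hε₀, fun ε hε hεε => ?_⟩
  set R : Fin m → Y → ℂ[X] := fun i p => ∑ l : Fin b, C (r i l p) * X ^ (l : ℕ) with hR
  set Q : ℕ → Y → ℂ[X] := fun s p => ∑ i : Fin m, C ((s : ℂ) ^ (i : ℕ)) * R i p with hQ
  have hRdeg : ∀ i p, (R i p).natDegree ≤ b := by
    intro i p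
    refine natDegree_sum_le_of_forall_le _ _ fun l _ => ?_
    exact (natDegree_C_mul_X_pow_le _ _).trans l.2.le
  have hQdeg : ∀ s p, (Q s p).natDegree ≤ b := by
    intro s p
    refine natDegree_sum_le_of_forall_le _ _ fun i _ => ?_
    exact (natDegree_C_mul_le _ _).trans (hRdeg i p)
  have hRe : ∀ i p t, (R i p).eval t = ∑ l : Fin b, r i l p * t ^ (l : ℕ) := by
    intro i p t
    simp [hR, eval_finsetSum]
  have hQe : ∀ s p t, (Q s p).eval t = ∑ i : Fin m, (s : ℂ) ^ (i : ℕ) * (R i p).eval t := by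
    intro s p t
    simp [hQ, eval_finsetSum]
  have hRc : ∀ i n, AnalyticAt ℂ (fun p => (R i p).coeff n) p₁ := by
    intro i n
    simp only [hR, finsetSum_coeff, coeff_C_mul, coeff_X_pow]
    exact Finset.analyticAt_fun_sum _ fun l _ => (hra i l).mul analyticAt_const
  have hQc : ∀ s n, AnalyticAt ℂ (fun p => (Q s p).coeff n) p₁ := by
    intro s n
    simp only [hQ, finsetSum_coeff, coeff_C_mul]
    exact Finset.analyticAt_fun_sum _ fun i _ => analyticAt_const.mul (hRc i n)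
  refine ⟨b * m + 1, fun s p => resultant (P p) (Q (s : ℕ) p) b b, fun s =>
    analyticAt_resultant hPa (hQc _), ?_⟩
  have hres : ∀ s p, resultant (P p) (Q s p) b b = 0 ↔ ∃ α, (P p).eval α = 0 ∧
      (Q s p).eval α = 0 := by
    intro s p
    have h1 := resultant_eq_prod_eval (P p) (Q s p) b (hQdeg s p) (IsAlgClosed.splits _)
    rw [(hP p).2] at h1
    rw [h1, (hP p).1.leadingCoeff, one_pow, one_mul, Multiset.prod_eq_zero_iff, Multiset.mem_map]
    refine exists_congr fun α => ?_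
    rw [mem_roots (hP p).1.ne_zero, IsRoot.def]
  filter_upwards [eventually_root_small hP (fun i => (hPa i).continuousAt) hP1 hε,
    ball_mem_nhds p₁ hε₀] with p hroot hpb
  have hmem : ∀ t : ℂ, ‖t‖ < ε → ((t, p) : ℂ × Y) ∈ ball ((0 : ℂ), p₁) ε₀ := by
    intro t ht
    rw [mem_ball, Prod.dist_eq, max_lt_iff]
    exact ⟨by simpa using ht.trans_le hεε, hpb⟩
  constructor
  · rintro ⟨t, ht, htF⟩ s
    obtain ⟨h1, h2, h3⟩ := hball _ (hmem t ht)
    rw [hres]
    refine ⟨t, ?_, ?_⟩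
    · rw [← h1, htF j, zero_mul]
    · rw [hQe]
      refine Finset.sum_eq_zero fun i _ => ?_
      have h4 := h3 i
      rw [htF i, htF j, mul_zero, zero_add, ← hRe] at h4
      rw [← h4, mul_zero]
  · intro hN
    have h1 : ∀ s : Fin (b * m + 1), ∃ α, (P p).eval α = 0 ∧ (Q (s : ℕ) p).eval α = 0 := fun s =>
      (hres s p).1 (hN s)
    choose α hα hα' using h1
    have hmaps : ∀ s ∈ (Finset.univ : Finset (Fin (b * m + 1))), α s ∈ (P p).roots.toFinset := by
      intro s _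
      rw [Multiset.mem_toFinset, mem_roots (hP p).1.ne_zero]
      exact hα s
    have hcard : (P p).roots.toFinset.card * m < (Finset.univ : Finset (Fin (b * m + 1))).card := by
      rw [Finset.card_univ, Fintype.card_fin]
      have h2 : (P p).roots.toFinset.card ≤ b := by
        refine (Multiset.toFinset_card_le _).trans ((card_roots' _).trans (hP p).2.le)
      exact Nat.lt_succ_of_le (Nat.mul_le_mul_right m h2)
    obtain ⟨β, hβ, hβc⟩ := Finset.exists_lt_card_fiber_of_mul_lt_card_of_maps_to hmaps hcard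
    have hβ0 : (P p).eval β = 0 := by
      rw [Multiset.mem_toFinset, mem_roots (hP p).1.ne_zero] at hβ
      exact hβ
    -- all remainders vanish at `β`
    have hRβ : ∀ i, (R i p).eval β = 0 := by
      set G : ℂ[X] := ∑ i : Fin m, C ((R i p).eval β) * X ^ (i : ℕ) with hG
      have hinj : Function.Injective fun s : Fin (b * m + 1) => ((s : ℕ) : ℂ) := fun a b h =>
        Fin.ext (Nat.cast_injective h)
      have hG0 : G = 0 := by
        rcases Nat.eq_zero_or_pos m with hm | hm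
        · subst hm; simp [hG]
        refine eq_zero_of_natDegree_lt_card_of_eval_eq_zero' G
          ((Finset.univ.filter fun s => α s = β).image fun s : Fin (b * m + 1) => ((s : ℕ) : ℂ))
          ?_ ?_
        · intro s hs
          obtain ⟨s', hs', rfl⟩ := Finset.mem_image.1 hs
          rw [Finset.mem_filter] at hs'
          have h3 := hα' s'
          rw [hs'.2, hQe] at h3
          rw [hG, eval_finsetSum]
          simp only [eval_mul, eval_C, eval_pow, eval_X]
          rw [← h3]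
          exact Finset.sum_congr rfl fun i _ => mul_comm _ _
        · rw [Finset.card_image_of_injective _ hinj]
          refine lt_of_le_of_lt ?_ hβc
          refine natDegree_sum_le_of_forall_le _ _ fun i _ => ?_
          exact (natDegree_C_mul_X_pow_le _ _).trans i.2.le
      intro i
      have h4 : G.coeff i = (R i p).eval β := by
        rw [hG, finsetSum_coeff, Finset.sum_eq_single i]
        · simp
        · intro l _ hl
          rw [coeff_C_mul, coeff_X_pow, if_neg, mul_zero]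
          exact fun h => hl (Fin.ext h.symm)
        · simp
      rw [← h4, hG0, coeff_zero]
    refine ⟨β, hroot β hβ0, fun i => ?_⟩
    obtain ⟨h5, h6, h7⟩ := hball _ (hmem β (hroot β hβ0))
    have h8 : F j (β, p) = 0 := by
      simp only [hβ0] at h5
      exact (mul_eq_zero.1 h5).resolve_right h6
    rw [h7 i, h8, mul_zero, zero_add, ← hRe, hRβ i]

end Vale.Agent.P277.H762
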