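import Vale.Agent.P277.H762.L1b
import Vale.Agent.P277.H73.TA
import Vale.Agent.P277.H622.B1
import Vale.Agent.P277.Stmts5

/-!
# P277, task L1: two-dimensional analytic sets are manifolds outside a set of dimension one
-/

open scoped Manifold ContDiff Topology
open Vale.Agent.P272.K Vale.Agent.P285.H281.FD Set Filter Metric

noncomputable section

namespace Vale.Agent.P277.H762

/-- a complement of the image of an injective linear map -/
theorem exists_compl {n : ℕ} {D : Cm 2 →L[ℂ] Cm (n + 2)} (hD : Function.Injective D) :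
    ∃ K : Cm n →L[ℂ] Cm (n + 2), ∀ (w : Cm n) (v : Cm 2), K w + D v = 0 → w = 0 ∧ v = 0 := by
  set R := LinearMap.range (D : Cm 2 →ₗ[ℂ] Cm (n + 2)) with hR
  obtain ⟨W, hW⟩ := Submodule.exists_isCompl R
  have hRf : Module.finrank ℂ R = 2 := by
    rw [hR, LinearMap.finrank_range_of_inj hD, Module.finrank_fin_fun]
  have hWf : Module.finrank ℂ W = n := by
    have := Submodule.finrank_add_eq_of_isCompl hW
    rw [hRf, Module.finrank_fin_fun] at this
    omega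
  set L : Cm n ≃ₗ[ℂ] W := LinearEquiv.ofFinrankEq _ _ (by rw [hWf, Module.finrank_fin_fun])
  refine ⟨LinearMap.toContinuousLinearMap (W.subtype ∘ₗ (L : Cm n →ₗ[ℂ] W)), fun w v h => ?_⟩
  have h1 : ((L w : W) : Cm (n + 2)) + D v = 0 := h
  have h2 : ((L w : W) : Cm (n + 2)) ∈ R := by
    rw [eq_neg_of_add_eq_zero_left h1]
    exact R.neg_mem ⟨v, rfl⟩
  have h3 : ((L w : W) : Cm (n + 2)) = 0 :=
    (Submodule.disjoint_def.1 hW.disjoint) _ h2 (L w).2
  have h4 : L w = 0 := Subtype.ext h3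
  refine ⟨by simpa using h4, hD ?_⟩
  rw [h3, zero_add] at h1
  rw [h1, map_zero]

section
variable {X : CSp} {S V : Set X.pt} {N k : ℕ} {Ω : Set (Cm N)} {h : Fin k → Cm N → ℂ}
  {φ : X.pt → Cm N} {B : Set (Cm N)} {m : ℕ} {g : Fin m → Cm N → ℂ}

/-- the analytic set in `ℂ^N` -/
theorem cv_model (hM : IsModel X.Hol V Ω h φ) (hBO : B ⊆ Ω)
    (hS : ∀ y ∈ V, φ y ∈ B → (y ∈ S ↔ ∀ i, g i (φ y) = 0)) (hS2 : DimLe X 2 S) :
    Cv 2 {z | z ∈ B ∧ (∀ i, h i z = 0) ∧ ∀ i, g i z = 0} := by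
  obtain ⟨O, G, h1, h2, h3⟩ := hS2
  refine ⟨fun l => {p | p ∈ O l ∧ G l p ∈ V}, fun l p => φ (G l p), fun l => ?_, fun l p hp => ?_,
    ?_⟩
  · rw [isOpen_iff_eventually]
    intro p hp
    exact ((h1 l).eventually_mem hp.1).and ((h2 l p hp.1).1.eventually (hM.isOpen.mem_nhds hp.2))
  · exact AnalyticAt.pi fun b => (h2 l p hp.1).analyticAt (hM.isCoord.hol b _ hp.2)
  · rintro z ⟨hzB, hzh, hzg⟩
    have h4 : z ∈ φ '' V := by rw [hM.image]; exact ⟨hBO hzB, hzh⟩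
    obtain ⟨y, hy, rfl⟩ := h4
    obtain ⟨l, p, hp, hpy⟩ := mem_iUnion.1 (h3 ((hS y hy hzB).2 hzg))
    refine mem_iUnion.2 ⟨l, p, ⟨hp, ?_⟩, ?_⟩
    · rw [hpy]; exact hy
    · simp only [hpy]

/-- near an immersed piece of surface -/
theorem local_key (hB1 : StB1) (hM : IsModel X.Hol V Ω h φ) (hB : IsOpen B) (hBO : B ⊆ Ω)
    (hg : ∀ i, ∀ z ∈ B, AnalyticAt ℂ (g i) z)
    (hS : ∀ y ∈ V, φ y ∈ B → (y ∈ S ↔ ∀ i, g i (φ y) = 0)) (hS2 : DimLe X 2 S) {c₀ : Cm 2} {r : ℝ}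
    {γ : Cm 2 → X.pt} (hγ : ∀ p ∈ ball c₀ r, HolAt X γ p) (hγV : ∀ p ∈ ball c₀ r, γ p ∈ V)
    (hγB : ∀ p ∈ ball c₀ r, φ (γ p) ∈ B) (hγS : ∀ p ∈ ball c₀ r, γ p ∈ S) {q : Cm 2}
    (hq : q ∈ ball c₀ r) (hinj : Function.Injective (fderiv ℂ (fun p => φ (γ p)) q)) :
    ∃ O, IsOpen O ∧ q ∈ O ∧ DimLe X 1 (γ '' (O ∩ {p | p ∈ ball c₀ r ∧ ¬ IsSurfX X S (γ p)})) := by
  have hne : Nonempty X.pt := hS2.nonempty
  have hcv := cv_model hM hBO hS hS2
  set A : Set (Cm N) := {z | z ∈ B ∧ (∀ i, h i z = 0) ∧ ∀ i, g i z = 0} with hA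
  -- the dimension of the ambient space
  obtain ⟨n, rfl⟩ : ∃ n, N = n + 2 := by
    have h1 : Module.finrank ℂ (Cm 2) ≤ Module.finrank ℂ (Cm N) :=
      LinearMap.finrank_le_finrank_of_injective (f := (fderiv ℂ (fun p => φ (γ p)) q : Cm 2 →ₗ[ℂ] Cm N))
        hinj
    rw [Module.finrank_fin_fun, Module.finrank_fin_fun] at h1
    exact ⟨N - 2, by omega⟩
  have hΓ : ∀ p ∈ ball c₀ r, AnalyticAt ℂ (fun p => φ (γ p)) p := fun p hp =>
    AnalyticAt.pi fun b => (hγ p hp).analyticAt (hM.isCoord.hol b _ (hγV p hp))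
  obtain ⟨K, hK⟩ := exists_compl hinj
  -- the straightening
  have hJf : Module.finrank ℂ (Cm n × Cm 2) = Module.finrank ℂ (Cm (n + 2)) := by
    rw [Module.finrank_prod, Module.finrank_fin_fun, Module.finrank_fin_fun, Module.finrank_fin_fun]
  set J : (Cm n × Cm 2) ≃L[ℂ] Cm (n + 2) := ContinuousLinearEquiv.ofFinrankEq hJf with hJ
  set G : Cm (n + 2) → Cm (n + 2) := fun z => φ (γ (J.symm z).2) + K (J.symm z).1 with hG
  have hJ2 : ∀ z, HasFDerivAt (fun z : Cm (n + 2) => (J.symm z).2)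
      ((ContinuousLinearMap.snd ℂ (Cm n) (Cm 2)).comp (J.symm : Cm (n + 2) →L[ℂ] Cm n × Cm 2)) z :=
    fun z => ((ContinuousLinearMap.snd ℂ (Cm n) (Cm 2)).comp
      (J.symm : Cm (n + 2) →L[ℂ] Cm n × Cm 2)).hasFDerivAt
  have hJ1 : ∀ z, HasFDerivAt (fun z : Cm (n + 2) => K (J.symm z).1)
      (K.comp ((ContinuousLinearMap.fst ℂ (Cm n) (Cm 2)).comp
        (J.symm : Cm (n + 2) →L[ℂ] Cm n × Cm 2))) z :=
    fun z => (K.comp ((ContinuousLinearMap.fst ℂ (Cm n) (Cm 2)).comp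
      (J.symm : Cm (n + 2) →L[ℂ] Cm n × Cm 2))).hasFDerivAt
  have hJan2 : ∀ z, AnalyticAt ℂ (fun z : Cm (n + 2) => (J.symm z).2) z := fun z =>
    ((ContinuousLinearMap.snd ℂ (Cm n) (Cm 2)).comp
      (J.symm : Cm (n + 2) →L[ℂ] Cm n × Cm 2)).analyticAt z
  have hJan1 : ∀ z, AnalyticAt ℂ (fun z : Cm (n + 2) => K (J.symm z).1) z := fun z =>
    (K.comp ((ContinuousLinearMap.fst ℂ (Cm n) (Cm 2)).comp
      (J.symm : Cm (n + 2) →L[ℂ] Cm n × Cm 2))).analyticAt z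
  have hGan : ∀ z, (J.symm z).2 ∈ ball c₀ r → AnalyticAt ℂ G z := fun z hz =>
    (AnalyticAt.comp (g := fun p => φ (γ p)) (f := fun z : Cm (n + 2) => (J.symm z).2) (hΓ _ hz)
      (hJan2 z)).add (hJan1 z)
  set z₀ : Cm (n + 2) := J (0, q) with hz₀
  have hz₀2 : (J.symm z₀).2 = q := by rw [hz₀, J.symm_apply_apply]
  have hGinj : Function.Injective (fderiv ℂ G z₀) := by
    have h1 : HasFDerivAt (fun p => φ (γ p)) (fderiv ℂ (fun p => φ (γ p)) q) (J.symm z₀).2 := by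
      rw [hz₀2]
      exact (hΓ q hq).differentiableAt.hasFDerivAt
    have h2 := (h1.comp z₀ (hJ2 z₀)).add (hJ1 z₀)
    have h3 : fderiv ℂ G z₀ = _ := h2.fderiv
    rw [injective_iff_map_eq_zero]
    intro w hw
    rw [h3] at hw
    have h4 : K (J.symm w).1 + fderiv ℂ (fun p => φ (γ p)) q (J.symm w).2 = 0 :=
      (add_comm _ _).trans (by simpa using hw)
    obtain ⟨h5, h6⟩ := hK _ _ h4
    have h7 : J.symm w = 0 := Prod.ext h5 h6
    simpa using h7
  obtain ⟨e, he, h0e, -, hesymm⟩ := H73.exists_localInv (hGan z₀ (by rw [hz₀2]; exact hq)) hGinj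
  have hGJ : ∀ w c, G (J (w, c)) = φ (γ c) + K w := by
    intro w c
    simp only [hG, J.symm_apply_apply]
  -- the analytic set in the new coordinates
  set E : Set (Cm n × Cm 2) := {y | J y ∈ e.source ∧ G (J y) ∈ A} with hE
  set F : Fin (k + m) → Cm n × Cm 2 → ℂ := fun j y =>
    Fin.addCases (motive := fun _ => Cm (n + 2) → ℂ) (fun i => h i) (fun i => g i) j (G (J y)) with hF
  have hG0B : G (J (0, q)) ∈ B := by
    rw [hGJ, map_zero, add_zero]
    exact hγB q hq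
  have hGJan : AnalyticAt ℂ (fun y : Cm n × Cm 2 => G (J y)) (0, q) :=
    AnalyticAt.comp (g := G) (f := fun y : Cm n × Cm 2 => J y) (hGan z₀ (by rw [hz₀2]; exact hq))
      ((J : (Cm n × Cm 2) →L[ℂ] Cm (n + 2)).analyticAt _)
  have hFA : ∀ z ∈ B, (z ∈ A ↔ ∀ j : Fin (k + m),
      Fin.addCases (motive := fun _ => Cm (n + 2) → ℂ) (fun i => h i) (fun i => g i) j z = 0) := by
    intro z hz
    constructor
    · rintro ⟨-, h1, h2⟩ j
      induction j using Fin.addCases with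
      | left i => simpa using h1 i
      | right i => simpa using h2 i
    · intro h1
      refine ⟨hz, fun i => ?_, fun i => ?_⟩
      · simpa using h1 (Fin.castAdd m i)
      · simpa using h1 (Fin.natAdd k i)
  have hnear : ∀ᶠ y : Cm n × Cm 2 in 𝓝 (0, q), J y ∈ e.source ∧ G (J y) ∈ B :=
    (J.continuous.continuousAt.eventually (e.open_source.mem_nhds h0e)).and
      (hGJan.continuousAt.eventually (hB.mem_nhds hG0B))
  obtain ⟨U, hU, hUcv⟩ := bad_thin hB1 n (k + m) F E q (fun j => by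
      have h1 : AnalyticAt ℂ (Fin.addCases (motive := fun _ => Cm (n + 2) → ℂ) (fun i => h i)
          (fun i => g i) j) (G (J (0, q))) := by
        induction j using Fin.addCases with
        | left i => simpa using hM.holo i _ (hBO hG0B)
        | right i => simpa using hg i _ hG0B
      exact AnalyticAt.comp (f := fun y : Cm n × Cm 2 => G (J y)) h1 hGJan)
    (by
      filter_upwards [hnear] with y hy
      rw [← hFA _ hy.2]
      exact ⟨fun h1 => h1.2, fun h1 => ⟨hy.1, h1⟩⟩)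
    ⟨univ, univ_mem, by
      have h1 : Cv 2 ((fun z => J.symm (e.symm z)) '' (A ∩ e.target)) := by
        refine (hcv.mono inter_subset_left).image e.open_target inter_subset_right fun z hz => ?_
        exact ((J.symm : Cm (n + 2) →L[ℂ] Cm n × Cm 2).analyticAt _).comp (hesymm z hz)
      refine h1.mono ?_
      rintro y ⟨-, hy1, hy2⟩
      refine ⟨G (J y), ⟨hy2, ?_⟩, ?_⟩
      · rw [← he]; exact e.map_source hy1
      · show J.symm (e.symm (G (J y))) = y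
        rw [← he, e.left_inv hy1, J.symm_apply_apply]⟩
    (by
      have h1 : ∀ᶠ c in 𝓝 q, J (0, c) ∈ e.source := by
        have h2 : Continuous fun c : Cm 2 => J ((0 : Cm n), c) := by fun_prop
        exact h2.continuousAt.eventually (e.open_source.mem_nhds h0e)
      filter_upwards [h1, isOpen_ball.mem_nhds hq] with c hc hcb
      refine ⟨hc, ?_⟩
      rw [hGJ, map_zero, add_zero, hFA _ (hγB c hcb)]
      have h3 : φ (γ c) ∈ φ '' V := ⟨γ c, hγV c hcb, rfl⟩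
      rw [hM.image] at h3
      rw [← hFA _ (hγB c hcb)]
      exact ⟨hγB c hcb, h3.2, (hS _ (hγV c hcb) (hγB c hcb)).1 (hγS c hcb)⟩)
  -- the neighbourhood
  set O₂ : Set (Cm 2) := ball c₀ r ∩ {c | J ((0 : Cm n), c) ∈ e.source} with hO₂
  have hO₂o : IsOpen O₂ := by
    refine isOpen_ball.inter (e.open_source.preimage ?_)
    fun_prop
  obtain ⟨U', hU'U, hU'o, hqU'⟩ := _root_.mem_nhds_iff.1 hU
  refine ⟨U' ∩ O₂, hU'o.inter hO₂o, ⟨hqU', hq, h0e⟩, ?_⟩
  -- not bad implies surface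
  have hsurf : ∀ c₁ ∈ O₂, (∀ᶠ y in 𝓝 ((0 : Cm n), c₁), y ∈ E → y.1 = 0) → IsSurfX X S (γ c₁) := by
    intro c₁ hc₁ hnb
    have hγG : ∀ c ∈ O₂, φ (γ c) = e (J (0, c)) := by
      intro c hc
      rw [he, hGJ, map_zero, add_zero]
    have htar : ∀ c ∈ O₂, φ (γ c) ∈ e.target := by
      intro c hc
      rw [hγG c hc]
      exact e.map_source hc.2
    have hinv : ∀ c ∈ O₂, J.symm (e.symm (φ (γ c))) = (0, c) := by
      intro c hc
      rw [hγG c hc, e.left_inv hc.2, J.symm_apply_apply]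
    have hV₁ : γ c₁ ∈ V := hγV c₁ hc₁.1
    have hVt : ∀ᶠ y in 𝓝 (γ c₁), y ∈ V ∧ φ y ∈ e.target ∧ φ y ∈ B :=
      (hM.isOpen.eventually_mem hV₁).and
        (((hM.continuousAt hV₁).eventually (e.open_target.mem_nhds (htar c₁ hc₁))).and
          ((hM.continuousAt hV₁).eventually (hB.mem_nhds (hγB c₁ hc₁.1))))
    have hcont : Tendsto (fun y => J.symm (e.symm (φ y))) (𝓝 (γ c₁)) (𝓝 (0, c₁)) := by
      have h1 : ContinuousAt e.symm (φ (γ c₁)) := e.continuousAt_symm (htar c₁ hc₁)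
      have h2 : ContinuousAt (fun y => J.symm (e.symm (φ y))) (γ c₁) :=
        J.symm.continuous.continuousAt.comp (ContinuousAt.comp (f := φ) h1 (hM.continuousAt hV₁))
      have h3 := h2.tendsto
      rwa [hinv c₁ hc₁] at h3
    refine ⟨O₂, γ, fun y => (J.symm (e.symm (φ y))).2, hO₂o, fun p hp => hγ p hp.1, ⟨c₁, hc₁, rfl⟩,
      fun i => ?_, fun p hp => ?_, ?_⟩
    · filter_upwards [hVt] with y hy
      refine (hM.hol y hy.1 _).2 ⟨fun z => (J.symm (e.symm z)).2 i, ?_, Eventually.of_forall fun _ => rfl⟩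
      have h1 : AnalyticAt ℂ (fun z => (J.symm (e.symm z)).2) (φ y) :=
        AnalyticAt.comp (g := fun z : Cm (n + 2) => (J.symm z).2) (hJan2 _) (hesymm _ hy.2.1)
      exact (ContinuousLinearMap.proj (R := ℂ) (φ := fun _ : Fin 2 => ℂ) i).analyticAt _ |>.comp h1
    · show (J.symm (e.symm (φ (γ p)))).2 = p
      rw [hinv p hp]
    · have h4 : ∀ᶠ y in 𝓝 (γ c₁), (J.symm (e.symm (φ y))).2 ∈ O₂ := by
        have h5 : Tendsto (fun y => (J.symm (e.symm (φ y))).2) (𝓝 (γ c₁)) (𝓝 c₁) :=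
          (continuous_snd.tendsto _).comp hcont
        exact h5.eventually (hO₂o.mem_nhds hc₁)
      filter_upwards [hVt, hcont.eventually hnb, h4] with y hy hy1 hy2
      constructor
      · intro hyS
        refine ⟨hy2, ?_⟩
        have h6 : φ y ∈ A := by
          have h7 : φ y ∈ φ '' V := ⟨y, hy.1, rfl⟩
          rw [hM.image] at h7
          exact ⟨hy.2.2, h7.2, (hS y hy.1 hy.2.2).1 hyS⟩
        have h8 : J (J.symm (e.symm (φ y))) = e.symm (φ y) := J.apply_symm_apply _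
        have h9 : (J.symm (e.symm (φ y))).1 = 0 := by
          refine hy1 ⟨?_, ?_⟩
          · rw [h8]; exact e.map_target hy.2.1
          · rw [h8, ← he, e.right_inv hy.2.1]; exact h6
        have h10 : J.symm (e.symm (φ y)) = (0, (J.symm (e.symm (φ y))).2) := Prod.ext h9 rfl
        refine hM.injOn (hγV _ hy2.1) hy.1 ?_
        rw [hγG _ hy2, ← h10, h8, e.right_inv hy.2.1]
      · rintro ⟨h6, h7⟩
        have h8 := hγS _ h6.1
        rwa [h7] at h8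
  -- conclusion
  obtain ⟨W, Γ, hW, hΓa, hcov⟩ := hUcv
  refine ⟨fun l => {p | p ∈ W l ∧ Γ l p ∈ ball c₀ r}, fun l => γ ∘ Γ l, fun l => ?_,
    fun l p hp => (hγ _ hp.2).comp (hΓa l p hp.1), ?_⟩
  · rw [isOpen_iff_eventually]
    intro p hp
    exact ((hW l).eventually_mem hp.1).and
      ((hΓa l p hp.1).continuousAt.eventually (isOpen_ball.mem_nhds hp.2))
  · rintro _ ⟨c, ⟨⟨hcU, hcO⟩, hcb, hcS⟩, rfl⟩
    have hbad : c ∈ {c | c ∈ U ∧ ¬ ∀ᶠ y in 𝓝 ((0 : Cm n), c), y ∈ E → y.1 = 0} :=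
      ⟨hU'U hcU, fun hnb => hcS (hsurf c hcO hnb)⟩
    obtain ⟨l, p, hp, hpc⟩ := mem_iUnion.1 (hcov hbad)
    refine mem_iUnion.2 ⟨l, p, ⟨hp, by rw [hpc]; exact hcb⟩, ?_⟩
    simp only [Function.comp, hpc]

theorem fderiv_two' {n : ℕ} {f : Cm 2 → Cm n} {p : Cm 2} (v : Cm 2) :
    fderiv ℂ f p v = v 0 • fderiv ℂ f p (Pi.single 0 1) + v 1 • fderiv ℂ f p (Pi.single 1 1) := by
  have : v = v 0 • (Pi.single 0 1 : Cm 2) + v 1 • (Pi.single 1 1 : Cm 2) := by
    ext i; fin_cases i <;> simp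
  conv_lhs => rw [this]
  rw [map_add, map_smul, map_smul]

/-- one piece of the covering -/
theorem piece_bad (hB1 : StB1) (hM : IsModel X.Hol V Ω h φ) (hB : IsOpen B) (hBO : B ⊆ Ω)
    (hg : ∀ i, ∀ z ∈ B, AnalyticAt ℂ (g i) z)
    (hS : ∀ y ∈ V, φ y ∈ B → (y ∈ S ↔ ∀ i, g i (φ y) = 0)) (hS2 : DimLe X 2 S) {c₀ : Cm 2} {r : ℝ}
    {γ : Cm 2 → X.pt} (hγ : ∀ p ∈ ball c₀ r, HolAt X γ p) (hγV : ∀ p ∈ ball c₀ r, γ p ∈ V)
    (hγB : ∀ p ∈ ball c₀ r, φ (γ p) ∈ B) :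
    DimLe X 1 (γ '' {p | p ∈ ball c₀ r ∧ γ p ∈ S ∧ ¬ IsSurfX X S (γ p)}) := by
  have hne : Nonempty X.pt := hS2.nonempty
  have hΓ : ∀ p ∈ ball c₀ r, AnalyticAt ℂ (fun p => φ (γ p)) p := fun p hp =>
    AnalyticAt.pi fun b => (hγ p hp).analyticAt (hM.isCoord.hol b _ (hγV p hp))
  have hgΓ : ∀ i, ∀ p ∈ ball c₀ r, AnalyticAt ℂ (fun p => g i (φ (γ p))) p := fun i p hp =>
    AnalyticAt.comp (g := g i) (f := fun p => φ (γ p)) (hg i _ (hγB p hp)) (hΓ p hp)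
  by_cases hall : ∀ p ∈ ball c₀ r, ∀ i, g i (φ (γ p)) = 0
  swap
  · push Not at hall
    obtain ⟨p, hp, i, hi⟩ := hall
    refine (H73.dimLe_image_zeros hB1 hγ (hgΓ i) ⟨p, hp, hi⟩).mono ?_
    rintro _ ⟨q, ⟨hq, hqS, -⟩, rfl⟩
    exact ⟨q, ⟨hq, (hS _ (hγV q hq) (hγB q hq)).1 hqS i⟩, rfl⟩
  have hγS : ∀ p ∈ ball c₀ r, γ p ∈ S := fun p hp => (hS _ (hγV p hp) (hγB p hp)).2 (hall p hp)
  -- minors
  set Δ : Fin N → Fin N → Cm 2 → ℂ := fun a b p =>
    fderiv ℂ (fun p => φ (γ p)) p (Pi.single 0 1) a * fderiv ℂ (fun p => φ (γ p)) p (Pi.single 1 1) b -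
      fderiv ℂ (fun p => φ (γ p)) p (Pi.single 0 1) b *
        fderiv ℂ (fun p => φ (γ p)) p (Pi.single 1 1) a with hΔ
  have hΔan : ∀ a b, ∀ p ∈ ball c₀ r, AnalyticAt ℂ (Δ a b) p := by
    intro a b p hp
    have h1 : ∀ (v : Cm 2) (a : Fin N), AnalyticAt ℂ
        (fun p => fderiv ℂ (fun p => φ (γ p)) p v a) p := by
      intro v a
      have h2 : AnalyticAt ℂ (fderiv ℂ fun p => φ (γ p)) p := (hΓ p hp).fderiv
      have h3 : AnalyticAt ℂ (fun p => fderiv ℂ (fun p => φ (γ p)) p v) p :=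
        ((ContinuousLinearMap.apply ℂ (Cm N) v).analyticAt _).comp h2
      exact H73.analyticAt_apply h3 a
    exact ((h1 _ _).mul (h1 _ _)).sub ((h1 _ _).mul (h1 _ _))
  by_cases hrk : ∀ p ∈ ball c₀ r, ∀ a b, Δ a b p = 0
  · -- rank at most one
    refine (H73.dimLe_one_of_rank hB1 hM.injOn hγ hγV hΓ fun p hp => ?_).mono
      (image_mono fun q hq => hq.1)
    set x := fderiv ℂ (fun p => φ (γ p)) p (Pi.single 0 1) with hx
    set y := fderiv ℂ (fun p => φ (γ p)) p (Pi.single 1 1) with hy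
    by_cases hx0 : x = 0
    · refine ⟨Pi.single 0 1, ?_, hx0⟩
      intro h0
      have := congrFun h0 0
      simp at this
    · obtain ⟨a, ha⟩ : ∃ a, x a ≠ 0 := by
        by_contra hcon
        push Not at hcon
        exact hx0 (funext hcon)
      refine ⟨![y a, -x a], ?_, ?_⟩
      · intro h0
        have := congrFun h0 1
        simp at this
        exact ha this
      · rw [fderiv_two', ← hx, ← hy]
        ext b
        have h1 := hrk p hp a b
        simp only [hΔ, ← hx, ← hy] at h1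
        simp only [Matrix.cons_val_zero, Matrix.cons_val_one, Pi.add_apply, Pi.smul_apply,
          smul_eq_mul, Pi.zero_apply]
        linear_combination -h1
  · push Not at hrk
    obtain ⟨p₀, hp₀, a, b, hab⟩ := hrk
    have h1 := H73.dimLe_image_zeros hB1 hγ (hΔan a b) ⟨p₀, hp₀, hab⟩
    have h2 : DimLe X 1 (γ '' {p | p ∈ ball c₀ r ∧ Δ a b p ≠ 0 ∧ ¬ IsSurfX X S (γ p)}) := by
      refine H73.dimLe_image_of_local fun p hp => ?_
      have hinj : Function.Injective (fderiv ℂ (fun p => φ (γ p)) p) := by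
        rw [injective_iff_map_eq_zero]
        intro v hv
        rw [fderiv_two'] at hv
        set x := fderiv ℂ (fun p => φ (γ p)) p (Pi.single 0 1) with hx
        set y := fderiv ℂ (fun p => φ (γ p)) p (Pi.single 1 1) with hy
        have h3 := congrFun hv a
        have h4 := congrFun hv b
        simp only [Pi.add_apply, Pi.smul_apply, smul_eq_mul, Pi.zero_apply] at h3 h4
        have h5 : x a * y b - x b * y a ≠ 0 := hp.2.1
        have h6 : v 0 * (x a * y b - x b * y a) = 0 := by linear_combination y b * h3 - y a * h4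
        have h7 : v 1 * (x a * y b - x b * y a) = 0 := by linear_combination x a * h4 - x b * h3
        ext i
        fin_cases i
        · exact (mul_eq_zero.1 h6).resolve_right h5
        · exact (mul_eq_zero.1 h7).resolve_right h5
      obtain ⟨O, hO, hpO, hd⟩ := local_key hB1 hM hB hBO hg hS hS2 hγ hγV hγB hγS hp.1 hinj
      refine ⟨O, hO, hpO, hd.mono ?_⟩
      rintro _ ⟨c, ⟨hcO, hc, -, hcs⟩, rfl⟩
      exact ⟨c, ⟨hcO, hc, hcs⟩, rfl⟩
    refine (h1.union h2).mono ?_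
    rintro _ ⟨p, ⟨hp, -, hps⟩, rfl⟩
    by_cases h0 : Δ a b p = 0
    · exact Or.inl ⟨p, ⟨hp, h0⟩, rfl⟩
    · exact Or.inr ⟨p, ⟨hp, h0, hps⟩, rfl⟩

end

/-- (L1) -/
theorem stL1 : StL1 := by
  intro X S hSan hS2
  have hne : Nonempty X.pt := hS2.nonempty
  have hB1 : StB1 := H622.stB1
  -- the data near a point
  have key : ∀ x : X.pt, ∃ (N k : ℕ) (V : Set X.pt) (Ω : Set (Cm N)) (h : Fin k → Cm N → ℂ)
      (φ : X.pt → Cm N) (B : Set (Cm N)) (m : ℕ) (g : Fin m → Cm N → ℂ), x ∈ V ∧ φ x ∈ B ∧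
      IsModel X.Hol V Ω h φ ∧ IsOpen B ∧ B ⊆ Ω ∧ (∀ i, ∀ z ∈ B, AnalyticAt ℂ (g i) z) ∧
      ∀ y ∈ V, φ y ∈ B → (y ∈ S ↔ ∀ i, g i (φ y) = 0) := by
    intro x
    obtain ⟨N, k, V, Ω, h, φ, hx, hM⟩ := X.model x
    obtain ⟨m, f, hf, hfS⟩ := hSan x (mem_univ x)
    have h1 : ∀ i, ∃ g : Cm N → ℂ, AnalyticAt ℂ g (φ x) ∧ f i =ᶠ[𝓝 x] g ∘ φ := fun i =>
      (hM.hol x hx (f i)).1 (hf i)
    choose g hg hfg using h1
    have h2 : ∀ᶠ y in 𝓝 x, y ∈ S ↔ ∀ i, g i (φ y) = 0 := by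
      filter_upwards [hfS, eventually_all.2 hfg] with y hy hy'
      rw [hy]
      exact forall_congr' fun i => by rw [hy' i]; rfl
    -- neighbourhoods of the form `φ ⁻¹ (ball)`
    have h3 : {v : V | (v : X.pt) ∈ S ↔ ∀ i, g i (φ v) = 0} ∈ 𝓝 (⟨x, hx⟩ : V) := by
      exact (continuous_subtype_val.tendsto (⟨x, hx⟩ : V)).eventually h2
    rw [hM.emb.isInducing.nhds_eq_comap, mem_comap] at h3
    obtain ⟨T, hT, hTs⟩ := h3
    have hφΩ : φ x ∈ Ω := by
      have : φ x ∈ φ '' V := ⟨x, hx, rfl⟩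
      rw [hM.image] at this
      exact this.1
    have h4 : ∀ᶠ z in 𝓝 (φ x), z ∈ T ∧ z ∈ Ω ∧ ∀ i, AnalyticAt ℂ (g i) z :=
      (eventually_mem_set.2 hT).and ((hM.isOpen'.eventually_mem hφΩ).and
        (eventually_all.2 fun i => (hg i).eventually_analyticAt))
    obtain ⟨B, hB, hBo, hxB⟩ := _root_.eventually_nhds_iff.1 h4
    exact ⟨N, k, V, Ω, h, φ, B, m, g, hx, hxB, hM, hBo, fun z hz => (hB z hz).2.1,
      fun i z hz => (hB z hz).2.2 i, fun y hy hyB => hTs (a := ⟨y, hy⟩) (hB _ hyB).1⟩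
  choose N k V Ω h φ B m g hxV hxB hM hBo hBO hg hgS using key
  have hUo : ∀ x, IsOpen {y | y ∈ V x ∧ φ x y ∈ B x} := by
    intro x
    rw [isOpen_iff_eventually]
    intro y hy
    exact ((hM x).isOpen.eventually_mem hy.1).and
      (((hM x).continuousAt hy.1).eventually ((hBo x).mem_nhds hy.2))
  obtain ⟨κ, hκ, c, r, γ, i, hr, hγ, hγU, hcov⟩ := hS2.refine hUo
    (fun x _ => mem_iUnion.2 ⟨x, hxV x, hxB x⟩)
  refine (dimLe_iUnion (T := fun a => γ a '' {p | p ∈ ball (c a) (r a) ∧ γ a p ∈ S ∧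
    ¬ IsSurfX X S (γ a p)}) fun a => ?_).mono ?_
  · exact piece_bad hB1 (hM (i a)) (hBo (i a)) (hBO (i a)) (hg (i a)) (hgS (i a)) hS2
      (fun p hp => hγ a p (ball_subset_closedBall hp))
      (fun p hp => (hγU a p (ball_subset_closedBall hp)).1)
      (fun p hp => (hγU a p (ball_subset_closedBall hp)).2)
  · rintro x ⟨hxS, hxs⟩
    obtain ⟨a, p, hp, rfl⟩ := mem_iUnion.1 (hcov hxS)
    exact mem_iUnion.2 ⟨a, p, ⟨hp, hxS, hxs⟩, rfl⟩

end Vale.Agent.P277.H762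

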