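import Vale.Agent.P277.H762.L3b

/-!
# P277, task L3: finitely many components
-/

open scoped Manifold ContDiff Topology
open Vale.Agent.P272.K Vale.Agent.P285.H281.FD Set Filter Metric

noncomputable section

namespace Vale.Agent.P277.H762

variable {X : CSp} {S T V : Set X.pt}

theorem cv_image_of_dimLe {F : X.pt → Cm 2} (hF : ∀ i, ∀ y ∈ V, X.Hol (fun y => F y i) y)
    {Z : Set X.pt} (hZV : Z ⊆ V) (hZ : DimLe X 1 Z) : Cv 1 (F '' Z) := by
  obtain ⟨Ω, G, h1, h2, h3⟩ := hZ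
  refine ⟨fun l => {p | p ∈ Ω l ∧ ∀ i, X.Hol (fun y => F y i) (G l p)}, fun l p => F (G l p),
    fun l => ?_, fun l p hp => ?_, ?_⟩
  · rw [isOpen_iff_eventually]
    intro p hp
    exact ((h1 l).eventually_mem hp.1).and
      ((h2 l p hp.1).1.eventually (eventually_all.2 fun i => hol_eventually (hp.2 i)))
  · exact AnalyticAt.pi fun i => (h2 l p hp.1).analyticAt (hp.2 i)
  · rintro _ ⟨y, hy, rfl⟩
    obtain ⟨l, q, hq, rfl⟩ := mem_iUnion.1 (h3 hy)
    exact mem_iUnion.2 ⟨l, q, ⟨hq, fun i => hF i _ (hZV hy)⟩, rfl⟩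

theorem Patch.mono {c : Cm 2} {ρ : ℝ} {g : Cm 2 → X.pt} {u' : X.pt → Cm 2}
    (h : Patch X S T V u' c ρ g) {W : Set X.pt} (hW : V ⊆ W) : Patch X S T W u' c ρ g where
  pos := h.pos
  hol := h.hol
  mem p hp := ⟨(h.mem p hp).1, (h.mem p hp).2.1, hW (h.mem p hp).2.2⟩
  inv := h.inv
  nhd := h.nhd

/-- the proper part: components over a ball -/
theorem comp_local (hST : ∀ x ∈ S \ T, IsSurfX X S x) (hT : IsClosed T) (hSc : IsClosed S)
    (hV : IsOpen V) {F : X.pt → Cm 2}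
    (hF : ∀ i, ∀ y ∈ V, X.Hol (fun y => F y i) y) {W : Set X.pt} (hW : IsOpen W) (hWV : W ⊆ V)
    {δ : ℝ} (hδ : 0 < δ) (hWF : ∀ y ∈ W, F y ∈ ball (0 : Cm 2) δ)
    (hprop : ∀ r' < δ, IsCompact {y | y ∈ S ∧ y ∈ W ∧ F y ∈ closedBall (0 : Cm 2) r'})
    (hbad' : DimLe X 1 {y | y ∈ S ∧ y ∈ W ∧ ¬ GoodAt X S T V F y}) :
    ∃ A : Set X.pt, A.Finite ∧ ∀ x ∈ W, x ∈ S \ T →
      ∃ a ∈ A, x ∈ connectedComponentIn (S \ T) a := by
  set B : Set (Cm 2) := F '' {y | y ∈ S ∧ y ∈ W ∧ ¬ GoodAt X S T V F y} with hB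
  have hbad : Cv 1 B := cv_image_of_dimLe hF (fun y hy => hWV hy.2.1) hbad'
  have hFc : ∀ y ∈ V, ContinuousAt F y := fun y hy =>
    continuousAt_pi.2 fun i => hol_continuousAt (hF i y hy)
  have hsurf : ∀ x ∈ W, x ∈ S \ T → ∃ u' c ρ g, Patch X S T (V ∩ W) u' c ρ g ∧ g c = x :=
    fun x hxW hx => exists_patchS hT (hV.inter hW) hx.2 ⟨hWV hxW, hxW⟩ (hST x hx)
  -- images of closed sets are closed
  have hclosed : ∀ C : Set X.pt, IsClosed C → ∀ b ∈ ball (0 : Cm 2) δ,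
      b ∈ closure (F '' {y | y ∈ S ∧ y ∈ W ∧ y ∈ C}) → ∃ y, y ∈ S ∧ y ∈ W ∧ y ∈ C ∧ F y = b := by
    intro C hC b hb hbc
    rw [mem_ball_zero_iff] at hb
    obtain ⟨r', hbr, hrδ⟩ := exists_between hb
    have hK := (hprop r' hrδ).inter_right hC
    have hKF : IsClosed (F '' ({y | y ∈ S ∧ y ∈ W ∧ F y ∈ closedBall (0 : Cm 2) r'} ∩ C)) := by
      refine (hK.image_of_continuousOn fun y hy => ?_).isClosed
      exact (hFc y (hWV hy.1.2.1)).continuousWithinAt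
    have h1 : b ∈ closure (F '' ({y | y ∈ S ∧ y ∈ W ∧ F y ∈ closedBall (0 : Cm 2) r'} ∩ C)) := by
      rw [mem_closure_iff_nhds] at hbc ⊢
      intro t ht
      have hbb : ball (0 : Cm 2) r' ∈ 𝓝 b := isOpen_ball.mem_nhds (by simpa using hbr)
      obtain ⟨z, ⟨hz1, hz2⟩, y, ⟨hyS, hyW, hyC⟩, rfl⟩ := hbc _ (inter_mem ht hbb)
      exact ⟨F y, hz1, y, ⟨⟨hyS, hyW, ball_subset_closedBall hz2⟩, hyC⟩, rfl⟩
    rw [hKF.closure_eq] at h1
    obtain ⟨y, ⟨⟨hyS, hyW, -⟩, hyC⟩, rfl⟩ := h1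
    exact ⟨y, hyS, hyW, hyC, rfl⟩
  -- `B` is closed in the ball
  have hgoodopen : ∀ y, GoodAt X S T V F y → ∀ᶠ z in 𝓝 y, z ∈ S → GoodAt X S T V F z :=
    fun y hy => hy.eventually hF
  set Bc : Set X.pt := closure {y | y ∈ S ∧ y ∈ W ∧ ¬ GoodAt X S T V F y} with hBc
  have hBc' : ∀ y ∈ W, y ∈ Bc → y ∈ S ∧ ¬ GoodAt X S T V F y := by
    intro y hyW hy
    have hsub : {y | y ∈ S ∧ y ∈ W ∧ ¬ GoodAt X S T V F y} ⊆ S := fun z hz => hz.1
    refine ⟨hSc.closure_subset_iff.2 hsub hy, fun hg => ?_⟩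
    obtain ⟨z, hz1, hz2, -, hz3⟩ := mem_closure_iff_nhds.1 hy _ (hgoodopen y hg)
    exact hz3 (hz1 hz2)
  have hBcl : ∀ b ∈ ball (0 : Cm 2) δ, b ∈ closure B → b ∈ B := by
    intro b hb hbB
    have hsub : {y | y ∈ S ∧ y ∈ W ∧ ¬ GoodAt X S T V F y} ⊆ {y | y ∈ S ∧ y ∈ W ∧ y ∈ Bc} :=
      fun y hy => ⟨hy.1, hy.2.1, subset_closure hy⟩
    obtain ⟨y, hyS, hyW, hyC, rfl⟩ := hclosed Bc isClosed_closure b hb
      (closure_mono (image_mono hsub) hbB)
    exact ⟨y, ⟨hyS, hyW, (hBc' y hyW hyC).2⟩, rfl⟩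
  have hDo : IsOpen (ball (0 : Cm 2) δ \ B) := by
    rw [isOpen_iff_mem_nhds]
    rintro b ⟨hb, hbB⟩
    have h1 : b ∉ closure B := fun h => hbB (hBcl b hb h)
    filter_upwards [isOpen_ball.mem_nhds hb, isClosed_closure.isOpen_compl.mem_nhds h1]
      with z hz1 hz2 using ⟨hz1, fun h => hz2 (subset_closure h)⟩
  obtain ⟨hpre, hdense⟩ := cv_one_compl (c := (0 : Cm 2)) hδ hbad
  obtain ⟨b₀, hb₀⟩ : (ball (0 : Cm 2) δ \ B).Nonempty := by
    rw [← closure_nonempty_iff]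
    exact ⟨0, hdense (mem_ball_self hδ)⟩
  -- the fibre
  set A : Set X.pt := {y | y ∈ S ∧ y ∈ W ∧ F y = b₀} with hA
  have hgoodB : ∀ y ∈ S, y ∈ W → F y ∉ B → GoodAt X S T V F y := by
    intro y hyS hyW hyB
    by_contra hg
    exact hyB ⟨y, ⟨hyS, hyW, hg⟩, rfl⟩
  have hAfin : A.Finite := by
    by_contra hinf
    have hb := hb₀.1
    rw [mem_ball_zero_iff] at hb
    obtain ⟨r', hbr, hrδ⟩ := exists_between hb
    obtain ⟨y, hy, hacc⟩ := Set.Infinite.exists_accPt_of_subset_isCompact hinf (hprop r' hrδ)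
      (fun z hz => ⟨hz.1, hz.2.1, by rw [hz.2.2]; simpa using hbr.le⟩)
    rw [accPt_iff_frequently] at hacc
    have hFy : F y = b₀ := by
      have h1 : y ∈ closure A := by
        rw [mem_closure_iff_frequently]
        exact hacc.mono fun z hz => hz.2
      by_contra hne
      have h2 : ∀ᶠ z in 𝓝 y, F z ≠ b₀ := (hFc y (hWV hy.2.1)).eventually_ne hne
      obtain ⟨z, hz⟩ := ((mem_closure_iff_frequently.1 h1).and_eventually h2).exists
      exact hz.2 hz.1.2.2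
    have hg := hgoodB y hy.1 hy.2.1 (by rw [hFy]; exact hb₀.2)
    obtain ⟨z, hz1, hz2⟩ := (hacc.and_eventually (hg.isolated hF)).exists
    exact hz1.1 (hz2 hz1.2.1 (by rw [hz1.2.2.2, hFy]))
  refine ⟨A, hAfin, ?_⟩
  -- the points over the complement of `B`
  set W' : Set X.pt := {y | y ∈ S ∧ y ∈ W ∧ F y ∉ B} with hW'
  have hW'ST : W' ⊆ S \ T := fun y hy => ⟨hy.1, (hgoodB y hy.1 hy.2.1 hy.2.2).mem.2.1⟩
  have hmain : ∀ y ∈ W', ∃ a ∈ A, y ∈ connectedComponentIn (S \ T) a := by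
    intro y hy
    set C := connectedComponentIn W' y with hC
    have hCW : C ⊆ W' := connectedComponentIn_subset _ _
    have hyC : y ∈ C := mem_connectedComponentIn hy
    -- `C` is relatively open
    have hCopen : ∀ z ∈ C, ∃ N ∈ 𝓝 z, S ∩ N ⊆ C := by
      intro z hz
      have hzW := hCW hz
      obtain ⟨u', c, ρ, g, hP, rfl⟩ := hsurf z hzW.2.1 (hW'ST hzW)
      have hc := mem_ball_self (x := c) hP.pos
      have h1 : ∀ᶠ p in 𝓝 c, g p ∈ W' := by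
        have h2 : ∀ᶠ p in 𝓝 c, F (g p) ∈ ball (0 : Cm 2) δ \ B := by
          have h3 : ContinuousAt (fun p => F (g p)) c :=
            ContinuousAt.comp (hFc _ (hWV hzW.2.1)) (hP.hol c hc).1
          exact h3.eventually (hDo.mem_nhds ⟨hWF _ hzW.2.1, hzW.2.2⟩)
        filter_upwards [h2, isOpen_ball.mem_nhds hc] with p hp hpb
        exact ⟨(hP.mem p hpb).1, (hP.mem p hpb).2.2.2, hp.2⟩
      obtain ⟨ε, hε, hεb⟩ := Metric.eventually_nhds_iff_ball.1 (h1.and (isOpen_ball.mem_nhds hc))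
      refine ⟨_, hP.nhd c hc _ (ball_mem_nhds c hε), ?_⟩
      rintro w ⟨hwS, hw⟩
      have h4 : g '' ball c ε ⊆ C := by
        have h5 : IsPreconnected (g '' ball c ε) :=
          (convex_ball c ε).isPreconnected.image _ fun p hp =>
            (hP.hol p (hεb p hp).2).1.continuousWithinAt
        have h6 : g c ∈ g '' ball c ε := mem_image_of_mem g (mem_ball_self hε)
        have h7 := h5.subset_connectedComponentIn h6 (F := W') (by
          rintro _ ⟨p, hp, rfl⟩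
          exact (hεb p hp).1)
        rw [hC, connectedComponentIn_eq hz]
        exact h7
      exact h4 (hw hwS)
    -- `C` is relatively closed
    have hCclosed : ∀ z ∈ W', z ∈ closure C → z ∈ C := by
      intro z hz hzc
      have h1 : IsPreconnected (C ∪ {z}) := by
        refine isPreconnected_connectedComponentIn.subset_closure subset_union_left ?_
        exact union_subset subset_closure (singleton_subset_iff.2 hzc)
      have h2 := h1.subset_connectedComponentIn (Or.inl hyC : y ∈ C ∪ {z}) (F := W')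
        (union_subset hCW (singleton_subset_iff.2 hz))
      exact h2 (Or.inr rfl)
    have hFC : F '' C ⊆ ball (0 : Cm 2) δ \ B := by
      rintro _ ⟨z, hz, rfl⟩
      exact ⟨hWF z (hCW hz).2.1, (hCW hz).2.2⟩
    have hopen : IsOpen (F '' C) := by
      rw [isOpen_iff_mem_nhds]
      rintro _ ⟨z, hz, rfl⟩
      obtain ⟨N, hN, hNC⟩ := hCopen z hz
      have hzW := hCW hz
      exact mem_of_superset ((hgoodB z hzW.1 hzW.2.1 hzW.2.2).image_mem hF hN) (image_mono hNC)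
    have hsub := hpre.subset_of_closure_inter_subset hopen
      ⟨F y, hFC (mem_image_of_mem F hyC), mem_image_of_mem F hyC⟩ (by
        rintro b ⟨hbc, hb⟩
        have hsub : C ⊆ {y | y ∈ S ∧ y ∈ W ∧ y ∈ closure C} :=
          fun z hz => ⟨(hCW hz).1, (hCW hz).2.1, subset_closure hz⟩
        obtain ⟨z, hzS, hzW, hzC, rfl⟩ := hclosed (closure C) isClosed_closure b hb.1
          (closure_mono (image_mono hsub) hbc)
        exact ⟨z, hCclosed z ⟨hzS, hzW, hb.2⟩ hzC, rfl⟩)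
    obtain ⟨a, haC, hab⟩ := hsub hb₀
    refine ⟨a, ⟨(hCW haC).1, (hCW haC).2.1, hab⟩, ?_⟩
    have h1 : y ∈ connectedComponentIn W' a := by
      rw [← connectedComponentIn_eq haC]
      exact hyC
    exact connectedComponentIn_mono a hW'ST h1
  -- all points
  intro x hxW hx
  obtain ⟨u', c, ρ, g, hP, rfl⟩ := hsurf x hxW hx
  have hc := mem_ball_self (x := c) hP.pos
  -- a point of the patch over the complement of `B`
  obtain ⟨p, hp, hpB⟩ : ∃ p ∈ ball c ρ, F (g p) ∉ B := by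
    by_contra hcon
    push Not at hcon
    -- there is a good point
    have hP' := hP.mono (W := V) inter_subset_left
    obtain ⟨p, hp, hpg⟩ : ∃ p ∈ ball c ρ, GoodAt X S T V F (g p) := by
      by_contra hno
      push Not at hno
      refine hP.not_dimLe (hbad'.mono ?_)
      rintro _ ⟨p, hp, rfl⟩
      exact ⟨(hP.mem p hp).1, (hP.mem p hp).2.2.2, hno p hp⟩
    have h1 := hP.nhd p hp _ (isOpen_ball.mem_nhds hp)
    have h2 := hpg.image_mem hF h1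
    have h3 : B ∈ 𝓝 (F (g p)) := by
      refine mem_of_superset h2 ?_
      rintro _ ⟨y, ⟨hyS, hy⟩, rfl⟩
      obtain ⟨q, hq, rfl⟩ := hy hyS
      exact hcon q hq
    exact not_cv_nhds (by rw [Module.finrank_fin_fun]; norm_num) h3 hbad
  obtain ⟨a, haA, ha⟩ := hmain (g p) ⟨(hP.mem p hp).1, (hP.mem p hp).2.2.2, hpB⟩
  refine ⟨a, haA, ?_⟩
  have h5 : IsPreconnected (g '' ball c ρ) :=
    (convex_ball c ρ).isPreconnected.image _ fun p hp => (hP.hol p hp).1.continuousWithinAt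
  have h6 : g '' ball c ρ ⊆ connectedComponentIn (S \ T) (g p) :=
    h5.subset_connectedComponentIn (mem_image_of_mem g hp) (by
      rintro _ ⟨q, hq, rfl⟩
      exact ⟨(hP.mem q hq).1, (hP.mem q hq).2.1⟩)
  rw [connectedComponentIn_eq ha]
  exact h6 (mem_image_of_mem g hc)

theorem local_finite (hSan : IsAn X univ S) (hS2 : DimLe X 2 S) (hT : IsClosed T)
    (hT1 : DimLe X 1 T) (hST : ∀ x ∈ S \ T, IsSurfX X S x) (x₀ : X.pt) :
    ∃ W ∈ 𝓝 x₀, ∃ A : Set X.pt, A.Finite ∧ ∀ x ∈ W, x ∈ S \ T →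
      ∃ a ∈ A, x ∈ connectedComponentIn (S \ T) a := by
  have hSc : IsClosed S := isClosed_of_isAn hSan
  obtain ⟨N, V, u, hx₀, hu⟩ := exists_isCoord X x₀
  rcases Nat.eq_zero_or_pos N with hN | hN
  · subst hN
    refine ⟨V, hu.isOpen.mem_nhds hx₀, {x₀}, finite_singleton _, fun x hx hxS => ?_⟩
    have h1 : x = x₀ := hu.injOn hx hx₀ (Subsingleton.elim _ _)
    subst h1
    exact ⟨x, rfl, mem_connectedComponentIn hxS⟩
  obtain ⟨w₁, w₂, hZ, hbad⟩ := exists_prj (x₀ := x₀) hT hT1 hST hS2 hu hN.ne' hx₀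
  set F : X.pt → Cm 2 := prj x₀ u w₁ w₂ with hFdef
  have hF : ∀ i, ∀ y ∈ V, X.Hol (fun y => F y i) y := fun i y hy => prj_hol hu w₁ w₂ i hy
  have hFc : ContinuousOn F V := fun y hy =>
    (continuousAt_pi.2 fun i => hol_continuousAt (hF i y hy)).continuousWithinAt
  have hF0 : F x₀ = 0 := by
    funext i
    fin_cases i <;> simp [hFdef, prj]
  -- the distance
  set d : X.pt → ℝ := fun y => ‖fun a => u a y - u a x₀‖ with hd
  have hdc : ContinuousOn d V := by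
    refine ContinuousOn.norm ?_
    exact hu.cont.sub continuousOn_const
  have hd0 : d x₀ = 0 := by
    have : (fun a => u a x₀ - u a x₀) = (0 : Cm N) := funext fun a => sub_self _
    rw [hd, ← norm_zero (E := Cm N), ← this]
  obtain ⟨K, hK, hxK, hKV⟩ := exists_compact_subset hu.isOpen hx₀
  obtain ⟨ρ₁, hρ₁, hρK⟩ : ∃ ρ₁ > 0, ∀ y ∈ V, d y < ρ₁ → y ∈ K := by
    have h1 : {y : V | y.1 ∈ K} ∈ 𝓝 (⟨x₀, hx₀⟩ : V) := by
      have h2 : K ∈ 𝓝 x₀ := mem_interior_iff_mem_nhds.1 hxK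
      exact continuous_subtype_val.continuousAt h2
    rw [hu.emb.isInducing.nhds_eq_comap, mem_comap] at h1
    obtain ⟨t, ht, htK⟩ := h1
    obtain ⟨ρ₁, hρ₁, hρt⟩ := Metric.mem_nhds_iff.1 ht
    refine ⟨ρ₁, hρ₁, fun y hy hdy => ?_⟩
    have h3 : (⟨y, hy⟩ : V) ∈ (V.domRestrict fun y a => u a y) ⁻¹' t := by
      refine hρt ?_
      rw [mem_ball_iff_norm]
      exact hdy
    exact htK h3
  obtain ⟨ρ, hρZ, hρ0, hρρ⟩ : ∃ ρ ∈ (d '' {y | y ∈ S ∧ y ∈ V ∧ F y = 0})ᶜ, 0 < ρ ∧ ρ < ρ₁ :=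
    (hZ.image d).dense_compl ℝ |>.exists_between hρ₁
  -- the link
  set L : Set X.pt := {y | y ∈ K ∧ d y = ρ ∧ y ∈ S} with hL
  have hLc : IsCompact L := by
    have h1 : IsClosed (K ∩ d ⁻¹' {ρ}) :=
      (hdc.mono hKV).preimage_isClosed_of_isClosed hK.isClosed isClosed_singleton
    have h2 : L = K ∩ ((K ∩ d ⁻¹' {ρ}) ∩ S) := by
      ext y
      constructor
      · rintro ⟨h1, h2, h3⟩
        exact ⟨h1, ⟨h1, h2⟩, h3⟩
      · rintro ⟨h1, ⟨-, h2⟩, h3⟩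
        exact ⟨h1, h2, h3⟩
    rw [h2]
    exact hK.inter_right (h1.inter hSc)
  obtain ⟨δ, hδ, hδL⟩ := hLc.exists_forall_le' (f := fun y => ‖F y‖) (a := 0)
    ((hFc.mono fun y hy => hKV hy.1).norm) (by
      rintro y ⟨hyK, hyρ, hyS⟩
      rw [norm_pos_iff]
      intro h0
      exact hρZ ⟨y, ⟨hyS, hKV hyK, h0⟩, hyρ⟩)
  set W : Set X.pt := V ∩ (fun y => (d y, F y)) ⁻¹' (Iio ρ ×ˢ ball (0 : Cm 2) δ) with hW
  have hWo : IsOpen W := (hdc.prodMk hFc).isOpen_inter_preimage hu.isOpen (isOpen_Iio.prod isOpen_ball)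
  have hxW : x₀ ∈ W := ⟨hx₀, by
    show d x₀ < ρ
    rw [hd0]; exact hρ0, by
    show F x₀ ∈ ball (0 : Cm 2) δ
    rw [hF0]; exact mem_ball_self hδ⟩
  have hprop : ∀ r' < δ, IsCompact {y | y ∈ S ∧ y ∈ W ∧ F y ∈ closedBall (0 : Cm 2) r'} := by
    intro r' hr'
    have h1 : IsClosed (K ∩ (fun y => (d y, F y)) ⁻¹' (Iic ρ ×ˢ closedBall (0 : Cm 2) r')) :=
      ((hdc.prodMk hFc).mono hKV).preimage_isClosed_of_isClosed hK.isClosed
        (isClosed_Iic.prod isClosed_closedBall)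
    have h2 : {y | y ∈ S ∧ y ∈ W ∧ F y ∈ closedBall (0 : Cm 2) r'} = K ∩
        ((K ∩ (fun y => (d y, F y)) ⁻¹' (Iic ρ ×ˢ closedBall (0 : Cm 2) r')) ∩ S) := by
      ext y
      constructor
      · rintro ⟨hyS, ⟨hyV, hyd, -⟩, hyF⟩
        have hyd' : d y < ρ := hyd
        have hyK := hρK y hyV (hyd'.trans hρρ)
        exact ⟨hyK, ⟨hyK, hyd'.le, hyF⟩, hyS⟩
      · rintro ⟨hyK, ⟨-, hyd, hyF⟩, hyS⟩
        have hyd' : d y ≤ ρ := hyd
        have hyF' : ‖F y‖ ≤ r' := by simpa using hyF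
        refine ⟨hyS, ⟨hKV hyK, lt_of_le_of_ne hyd' fun h => ?_, ?_⟩, hyF⟩
        · have := hδL y ⟨hyK, h, hyS⟩
          linarith
        · show F y ∈ ball (0 : Cm 2) δ
          rw [mem_ball_zero_iff]
          linarith
    rw [h2]
    exact hK.inter_right (h1.inter hSc)
  obtain ⟨A, hA, hAW⟩ := comp_local hST hT hSc hu.isOpen hF hWo inter_subset_left hδ
    (fun y hy => hy.2.2) hprop (hbad.mono fun y hy => ⟨hy.1, hy.2.1.1, hy.2.2⟩)
  exact ⟨W, hWo.mem_nhds hxW, A, hA, hAW⟩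

theorem stL3 : StL3 := by
  intro X S T hSan hS2 hT hTS hT1 hST
  have key := local_finite hSan hS2 hT hT1 hST
  choose W hW A hA hAW using key
  obtain ⟨t, ht⟩ := isCompact_univ.elim_nhds_subcover W fun x _ => hW x
  have hfin : (⋃ x ∈ t, A x).Finite := t.finite_toSet.biUnion fun x _ => hA x
  obtain ⟨k, c, hc⟩ : ∃ (k : ℕ) (c : Fin k → X.pt), range c = ⋃ x ∈ t, A x := by
    have := hfin.fin_param
    obtain ⟨k, c, -, hc⟩ := this
    exact ⟨k, c, hc⟩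
  refine ⟨k, c, fun x hx => ?_⟩
  obtain ⟨y, hy, hxy⟩ := mem_iUnion₂.1 (ht.2 (mem_univ x))
  obtain ⟨a, ha, hxa⟩ := hAW y x hxy hx
  have h1 : a ∈ range c := by
    rw [hc]
    exact mem_iUnion₂.2 ⟨y, hy, ha⟩
  obtain ⟨i, rfl⟩ := h1
  exact ⟨i, hxa⟩

end Vale.Agent.P277.H762
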