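import Vale.Agent.P277.H762.L1a
import Vale.Agent.P277.H19.DivL
import Vale.Agent.P277.Stmts
import Mathlib.Analysis.Analytic.Uniqueness

/-!
# P277, task L1: an analytic set of dimension two near a surface contained in it
-/

open scoped Manifold ContDiff Topology
open Vale.Agent.P272.K Vale.Agent.P285.H281.FD Set Filter Metric

noncomputable section

namespace Vale.Agent.P277.H762

/-- the point `(t, c)` -/
def cons3 (t : ℂ) (c : Cm 2) : Cm 3 := ![t, c 0, c 1]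

/-- the last two coordinates -/
def tl3 (w : Cm 3) : Cm 2 := ![w 1, w 2]

theorem cons3_zero (t : ℂ) (c : Cm 2) : cons3 t c 0 = t := rfl

theorem tl3_cons3 (t : ℂ) (c : Cm 2) : tl3 (cons3 t c) = c := by
  funext i; fin_cases i <;> rfl

theorem cons3_tl3 (w : Cm 3) : cons3 (w 0) (tl3 w) = w := by
  funext i; fin_cases i <;> rfl

theorem continuous_cons3 : Continuous fun z : ℂ × Cm 2 => cons3 z.1 z.2 := by
  refine continuous_pi fun i => ?_
  fin_cases i <;> simp [cons3] <;> fun_prop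

theorem continuous_tl3 : Continuous tl3 := by
  refine continuous_pi fun i => ?_
  fin_cases i <;> simp [tl3] <;> fun_prop

theorem analyticAt_tl3 (w : Cm 3) : AnalyticAt ℂ tl3 w := by
  rw [analyticAt_pi_iff]
  intro i
  fin_cases i
  · exact (ContinuousLinearMap.proj (R := ℂ) (φ := fun _ : Fin 3 => ℂ) 1).analyticAt _
  · exact (ContinuousLinearMap.proj (R := ℂ) (φ := fun _ : Fin 3 => ℂ) 2).analyticAt _

theorem analyticAt_cons3_left (c : Cm 2) (t : ℂ) : AnalyticAt ℂ (fun t => cons3 t c) t := by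
  rw [analyticAt_pi_iff]
  intro i
  fin_cases i
  · exact analyticAt_id
  · exact analyticAt_const
  · exact analyticAt_const

theorem analyticAt_cons3_right (t : ℂ) (c : Cm 2) : AnalyticAt ℂ (fun c => cons3 t c) c := by
  rw [analyticAt_pi_iff]
  intro i
  fin_cases i
  · exact analyticAt_const
  · exact (ContinuousLinearMap.proj (R := ℂ) (φ := fun _ : Fin 2 => ℂ) 0).analyticAt _
  · exact (ContinuousLinearMap.proj (R := ℂ) (φ := fun _ : Fin 2 => ℂ) 1).analyticAt _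

/-- coordinates adapted to a vector -/
theorem exists_coord {n : ℕ} {v : Cm (n + 1)} (hv : v ≠ 0) :
    ∃ L : (ℂ × Cm n) ≃L[ℂ] Cm (n + 1), L (1, 0) = v := by
  have h : Module.finrank ℂ (ℂ × Cm n) = Module.finrank ℂ (Cm (n + 1)) := by
    rw [Module.finrank_prod, Module.finrank_self, Module.finrank_fin_fun, Module.finrank_fin_fun,
      add_comm]
  set L₀ : (ℂ × Cm n) ≃L[ℂ] Cm (n + 1) := ContinuousLinearEquiv.ofFinrankEq h
  have h1 : L₀ (1, 0) ≠ 0 := by
    rw [Ne, L₀.map_eq_zero_iff]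
    intro h2
    have := congrArg Prod.fst h2
    simp at this
  obtain ⟨A, hA⟩ := SeparatingDual.exists_continuousLinearEquiv_apply_eq (R := ℂ) h1 hv
  exact ⟨L₀.trans A, hA⟩

/-- a direction in which a function does not vanish identically -/
theorem exists_dir {n : ℕ} {F : Cm n × Cm 2 → ℂ} {c₀ : Cm 2} (hF : AnalyticAt ℂ F (0, c₀))
    (hne : ¬ F =ᶠ[𝓝 ((0 : Cm n), c₀)] 0) :
    ∃ v : Cm n, ¬ (fun w : Cm 3 => F (w 0 • v, tl3 w)) =ᶠ[𝓝 (cons3 0 c₀)] 0 := by
  obtain ⟨ρ, hρ, hball⟩ := Metric.eventually_nhds_iff_ball.1 hF.eventually_analyticAt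
  obtain ⟨y, hy, hy0⟩ : ∃ y ∈ ball ((0 : Cm n), c₀) ρ, F y ≠ 0 := by
    by_contra hcon
    push Not at hcon
    refine hne ?_
    filter_upwards [ball_mem_nhds ((0 : Cm n), c₀) hρ] with y hy using hcon y hy
  refine ⟨y.1, fun hz => hy0 ?_⟩
  set lin : Cm 3 →ₗ[ℝ] Cm n × Cm 2 :=
    { toFun := fun w => (w 0 • y.1, tl3 w)
      map_add' := fun a b => by
        ext i
        · simp [add_mul]
        · fin_cases i <;> rfl
      map_smul' := fun r a => by
        ext i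
        · simp [mul_assoc]
        · fin_cases i <;> rfl } with hlin
  have hcont : Continuous fun w : Cm 3 => ((w 0 • y.1, tl3 w) : Cm n × Cm 2) :=
    ((continuous_apply 0).smul continuous_const).prodMk continuous_tl3
  set D : Set (Cm 3) := lin ⁻¹' ball ((0 : Cm n), c₀) ρ with hD
  have hDc : Convex ℝ D := (convex_ball _ _).linear_preimage lin
  have hw1 : cons3 0 c₀ ∈ D := by
    show ((cons3 0 c₀ 0 • y.1, tl3 (cons3 0 c₀)) : Cm n × Cm 2) ∈ ball ((0 : Cm n), c₀) ρ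
    rw [cons3_zero, tl3_cons3, zero_smul]
    exact mem_ball_self hρ
  have hw2 : cons3 1 y.2 ∈ D := by
    show ((cons3 1 y.2 0 • y.1, tl3 (cons3 1 y.2)) : Cm n × Cm 2) ∈ ball ((0 : Cm n), c₀) ρ
    rw [cons3_zero, tl3_cons3, one_smul]
    exact hy
  have han : AnalyticOnNhd ℂ (fun w : Cm 3 => F (w 0 • y.1, tl3 w)) D := by
    intro w hw
    have h1 : AnalyticAt ℂ (fun w : Cm 3 => ((w 0 • y.1, tl3 w) : Cm n × Cm 2)) w :=
      (((ContinuousLinearMap.proj (R := ℂ) (φ := fun _ : Fin 3 => ℂ) 0).analyticAt w).smul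
        analyticAt_const).prod (analyticAt_tl3 w)
    exact AnalyticAt.comp (g := F) (f := fun w : Cm 3 => ((w 0 • y.1, tl3 w) : Cm n × Cm 2))
      (hball _ hw) h1
  have h2 := han.eqOn_zero_of_preconnected_of_eventuallyEq_zero hDc.isPreconnected hw1 hz hw2
  simp only [cons3_zero, tl3_cons3, one_smul] at h2
  exact h2

/-- **Main lemma**: an analytic set of dimension two which contains `{0} × ℂ²` coincides with it
near all points `(0, c)`, outside a set of dimension one. -/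
theorem bad_thin (hB1 : StB1) (n : ℕ) : ∀ (m : ℕ) (F : Fin m → Cm n × Cm 2 → ℂ)
    (E : Set (Cm n × Cm 2)) (c₀ : Cm 2) (_ : ∀ j, AnalyticAt ℂ (F j) (0, c₀))
    (_ : ∀ᶠ y in 𝓝 ((0 : Cm n), c₀), (y ∈ E ↔ ∀ j, F j y = 0))
    (_ : ∃ N ∈ 𝓝 ((0 : Cm n), c₀), Cv 2 (N ∩ E)) (_ : ∀ᶠ c in 𝓝 c₀, ((0 : Cm n), c) ∈ E),
    ∃ U ∈ 𝓝 c₀, Cv 1 {c | c ∈ U ∧ ¬ ∀ᶠ y in 𝓝 ((0 : Cm n), c), y ∈ E → y.1 = 0} := by
  induction n with
  | zero =>
    intro m F E c₀ _ _ _ _
    refine ⟨univ, univ_mem, cv_empty.mono ?_⟩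
    rintro c ⟨-, hc⟩
    exact hc (Eventually.of_forall fun y _ => Subsingleton.elim _ _)
  | succ n ih =>
    intro m F E c₀ hF hE hdim hSg
    obtain ⟨N, hN, hNcv⟩ := hdim
    -- one of the functions does not vanish identically
    obtain ⟨j, hj⟩ : ∃ j, ¬ F j =ᶠ[𝓝 ((0 : Cm (n + 1)), c₀)] 0 := by
      by_contra hcon
      push Not at hcon
      have h1 : ∀ᶠ y in 𝓝 ((0 : Cm (n + 1)), c₀), ∀ j, F j y = 0 := eventually_all.2 hcon
      have h2 : N ∩ E ∈ 𝓝 ((0 : Cm (n + 1)), c₀) := by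
        refine inter_mem hN ?_
        filter_upwards [h1, hE] with y hy hy' using hy'.2 hy
      refine not_cv_nhds ?_ h2 hNcv
      rw [Module.finrank_prod, Module.finrank_fin_fun, Module.finrank_fin_fun]
      omega
    obtain ⟨v, hv⟩ := exists_dir (hF j) hj
    set Φ : Cm 3 → ℂ := fun w => F j (w 0 • v, tl3 w) with hΦ
    have hΦmap : ∀ w : Cm 3, AnalyticAt ℂ
        (fun w : Cm 3 => ((w 0 • v, tl3 w) : Cm (n + 1) × Cm 2)) w := fun w =>
      (((ContinuousLinearMap.proj (R := ℂ) (φ := fun _ : Fin 3 => ℂ) 0).analyticAt w).smul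
        analyticAt_const).prod (analyticAt_tl3 w)
    have hΦ0 : ((cons3 0 c₀ 0 • v, tl3 (cons3 0 c₀)) : Cm (n + 1) × Cm 2) = (0, c₀) := by
      rw [cons3_zero, tl3_cons3, zero_smul]
    have hΦa : AnalyticAt ℂ Φ (cons3 0 c₀) :=
      AnalyticAt.comp_of_eq (g := F j)
        (f := fun w : Cm 3 => ((w 0 • v, tl3 w) : Cm (n + 1) × Cm 2)) (hF j) (hΦmap _) hΦ0
    have hFS : ∀ᶠ c in 𝓝 c₀, ∀ i, F i (0, c) = 0 := by
      have h1 : Tendsto (fun c : Cm 2 => ((0 : Cm (n + 1)), c)) (𝓝 c₀) (𝓝 (0, c₀)) :=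
        (continuous_const.prodMk continuous_id).tendsto' _ _ rfl
      filter_upwards [h1.eventually hE, hSg] with c hc hc' using hc.1 hc'
    have hv0 : v ≠ 0 := by
      rintro rfl
      refine hv ?_
      have h1 : Tendsto tl3 (𝓝 (cons3 0 c₀)) (𝓝 c₀) :=
        continuous_tl3.tendsto' _ _ (tl3_cons3 0 c₀)
      filter_upwards [h1.eventually hFS] with w hw
      show F j (w 0 • (0 : Cm (n + 1)), tl3 w) = 0
      rw [smul_zero]
      exact hw j
    obtain ⟨b, h, hha, hhΦ, hh0⟩ := H19.exists_max_pow hΦa rfl hv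
    set a : Cm 2 → ℂ := fun c => h (cons3 0 c) with ha
    have hac : Tendsto (fun c : Cm 2 => cons3 0 c) (𝓝 c₀) (𝓝 (cons3 0 c₀)) :=
      (analyticAt_cons3_right 0 c₀).continuousAt
    have hane : ¬ a =ᶠ[𝓝 c₀] 0 := by
      intro h0
      refine hh0 ?_
      have h1 : Tendsto tl3 (𝓝 (cons3 0 c₀)) (𝓝 c₀) :=
        continuous_tl3.tendsto' _ _ (tl3_cons3 0 c₀)
      filter_upwards [h1.eventually h0] with w hw hw0
      have h2 : h (cons3 0 (tl3 w)) = 0 := hw
      have h3 : cons3 0 (tl3 w) = w := by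
        conv_rhs => rw [← cons3_tl3 w, hw0]
      rwa [h3] at h2
    -- a good ball
    have hinc : Tendsto (fun c : Cm 2 => ((0 : Cm (n + 1)), c)) (𝓝 c₀) (𝓝 (0, c₀)) :=
      (continuous_const.prodMk continuous_id).tendsto' _ _ rfl
    obtain ⟨ρ, hρ, hgood⟩ := Metric.eventually_nhds_iff_ball.1
      ((hinc.eventually (eventually_all.2 fun i => (hF i).eventually_analyticAt)).and
        ((hinc.eventually (eventually_eventually_nhds.2 hE)).and
          ((hinc.eventually (eventually_mem_nhds_iff.2 hN)).and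
            ((eventually_eventually_nhds.2 hSg).and
              ((hac.eventually hha.eventually_analyticAt).and
                (hac.eventually (eventually_eventually_nhds.2 hhΦ)))))))
    refine ⟨ball c₀ ρ, ball_mem_nhds c₀ hρ, ?_⟩
    have haan : ∀ c ∈ ball c₀ ρ, AnalyticAt ℂ a c := fun c hc =>
      AnalyticAt.comp_of_eq (g := h) (f := fun c => cons3 0 c) (hgood c hc).2.2.2.2.1
        (analyticAt_cons3_right 0 c) rfl
    have hane' : ∀ c ∈ ball c₀ ρ, ¬ a =ᶠ[𝓝 c] 0 := by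
      intro c hc h0
      refine hane ?_
      have h1 : AnalyticOnNhd ℂ a (ball c₀ ρ) := haan
      have h2 := h1.eqOn_zero_of_preconnected_of_eventuallyEq_zero
        (convex_ball c₀ ρ).isPreconnected hc h0
      filter_upwards [ball_mem_nhds c₀ hρ] with z hz using h2 hz
    obtain ⟨W, G, hW, hG, hWG⟩ := hB1 1 (ball c₀ ρ) a isOpen_ball haan hane'
    have hfirst : Cv 1 {c | c ∈ ball c₀ ρ ∧ a c = 0} :=
      ⟨W, G, hW, fun k p hp => (hG k p hp).1, hWG⟩
    -- the local statement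
    have key : ∀ c₁ ∈ ball c₀ ρ, a c₁ ≠ 0 → ∃ U₁ ∈ 𝓝 c₁,
        Cv 1 {c | c ∈ U₁ ∧ ¬ ∀ᶠ y in 𝓝 ((0 : Cm (n + 1)), c), y ∈ E → y.1 = 0} := by
      intro c₁ hc₁ hac₁
      obtain ⟨g1, g2, g3, g4, g5, g6⟩ := hgood c₁ hc₁
      obtain ⟨L, hL⟩ := exists_coord hv0
      have hLt : ∀ t : ℂ, L (t, 0) = t • v := by
        intro t
        have : ((t, 0) : ℂ × Cm n) = t • (1, 0) := by ext <;> simp
        rw [this, map_smul, hL]
      set F' : Fin m → ℂ × (Cm n × Cm 2) → ℂ := fun i z => F i (L (z.1, z.2.1), z.2.2) with hF'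
      have hmapc : Continuous fun z : ℂ × (Cm n × Cm 2) =>
          ((L (z.1, z.2.1), z.2.2) : Cm (n + 1) × Cm 2) := by fun_prop
      have hmap0 : ((L ((0 : ℂ), (0 : Cm n)), c₁) : Cm (n + 1) × Cm 2) = (0, c₁) := by
        have : L ((0 : ℂ), (0 : Cm n)) = 0 := L.map_zero
        rw [this]
      have hmapa : AnalyticAt ℂ (fun z : ℂ × (Cm n × Cm 2) =>
          ((L (z.1, z.2.1), z.2.2) : Cm (n + 1) × Cm 2)) (0, (0, c₁)) := by
        refine AnalyticAt.prod ?_ (analyticAt_snd.comp_of_eq analyticAt_snd rfl)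
        refine (L : (ℂ × Cm n) →L[ℂ] Cm (n + 1)).analyticAt _ |>.comp ?_
        exact analyticAt_fst.prod (analyticAt_fst.comp_of_eq analyticAt_snd rfl)
      have hF'a : ∀ i, AnalyticAt ℂ (F' i) (0, (0, c₁)) := fun i =>
        AnalyticAt.comp_of_eq (g := F i) (g1 i) hmapa hmap0
      have hu : AnalyticAt ℂ (fun t => h (cons3 t c₁)) 0 :=
        AnalyticAt.comp_of_eq (g := h) (f := fun t => cons3 t c₁) g5
          (analyticAt_cons3_left c₁ 0) rfl
      have hFu : ∀ᶠ t in 𝓝 (0 : ℂ), F' j (t, ((0 : Cm n), c₁)) = t ^ b * h (cons3 t c₁) := by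
        have h1 : Tendsto (fun t => cons3 t c₁) (𝓝 0) (𝓝 (cons3 0 c₁)) :=
          (analyticAt_cons3_left c₁ 0).continuousAt
        filter_upwards [h1.eventually g6] with t ht
        have h2 : Φ (cons3 t c₁) = F' j (t, ((0 : Cm n), c₁)) := by
          simp only [hΦ, hF', cons3_zero, tl3_cons3, hLt]
        rw [← h2, ht, cons3_zero]
      obtain ⟨ε₀, hε₀, hel⟩ := exists_elim (p₁ := ((0 : Cm n), c₁)) hF'a j hu hac₁ hFu
      -- a good neighbourhood
      have hnear : ∀ᶠ z : ℂ × (Cm n × Cm 2) in 𝓝 (0, (0, c₁)),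
          ((L (z.1, z.2.1), z.2.2) ∈ E ↔ ∀ i, F' i z = 0) ∧
            ((L (z.1, z.2.1), z.2.2) : Cm (n + 1) × Cm 2) ∈ N := by
        have h1 : Tendsto (fun z : ℂ × (Cm n × Cm 2) =>
            ((L (z.1, z.2.1), z.2.2) : Cm (n + 1) × Cm 2)) (𝓝 (0, (0, c₁))) (𝓝 (0, c₁)) :=
          hmapc.tendsto' _ _ hmap0
        exact (h1.eventually g2).and (h1.eventually g3)
      obtain ⟨δ, hδ, hδn⟩ := Metric.eventually_nhds_iff_ball.1 hnear
      set ε : ℝ := min ε₀ δ with hε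
      have hε0 : 0 < ε := lt_min hε₀ hδ
      obtain ⟨k, Nf, hNa, hNe⟩ := hel ε hε0 (min_le_left _ _)
      set E' : Set (Cm n × Cm 2) := {p | ∃ t : ℂ, ‖t‖ < ε ∧
        ((L (t, p.1), p.2) : Cm (n + 1) × Cm 2) ∈ E} with hE'
      have hmem : ∀ p ∈ ball ((0 : Cm n), c₁) δ, ∀ t : ℂ, ‖t‖ < ε →
          ((t, p) : ℂ × (Cm n × Cm 2)) ∈ ball ((0 : ℂ), ((0 : Cm n), c₁)) δ := by
        intro p hp t ht
        rw [mem_ball, Prod.dist_eq, max_lt_iff]
        exact ⟨by simpa using ht.trans_le (min_le_right _ _), hp⟩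
      obtain ⟨U₂, hU₂, hcv⟩ := ih k Nf E' c₁ hNa (by
          filter_upwards [hNe, ball_mem_nhds ((0 : Cm n), c₁) hδ] with p hp hpb
          rw [← hp]
          refine exists_congr fun t => and_congr_right fun ht => ?_
          exact (hδn _ (hmem p hpb t ht)).1)
        ⟨ball ((0 : Cm n), c₁) δ, ball_mem_nhds _ hδ, by
          have h1 : Cv 2 ((fun y : Cm (n + 1) × Cm 2 => ((L.symm y.1).2, y.2)) '' (N ∩ E)) := by
            refine hNcv.image isOpen_univ (subset_univ _) fun z _ => ?_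
            refine AnalyticAt.prod ?_ analyticAt_snd
            refine analyticAt_snd.comp ?_
            exact (L.symm : Cm (n + 1) →L[ℂ] ℂ × Cm n).analyticAt _ |>.comp analyticAt_fst
          refine h1.mono ?_
          rintro p ⟨hpb, t, ht, htE⟩
          refine ⟨(L (t, p.1), p.2), ⟨(hδn _ (hmem p hpb t ht)).2, htE⟩, ?_⟩
          simp⟩
        (by
          filter_upwards [g4] with c hc
          refine ⟨0, by simpa using hε0, ?_⟩
          have : L ((0 : ℂ), (0 : Cm n)) = 0 := L.map_zero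
          show ((L ((0 : ℂ), (0 : Cm n)), c) : Cm (n + 1) × Cm 2) ∈ E
          rw [this]
          exact hc)
      have hinc₁ : Tendsto (fun c : Cm 2 => ((0 : Cm (n + 1)), c)) (𝓝 c₁) (𝓝 (0, c₁)) :=
        (continuous_const.prodMk continuous_id).tendsto' _ _ rfl
      have hac₁' : Tendsto (fun c : Cm 2 => cons3 0 c) (𝓝 c₁) (𝓝 (cons3 0 c₁)) :=
        (analyticAt_cons3_right 0 c₁).continuousAt
      have hU₃ : ∀ᶠ c in 𝓝 c₁, (∀ᶠ y in 𝓝 ((0 : Cm (n + 1)), c), (y ∈ E ↔ ∀ j, F j y = 0)) ∧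
          ∀ᶠ w in 𝓝 (cons3 0 c), Φ w = w 0 ^ b * h w ∧ h w ≠ 0 := by
        have h1 : ∀ᶠ w in 𝓝 (cons3 0 c₁), h w ≠ 0 := g5.continuousAt.eventually_ne hac₁
        exact (hinc₁.eventually (eventually_eventually_nhds.2 g2)).and
          (hac₁'.eventually (eventually_eventually_nhds.2 (g6.and h1)))
      refine ⟨U₂ ∩ {c | (∀ᶠ y in 𝓝 ((0 : Cm (n + 1)), c), (y ∈ E ↔ ∀ j, F j y = 0)) ∧
          ∀ᶠ w in 𝓝 (cons3 0 c), Φ w = w 0 ^ b * h w ∧ h w ≠ 0}, inter_mem hU₂ hU₃,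
        hcv.mono ?_⟩
      rintro c ⟨⟨hc2, hcE, hcΦ⟩, hbad⟩
      refine ⟨hc2, fun hnb => hbad ?_⟩
      have hπ : Tendsto (fun y : Cm (n + 1) × Cm 2 => (((L.symm y.1).2, y.2) : Cm n × Cm 2))
          (𝓝 (0, c)) (𝓝 (0, c)) := by
        refine Continuous.tendsto' (by fun_prop) _ _ ?_
        simp
      have hτ : Tendsto (fun y : Cm (n + 1) × Cm 2 => ‖(L.symm y.1).1‖) (𝓝 (0, c)) (𝓝 0) := by
        refine Continuous.tendsto' (by fun_prop) _ _ ?_
        simp
      have hσ : Tendsto (fun y : Cm (n + 1) × Cm 2 => cons3 (L.symm y.1).1 y.2) (𝓝 (0, c))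
          (𝓝 (cons3 0 c)) := by
        refine Continuous.tendsto' (continuous_cons3.comp
          (by fun_prop : Continuous fun y : Cm (n + 1) × Cm 2 =>
            (((L.symm y.1).1, y.2) : ℂ × Cm 2))) _ _ ?_
        simp
      filter_upwards [hπ.eventually hnb, hτ.eventually (gt_mem_nhds hε0), hσ.eventually hcΦ, hcE]
        with y hy1 hy2 hy3 hy4 hyE
      have hLy : L ((L.symm y.1).1, (L.symm y.1).2) = y.1 := L.apply_symm_apply y.1
      have hw' : (L.symm y.1).2 = 0 := by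
        refine hy1 ⟨(L.symm y.1).1, hy2, ?_⟩
        show ((L ((L.symm y.1).1, (L.symm y.1).2), y.2) : Cm (n + 1) × Cm 2) ∈ E
        rw [hLy]
        exact hyE
      rw [hw', hLt] at hLy
      have h5 : Φ (cons3 (L.symm y.1).1 y.2) = 0 := by
        simp only [hΦ, cons3_zero, tl3_cons3, hLy]
        exact (hy4.1 hyE) j
      rw [hy3.1, cons3_zero, mul_eq_zero] at h5
      have h6 : (L.symm y.1).1 = 0 := eq_zero_of_pow_eq_zero (h5.resolve_right hy3.2)
      rw [← hLy, h6, zero_smul]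
    refine (hfirst.union (cv_of_local (k := 1) (S := {c | c ∈ ball c₀ ρ ∧ a c ≠ 0 ∧
      ¬ ∀ᶠ y in 𝓝 ((0 : Cm (n + 1)), c), y ∈ E → y.1 = 0}) fun c hc => ?_)).mono ?_
    · obtain ⟨U₁, hU₁, hcv⟩ := key c hc.1 hc.2.1
      exact ⟨U₁, hU₁, hcv.mono fun c' hc' => ⟨hc'.1, hc'.2.2.2⟩⟩
    · rintro c ⟨hc, hbad⟩
      by_cases h0 : a c = 0
      · exact Or.inl ⟨hc, h0⟩
      · exact Or.inr ⟨hc, h0, hbad⟩

end Vale.Agent.P277.H762
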