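import Vale.Agent.P277.H762.CL4
import Vale.Agent.P277.Stmts9
import Vale.Agent.P277.H29.PH.Basic

/-!
# P277, task CL: the line bundle of the closure of a hypersurface (`StCl`)
-/

open scoped Manifold ContDiff Topology
open Vale.Agent.P272.K Vale.Agent.P285.H281.FD Set Filter Metric
open Vale.Agent.P277.PH Vale.Agent.P277.T3

noncomputable section

namespace Vale.Agent.P277.H762

/-! ### quotients -/

section quo

variable {X : Type*} [TopologicalSpace X]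

/-- the continuous extension of `a / b` -/
def quo (a b : X → ℂ) (x : X) : ℂ := limUnder (𝓝[{w | b w ≠ 0}] x) (fun w => a w / b w)

theorem quo_eq {a b u : X → ℂ} {x : X} (hu : ContinuousAt u x)
    (hab : ∀ᶠ w in 𝓝 x, a w = b w * u w) (hb : ∃ᶠ w in 𝓝 x, b w ≠ 0) : quo a b x = u x := by
  have hne : (𝓝[{w | b w ≠ 0}] x).NeBot :=
    mem_closure_iff_nhdsWithin_neBot.1 (mem_closure_iff_frequently.2 hb)
  have h1 : Tendsto u (𝓝[{w | b w ≠ 0}] x) (𝓝 (u x)) := hu.mono_left nhdsWithin_le_nhds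
  refine Tendsto.limUnder_eq (h1.congr' ?_)
  filter_upwards [self_mem_nhdsWithin, mem_nhdsWithin_of_mem_nhds hab] with w h1 h2
  rw [h2, mul_div_cancel_left₀ _ h1]

theorem eq_of_frequently_eq {f g : X → ℂ} {x : X} (hf : ContinuousAt f x) (hg : ContinuousAt g x)
    (h : ∃ᶠ w in 𝓝 x, f w = g w) : f x = g x := by
  by_contra hne
  have h1 : ContinuousAt (fun w => f w - g w) x := hf.sub hg
  have h2 : ∀ᶠ w in 𝓝 x, f w - g w ≠ 0 := h1.eventually_ne (sub_ne_zero.2 hne)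
  obtain ⟨w, h3, h4⟩ := (h.and_eventually h2).exists
  exact h4 (sub_eq_zero.2 h3)

end quo

/-- a function vanishing exactly on the closure of a hypersurface does not vanish identically -/
theorem frequently_ne {m : ℕ} {U Θ E : Set (Cm (m + 2))} (hU : IsOpen U)
    (hE : IsOpen (U \ (E ∪ Θ))) (heq : ∀ p ∈ U, p ∈ E → ∃ h, LEq E p h) (hcv : Cv m (U ∩ Θ))
    {b : Cm (m + 2) → ℂ} (hb : ∀ z ∈ U, (z ∈ closure E ↔ b z = 0)) {z : Cm (m + 2)} (hz : z ∈ U) :
    ∃ᶠ w in 𝓝 z, w ∈ U ∧ b w ≠ 0 := by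
  have h1 : Cv (m + 1) (U ∩ (E ∪ Θ)) := by
    rw [inter_union_distrib_left]
    exact (cv_hyp (n := m + 1) heq).union hcv.succ
  have h2 : z ∈ closure (U \ (E ∪ Θ)) := h1.mem_closure (by simp) hU hz
  refine (mem_closure_iff_frequently.1 h2).mono fun w hw => ⟨hw.1, fun h0 => ?_⟩
  have h3 : w ∈ closure E := (hb w hw.1).2 h0
  obtain ⟨x, hx, hxE⟩ := (mem_closure_iff_nhds.1 h3) _ (hE.mem_nhds hw)
  exact hx.2 (Or.inl hxE)

/-- the quotient of two reduced equations of the closure of a hypersurface extends to a unit -/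
theorem ratio_ext {m : ℕ} {U Θ E : Set (Cm (m + 2))} (hU : IsOpen U) (hΘ : IsOpen (U \ Θ))
    (hE : IsOpen (U \ (E ∪ Θ))) (heq : ∀ p ∈ U, p ∈ E → ∃ h, LEq E p h) (hcv : Cv m (U ∩ Θ))
    {a b : Cm (m + 2) → ℂ} (ha : ∀ z ∈ U, AnalyticAt ℂ a z) (hb : ∀ z ∈ U, AnalyticAt ℂ b z)
    (ha0 : ∀ z ∈ U, (z ∈ closure E ↔ a z = 0)) (hb0 : ∀ z ∈ U, (z ∈ closure E ↔ b z = 0))
    (had : ∀ z ∈ U, z ∈ E → fderiv ℂ a z ≠ 0) (hbd : ∀ z ∈ U, z ∈ E → fderiv ℂ b z ≠ 0) :
    ∃ F : Cm (m + 2) → ℂ, (∀ z ∈ U, AnalyticAt ℂ F z ∧ F z ≠ 0) ∧ ∀ z ∈ U, a z = b z * F z := by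
  have hV : Module.finrank ℂ (Cm (m + 2)) = (m + 1) + 1 := by simp
  have hfr : ∀ z ∈ U, ∃ᶠ w in 𝓝 z, b w ≠ 0 := fun z hz =>
    (frequently_ne hU hE heq hcv hb0 hz).mono fun w hw => hw.2
  -- local units
  have key : ∀ z ∈ U \ Θ, ∃ u : Cm (m + 2) → ℂ, AnalyticAt ℂ u z ∧ u z ≠ 0 ∧
      ∀ᶠ w in 𝓝 z, a w = b w * u w := by
    rintro z ⟨hzU, hzΘ⟩
    by_cases hzE : z ∈ E
    · refine exists_div_unit hV (hb z hzU) (hbd z hzU hzE) ((hb0 z hzU).1 (subset_closure hzE))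
        (ha z hzU) (had z hzU hzE) ?_
      filter_upwards [hU.mem_nhds hzU] with w hw h0
      exact (ha0 w hw).1 ((hb0 w hw).2 h0)
    · have hcl : z ∉ closure E := by
        intro h3
        obtain ⟨x, hx, hxE⟩ := (mem_closure_iff_nhds.1 h3) _
          (hE.mem_nhds ⟨hzU, fun h => h.elim hzE hzΘ⟩)
        exact hx.2 (Or.inl hxE)
      have haz : a z ≠ 0 := fun h => hcl ((ha0 z hzU).2 h)
      have hbz : b z ≠ 0 := fun h => hcl ((hb0 z hzU).2 h)
      refine ⟨fun w => a w / b w, (ha z hzU).div (hb z hzU) hbz, div_ne_zero haz hbz, ?_⟩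
      filter_upwards [(hb z hzU).continuousAt.eventually_ne hbz] with w hw
      rw [mul_div_cancel₀ _ hw]
  have key2 : ∀ z ∈ U \ Θ, AnalyticAt ℂ (quo a b) z ∧ quo a b z ≠ 0 ∧ a z = b z * quo a b z := by
    intro z hz
    obtain ⟨u, hu, hu0, hab⟩ := key z hz
    have h1 : quo a b =ᶠ[𝓝 z] u := by
      filter_upwards [hu.eventually_analyticAt, eventually_eventually_nhds.2 hab,
        hU.mem_nhds hz.1] with w h1 h2 h3
      exact quo_eq h1.continuousAt h2 (hfr w h3)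
    refine ⟨hu.congr h1.symm, ?_, ?_⟩
    · rw [h1.self_of_nhds]; exact hu0
    · rw [h1.self_of_nhds]; exact hab.self_of_nhds
  obtain ⟨F, hF, hFf⟩ := hartogs_unit (V := Cm (m + 2)) (n := m) (by simp) hU hΘ hcv
    (f := quo a b) fun z hz => ⟨(key2 z hz).1, (key2 z hz).2.1⟩
  refine ⟨F, hF, fun z hz => ?_⟩
  refine eq_of_frequently_eq (f := a) (g := fun z => b z * F z) (ha z hz).continuousAt
    ((hb z hz).continuousAt.mul (hF z hz).1.continuousAt) ?_
  have h1 : z ∈ closure (U \ Θ) := hcv.mem_closure (by simp) hU hz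
  refine (mem_closure_iff_frequently.1 h1).mono fun w hw => ?_
  show a w = b w * F w
  rw [hFf w hw]
  exact (key2 w hw).2.2

/-! ### charts -/

section mfd

variable {n : ℕ} {H : Type} [TopologicalSpace H] [ChartedSpace (Cm n) H]

variable [IsManifold 𝓘(ℂ, Cm n) ω H]

/-- nonvanishing of the differential does not depend on the chart -/
theorem fderiv_ne_chart {g : H → ℂ} {x : H} {e e' : Chart n H} (he : At e x) (he' : At e' x)
    (hg : HolF n g x) (hd : fderiv ℂ (fun z => g (e.symm z)) (e x) ≠ 0) :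
    fderiv ℂ (fun z => g (e'.symm z)) (e' x) ≠ 0 := by
  intro h0
  apply hd
  have h1 : (fun z => g (e.symm z)) =ᶠ[𝓝 (e x)]
      (fun z => g (e'.symm z)) ∘ (fun z => e' (e.symm z)) := symm_factor he' he g
  have h2 : AnalyticAt ℂ (fun z => e' (e.symm z)) (e x) := chg_analyticAt he' he
  have h3 : e' (e.symm (e x)) = e' x := by rw [e.left_inv he.2]
  have h4 : HasFDerivAt (fun z => g (e'.symm z)) (fderiv ℂ (fun z => g (e'.symm z)) (e' x))
      (e' (e.symm (e x))) := by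
    rw [h3]
    exact (hg e' he').differentiableAt.hasFDerivAt
  have h5 := h4.comp (e x) h2.differentiableAt.hasFDerivAt
  rw [h1.fderiv_eq, h5.fderiv, h0]
  refine ContinuousLinearMap.ext fun v => ?_
  rfl

theorem leq_chart {E : Set H} {e : Chart n H} (he : e ∈ atlas (Cm n) H) {p : Cm n}
    (hp : p ∈ e.target) (hh : IsHypAt n E (e.symm p)) : ∃ h, LEq (e.symm ⁻¹' E) p h := by
  obtain ⟨e', he', g, hg, hg0, hgd, hE⟩ := hh
  have heA : At e (e.symm p) := ⟨he, e.map_target hp⟩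
  have hpe : e (e.symm p) = p := e.right_inv hp
  have hG : HolF n (fun y => g (e' y)) (e.symm p) := by
    refine holF_of he' (hg.congr ?_)
    filter_upwards [e'.open_target.mem_nhds (e'.map_source he'.2)] with z hz
    rw [e'.right_inv hz]
  have hGd : fderiv ℂ (fun z => g (e' (e'.symm z))) (e' (e.symm p)) ≠ 0 := by
    have h1 : (fun z => g (e' (e'.symm z))) =ᶠ[𝓝 (e' (e.symm p))] g := by
      filter_upwards [e'.open_target.mem_nhds (e'.map_source he'.2)] with z hz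
      rw [e'.right_inv hz]
    rw [h1.fderiv_eq]
    exact hgd
  have h2 := hG e heA
  have h3 := fderiv_ne_chart (g := fun y => g (e' y)) he' heA hG hGd
  rw [hpe] at h2 h3
  refine ⟨fun z => g (e' (e.symm z)), h2, h3, ?_⟩
  have h4 := ev_symm (e := e) heA.2 hE
  rw [hpe] at h4
  exact h4

omit [IsManifold 𝓘(ℂ, Cm n) ω H] in
theorem cv_chart {m : ℕ} {Θ : Set H} (hΘ : ThinM n m Θ) {e : Chart n H}
    (he : e ∈ atlas (Cm n) H) : Cv m (e.target ∩ e.symm ⁻¹' Θ) := by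
  obtain ⟨Ω, g, h1, h2, h3⟩ := hΘ
  refine ⟨fun l => {p | p ∈ Ω l ∧ g l p ∈ e.source}, fun l p => e (g l p), fun l => ?_,
    fun l p hp => (h2 l p hp.1).2 e ⟨he, hp.2⟩, ?_⟩
  · rw [isOpen_iff_mem_nhds]
    intro p hp
    filter_upwards [(h1 l).mem_nhds hp.1,
      (h2 l p hp.1).1.eventually (e.open_source.mem_nhds hp.2)] with q hq hq' using ⟨hq, hq'⟩
  · rintro z ⟨hz, hzΘ⟩
    obtain ⟨l, p, hp, hpx⟩ := mem_iUnion.1 (h3 hzΘ)
    refine mem_iUnion.2 ⟨l, p, ⟨hp, ?_⟩, ?_⟩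
    · rw [hpx]; exact e.map_target hz
    · show e (g l p) = z
      rw [hpx, e.right_inv hz]

end mfd

/-- **the closure of a smooth hypersurface across a thin set is the zero set of a section of a line
bundle** -/
theorem closure_lb {n m : ℕ} (hn : n = m + 2) {H : Type} [TopologicalSpace H]
    [ChartedSpace (Cm n) H] [IsManifold 𝓘(ℂ, Cm n) ω H] {Θ E : Set H} (hΘc : IsClosed Θ)
    (hΘt : ThinM n m Θ) (hdis : Disjoint E Θ) (hEc : IsClosed (E ∪ Θ))
    (hEs : ∀ y ∈ E, IsHypAt n E y) :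
    ∃ (L : Bd H) (s : L.ι → H → ℂ), IsLB n L ∧ IsSec n L s ∧
      ∀ i, ∀ y ∈ L.U i, (s i y = 0 ↔ y ∈ closure E) ∧ ∃ᶠ y' in 𝓝 y, s i y' ≠ 0 := by
  classical
  subst hn
  -- the situation in a chart
  have c1 : ∀ e : Chart (m + 2) H, IsOpen (e.target \ e.symm ⁻¹' Θ) := fun e =>
    e.isOpen_inter_preimage_symm hΘc.isOpen_compl
  have c2 : ∀ e : Chart (m + 2) H, IsOpen (e.target \ (e.symm ⁻¹' E ∪ e.symm ⁻¹' Θ)) := fun e =>
    e.isOpen_inter_preimage_symm hEc.isOpen_compl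
  have c3 : ∀ e : Chart (m + 2) H, ∀ p ∈ e.target, p ∈ e.symm ⁻¹' E → p ∉ e.symm ⁻¹' Θ :=
    fun e p _ h1 h2 => disjoint_left.1 hdis h1 h2
  have c4 : ∀ e : Chart (m + 2) H, e ∈ atlas (Cm (m + 2)) H → ∀ p ∈ e.target,
      p ∈ e.symm ⁻¹' E → ∃ h, LEq (e.symm ⁻¹' E) p h := fun e he p hp hpE =>
    leq_chart he hp (hEs _ hpE)
  have c5 : ∀ e : Chart (m + 2) H, e ∈ atlas (Cm (m + 2)) H →
      Cv m (e.target ∩ e.symm ⁻¹' Θ) := fun e he => cv_chart hΘt he
  have c6 : ∀ e : Chart (m + 2) H, ∀ p ∈ e.target,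
      (p ∈ closure (e.symm ⁻¹' E) ↔ e.symm p ∈ closure E) := by
    intro e p hp
    have h1 := e.symm.preimage_closure E
    constructor
    · intro h
      have h2 : p ∈ e.symm.source ∩ closure (e.symm ⁻¹' E) := ⟨hp, h⟩
      rw [← h1] at h2
      exact h2.2
    · intro h
      have h2 : p ∈ e.symm.source ∩ e.symm ⁻¹' closure E := ⟨hp, h⟩
      rw [h1] at h2
      exact h2.2
  -- local equations
  have hloc : ∀ y : H, ∃ (W : Set (Cm (m + 2))) (G : Cm (m + 2) → ℂ), IsOpen W ∧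
      chartAt (Cm (m + 2)) y y ∈ W ∧ W ⊆ (chartAt (Cm (m + 2)) y).target ∧
      (∀ z ∈ W, AnalyticAt ℂ G z) ∧
      (∀ z ∈ W, (z ∈ closure ((chartAt (Cm (m + 2)) y).symm ⁻¹' E) ↔ G z = 0)) ∧
      ∀ z ∈ W, z ∈ (chartAt (Cm (m + 2)) y).symm ⁻¹' E → fderiv ℂ G z ≠ 0 := fun y =>
    closure_loc (chartAt (Cm (m + 2)) y).open_target (c1 _) (c2 _) (c3 _)
      (c4 _ (chart_mem_atlas _ y)) (c5 _ (chart_mem_atlas _ y))
      ((chartAt (Cm (m + 2)) y).map_source (mem_chart_source _ y))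
  choose W G hW hyW hWt hGa hG0 hGd using hloc
  set c : H → Chart (m + 2) H := fun y => chartAt (Cm (m + 2)) y with hc
  have hcA : ∀ y x, x ∈ (c y).source → At (c y) x := fun y x hx => ⟨chart_mem_atlas _ y, hx⟩
  set U : H → Set H := fun y => (c y).source ∩ (c y) ⁻¹' W y with hUdef
  set s : H → H → ℂ := fun y x => G y (c y x) with hsdef
  have hUo : ∀ y, IsOpen (U y) := fun y => (c y).isOpen_inter_preimage (hW y)
  have hyU : ∀ y, y ∈ U y := fun y => ⟨mem_chart_source _ y, hyW y⟩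
  -- the functions `s i` in the chart `c i`
  have hsG : ∀ y, ∀ z ∈ W y, (fun z => s y ((c y).symm z)) =ᶠ[𝓝 z] G y := by
    intro y z hz
    filter_upwards [(hW y).mem_nhds hz] with w hw
    show G y (c y ((c y).symm w)) = G y w
    rw [(c y).right_inv (hWt y hw)]
  have hsH : ∀ y, ∀ x ∈ U y, HolF (m + 2) (s y) x := by
    intro y x hx
    refine holF_of (hcA y x hx.1) ?_
    exact (hGa y _ hx.2).congr (hsG y _ hx.2).symm
  have hs0 : ∀ y, ∀ x ∈ U y, (s y x = 0 ↔ x ∈ closure E) := by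
    intro y x hx
    rw [hsdef]
    show G y (c y x) = 0 ↔ _
    rw [← hG0 y _ hx.2, c6 _ _ (hWt y hx.2), (c y).left_inv hx.1]
  have hsD : ∀ y, ∀ x ∈ U y, x ∈ E → ∀ e : Chart (m + 2) H, At e x →
      fderiv ℂ (fun z => s y (e.symm z)) (e x) ≠ 0 := by
    intro y x hx hxE e he
    refine fderiv_ne_chart (hcA y x hx.1) he (hsH y x hx) ?_
    rw [(hsG y _ hx.2).fderiv_eq]
    refine hGd y _ hx.2 ?_
    rw [mem_preimage, (c y).left_inv hx.1]
    exact hxE
  have hfr : ∀ y, ∀ x ∈ U y, ∃ᶠ w in 𝓝 x, s y w ≠ 0 := by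
    intro y x hx
    have h1 := frequently_ne (c y).open_target (c2 _) (c4 _ (chart_mem_atlas _ y))
      (c5 _ (chart_mem_atlas _ y)) (b := fun z => if z ∈ closure ((c y).symm ⁻¹' E) then 0 else 1)
      (fun z _ => by
        by_cases h : z ∈ closure ((c y).symm ⁻¹' E)
        · simp [h]
        · simp [h]) ((c y).map_source hx.1)
    rw [← (c y).map_nhds_eq hx.1, Filter.frequently_map] at h1
    refine (h1.and_eventually ((hUo y).mem_nhds hx)).mono ?_
    rintro w ⟨⟨-, hw⟩, hwU⟩ h0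
    apply hw
    have h2 : c y w ∈ closure ((c y).symm ⁻¹' E) := by
      rw [hG0 y _ hwU.2]
      exact h0
    simp only [if_pos h2]
  -- the units
  have key : ∀ i j x, x ∈ U i → x ∈ U j → ∃ F : H → ℂ, HolF (m + 2) F x ∧ F x ≠ 0 ∧
      ∀ᶠ w in 𝓝 x, s i w = s j w * F w ∧ quo (s i) (s j) w = F w := by
    intro i j x hxi hxj
    set e := c i with he
    set U0 : Set (Cm (m + 2)) := e.target ∩ e.symm ⁻¹' (U i ∩ U j) with hU0
    have hU0o : IsOpen U0 := e.isOpen_inter_preimage_symm ((hUo i).inter (hUo j))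
    have hea : e ∈ atlas (Cm (m + 2)) H := chart_mem_atlas _ i
    have hU0t : ∀ z ∈ U0, At e (e.symm z) ∧ e (e.symm z) = z := fun z hz =>
      ⟨⟨hea, e.map_target hz.1⟩, e.right_inv hz.1⟩
    have han : ∀ y, (∀ z ∈ U0, e.symm z ∈ U y) → ∀ z ∈ U0,
        AnalyticAt ℂ (fun z => s y (e.symm z)) z := by
      intro y hy z hz
      have h1 := hsH y _ (hy z hz) e (hU0t z hz).1
      rwa [(hU0t z hz).2] at h1
    have hze : ∀ y, (∀ z ∈ U0, e.symm z ∈ U y) → ∀ z ∈ U0,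
        (z ∈ closure (e.symm ⁻¹' E) ↔ s y (e.symm z) = 0) := by
      intro y hy z hz
      rw [hs0 y _ (hy z hz), c6 e z hz.1]
    have hdd : ∀ y, (∀ z ∈ U0, e.symm z ∈ U y) → ∀ z ∈ U0, z ∈ e.symm ⁻¹' E →
        fderiv ℂ (fun z => s y (e.symm z)) z ≠ 0 := by
      intro y hy z hz hzE
      have h1 := hsD y _ (hy z hz) hzE e (hU0t z hz).1
      rwa [(hU0t z hz).2] at h1
    have hi : ∀ z ∈ U0, e.symm z ∈ U i := fun z hz => hz.2.1
    have hj : ∀ z ∈ U0, e.symm z ∈ U j := fun z hz => hz.2.2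
    obtain ⟨F0, hF0, hab⟩ := ratio_ext (U := U0) (Θ := e.symm ⁻¹' Θ) (E := e.symm ⁻¹' E)
      (a := fun z => s i (e.symm z)) (b := fun z => s j (e.symm z)) hU0o
      (by
        have h1 : U0 \ e.symm ⁻¹' Θ = U0 ∩ (e.target \ e.symm ⁻¹' Θ) := by
          ext z
          constructor
          · rintro ⟨h1, h2⟩; exact ⟨h1, h1.1, h2⟩
          · rintro ⟨h1, h2⟩; exact ⟨h1, h2.2⟩
        rw [h1]
        exact hU0o.inter (c1 e))
      (by
        have h1 : U0 \ (e.symm ⁻¹' E ∪ e.symm ⁻¹' Θ) =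
            U0 ∩ (e.target \ (e.symm ⁻¹' E ∪ e.symm ⁻¹' Θ)) := by
          ext z
          constructor
          · rintro ⟨h1, h2⟩; exact ⟨h1, h1.1, h2⟩
          · rintro ⟨h1, h2⟩; exact ⟨h1, h2.2⟩
        rw [h1]
        exact hU0o.inter (c2 e))
      (fun p hp hpE => c4 e hea p hp.1 hpE)
      ((c5 e hea).mono fun z hz => ⟨hz.1.1, hz.2⟩) (han i hi) (han j hj) (hze i hi) (hze j hj)
      (hdd i hi) (hdd j hj)
    have hex : e x ∈ U0 := ⟨e.map_source hxi.1, by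
      rw [mem_preimage, e.left_inv hxi.1]; exact ⟨hxi, hxj⟩⟩
    have hevx : ∀ᶠ w in 𝓝 x, w ∈ U i ∩ U j ∧ w ∈ e.source := by
      filter_upwards [((hUo i).inter (hUo j)).mem_nhds ⟨hxi, hxj⟩,
        e.open_source.mem_nhds hxi.1] with w h1 h2 using ⟨h1, h2⟩
    have hFH : ∀ w, w ∈ U i ∩ U j ∧ w ∈ e.source → HolF (m + 2) (fun w => F0 (e w)) w ∧
        s i w = s j w * F0 (e w) := by
      rintro w ⟨hw1, hw2⟩
      have hew : e w ∈ U0 := ⟨e.map_source hw2, by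
        rw [mem_preimage, e.left_inv hw2]; exact hw1⟩
      refine ⟨holF_of (e := e) ⟨hea, hw2⟩ ((hF0 _ hew).1.congr ?_), ?_⟩
      · filter_upwards [e.open_target.mem_nhds (e.map_source hw2)] with z hz
        rw [e.right_inv hz]
      · have h1 := hab (e w) hew
        simp only [e.left_inv hw2] at h1
        exact h1
    refine ⟨fun w => F0 (e w), (hFH x ⟨⟨hxi, hxj⟩, hxi.1⟩).1, (hF0 _ hex).2, ?_⟩
    filter_upwards [hevx, eventually_eventually_nhds.2 hevx] with w hw hw'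
    refine ⟨(hFH w hw).2, quo_eq (u := fun w => F0 (e w)) ?_ ?_ (hfr j w hw.1.2)⟩
    · have hew : e w ∈ U0 := ⟨e.map_source hw.2, by
        rw [mem_preimage, e.left_inv hw.2]; exact hw.1⟩
      exact ContinuousAt.comp (g := F0) (f := e) (hF0 _ hew).1.continuousAt (e.continuousAt hw.2)
    · filter_upwards [hw'] with w' h1 using (hFH w' h1).2
  have hqH : ∀ i j x, x ∈ U i → x ∈ U j → HolF (m + 2) (quo (s i) (s j)) x ∧
      quo (s i) (s j) x ≠ 0 ∧ s i x = quo (s i) (s j) x * s j x := by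
    intro i j x hxi hxj
    obtain ⟨F, hF, hF0, hev⟩ := key i j x hxi hxj
    have h1 : ∀ᶠ w in 𝓝 x, F w = quo (s i) (s j) w := hev.mono fun w hw => hw.2.symm
    refine ⟨hF.congr h1, ?_, ?_⟩
    · rw [← h1.self_of_nhds]; exact hF0
    · rw [← h1.self_of_nhds, mul_comm]; exact hev.self_of_nhds.1
  have hcont : ∀ {g : H → ℂ} {x : H}, HolF (m + 2) g x → ContinuousAt g x := by
    intro g x hg
    have h1 := (hg _ (at_chartAt x)).continuousAt
    have h2 : ContinuousAt (fun y => g ((c x).symm (c x y))) x :=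
      ContinuousAt.comp (g := fun z => g ((c x).symm z)) (f := c x) h1
        ((c x).continuousAt (mem_chart_source _ x))
    refine h2.congr ?_
    filter_upwards [(c x).open_source.mem_nhds (mem_chart_source _ x)] with y hy
    rw [(c x).left_inv hy]
  refine ⟨⟨H, U, fun i j => quo (s i) (s j)⟩, s, ⟨hUo, fun x => ⟨x, hyU x⟩, ?_, ?_, ?_⟩,
    ⟨?_, ?_⟩, fun i y hy => ⟨hs0 i y hy, hfr i y hy⟩⟩
  · intro i j e x he hxi hxj
    exact ((hqH i j x hxi hxj).1 e he).contDiffAt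
  · intro i j x hxi hxj
    exact (hqH i j x hxi hxj).2.1
  · intro i j k x hxi hxj hxk
    refine eq_of_frequently_eq (f := fun x => quo (s i) (s j) x * quo (s j) (s k) x)
      (g := fun x => quo (s i) (s k) x) (x := x)
      ((hcont (hqH i j x hxi hxj).1).mul (hcont (hqH j k x hxj hxk).1))
      (hcont (hqH i k x hxi hxk).1) ?_
    have h1 : ∀ᶠ w in 𝓝 x, w ∈ U i ∩ U j ∩ U k :=
      (((hUo i).inter (hUo j)).inter (hUo k)).mem_nhds ⟨⟨hxi, hxj⟩, hxk⟩
    refine ((hfr k x hxk).and_eventually h1).mono ?_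
    rintro w ⟨hw0, ⟨hwi, hwj⟩, hwk⟩
    have h2 := (hqH i j w hwi hwj).2.2
    have h3 := (hqH j k w hwj hwk).2.2
    have h4 := (hqH i k w hwi hwk).2.2
    rw [h3, h4, ← mul_assoc] at h2
    exact (mul_right_cancel₀ hw0 h2).symm
  · intro i e x he hxi
    exact (hsH i x hxi e he).contDiffAt
  · intro i j x hxi hxj
    exact (hqH i j x hxi hxj).2.2

/-- **(CL)** -/
theorem stCl : StCl := by
  intro H _ _ _ _ _ Θ E hΘ hΘt hdis hEc hE
  exact closure_lb (n := 3) (m := 1) rfl hΘ hΘt hdis hEc hE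

end Vale.Agent.P277.H762
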