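import Vale.Agent.P277.H762.Core
import Vale.Agent.P277.H762.Iface

/-!
# P277, task TD: the analytic half `StCore`
-/

open scoped Manifold ContDiff ComplexOrder Topology
open Complex Vale.Agent.P272.K Vale.Agent.P272 Filter Set Metric MeasureTheory

noncomputable section

namespace Vale.Agent.P277.TD

/-- the inverse of the blow-up chart -/
def bli (x : Cm 4) : Cm 4 := ![x 0, x 1 / x 0, x 2, x 3]

theorem continuous_bl : Continuous bl := by
  refine continuous_pi fun a => ?_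
  fin_cases a <;> simp [bl] <;> fun_prop

theorem bl_bli {x : Cm 4} (h : x 0 ≠ 0) : bl (bli x) = x := by
  ext a
  fin_cases a <;> simp [bl, bli]
  field_simp

theorem bli_bl {w : Cm 4} (h : w 0 ≠ 0) : bli (bl w) = w := by
  ext a
  fin_cases a <;> simp [bl, bli]
  field_simp

theorem continuousAt_bli {x : Cm 4} (h : x 0 ≠ 0) : ContinuousAt bli x := by
  refine continuousAt_pi.2 fun a => ?_
  fin_cases a <;> simp only [bli]
  · exact (continuous_apply (0 : Fin 4)).continuousAt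
  · exact ((continuous_apply (1 : Fin 4)).continuousAt).div
      ((continuous_apply (0 : Fin 4)).continuousAt) h
  · exact (continuous_apply (2 : Fin 4)).continuousAt
  · exact (continuous_apply (3 : Fin 4)).continuousAt

theorem isOpen_image_bl {W : Set (Cm 4)} (hW : IsOpen W) (h0 : ∀ w ∈ W, w 0 ≠ 0) :
    IsOpen (bl '' W) := by
  have h1 : bl '' W = {x | x 0 ≠ 0 ∧ bli x ∈ W} := by
    ext x
    constructor
    · rintro ⟨w, hw, rfl⟩
      refine ⟨by simpa [bl] using h0 w hw, ?_⟩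
      rw [bli_bl (h0 w hw)]
      exact hw
    · rintro ⟨hx, hw⟩
      exact ⟨bli x, hw, bl_bli hx⟩
  rw [h1, isOpen_iff_mem_nhds]
  rintro x ⟨hx, hw⟩
  filter_upwards [(continuous_apply (0 : Fin 4)).continuousAt.eventually_ne hx,
    (continuousAt_bli hx).eventually (hW.mem_nhds hw)] with y hy hy'
  exact ⟨hy, hy'⟩

section
variable {E₀ : Set (Cm 4)} {Ω : ℕ → Set (Cm 2)} {g : ℕ → Cm 2 → Cm 4}
  {H : Cm 4 → Matrix (Fin 4) (Fin 4) ℂ} {e w₀ : Cm 4}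

/-- bound of the area density at the wedge -/
theorem wedge_bound (hw0 : w₀ 0 = 0) (he : ‖e‖ < 1) {C : ℝ}
    (hC : ∀ᶠ w in 𝓝 w₀, w 0 ≠ 0 → bl w ∉ E₀ → ∀ i j, ‖H (bl w) i j‖ ≤ C / ‖w 0‖ ^ 2) :
    ∃ c M : ℝ, 0 < c ∧ ∀ᶠ w in 𝓝 w₀, w 0 ≠ 0 → ∀ ζ : ℂ, ‖ζ‖ < c * ‖w 0‖ →
      bl w + ζ • e ∉ E₀ → (hh H e e (bl w + ζ • e)).re ≤ M / ‖w 0‖ ^ 2 := by
  obtain ⟨ε₁, hε₁, hN⟩ := Metric.eventually_nhds_iff_ball.1 hC
  set L : ℝ := 2 + ‖w₀‖ with hL
  have hL0 : 0 < L := by positivity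
  set c : ℝ := min (1 / 2) (ε₁ / (8 * L)) with hc
  have hc0 : 0 < c := lt_min (by norm_num) (by positivity)
  have hc1 : c ≤ 1 / 2 := min_le_left _ _
  have hc2 : 2 * c * L ≤ ε₁ / 4 := by
    have : c ≤ ε₁ / (8 * L) := min_le_right _ _
    calc 2 * c * L ≤ 2 * (ε₁ / (8 * L)) * L := by gcongr
      _ = ε₁ / 4 := by field_simp; ring
  refine ⟨c, (4 : ℝ) ^ 2 * (4 * |C|), hc0, ?_⟩
  have hε₂ : 0 < min 1 (ε₁ / 2) := lt_min one_pos (by positivity)
  filter_upwards [ball_mem_nhds w₀ hε₂] with w hw hwne ζ hζ hx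
  rw [mem_ball, dist_eq_norm] at hw
  have hw1 : ‖w - w₀‖ < 1 := hw.trans_le (min_le_left _ _)
  have hw2 : ‖w - w₀‖ < ε₁ / 2 := hw.trans_le (min_le_right _ _)
  have ht : 0 < ‖w 0‖ := norm_pos_iff.2 hwne
  have ht2 : ‖w 0‖ < ε₁ / 2 := by
    have := norm_le_pi_norm (w - w₀) 0
    rw [Pi.sub_apply, hw0, sub_zero] at this
    linarith
  have hei : ∀ i, ‖e i‖ ≤ 1 := fun i => (norm_le_pi_norm e i).trans he.le
  have hζi : ∀ i, ‖ζ * e i‖ ≤ ‖ζ‖ := by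
    intro i
    rw [norm_mul]
    calc ‖ζ‖ * ‖e i‖ ≤ ‖ζ‖ * 1 := by gcongr; exact hei i
      _ = ‖ζ‖ := mul_one _
  have hζ2 : ‖ζ‖ < ‖w 0‖ / 2 := by
    calc ‖ζ‖ < c * ‖w 0‖ := hζ
      _ ≤ 1 / 2 * ‖w 0‖ := by gcongr
      _ = ‖w 0‖ / 2 := by ring
  set x : Cm 4 := bl w + ζ • e with hxd
  have x0 : x 0 = w 0 + ζ * e 0 := rfl
  have x1 : x 1 = w 0 * w 1 + ζ * e 1 := rfl
  have x2 : x 2 = w 2 + ζ * e 2 := rfl
  have x3 : x 3 = w 3 + ζ * e 3 := rfl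
  have hx0 : ‖w 0‖ / 2 ≤ ‖x 0‖ := by
    have h1 := norm_sub_norm_le (w 0) (-(ζ * e 0))
    rw [norm_neg, sub_neg_eq_add, ← x0] at h1
    have := hζi 0
    linarith
  have hx00 : x 0 ≠ 0 := by
    rw [← norm_pos_iff]; linarith
  have hwx : bl (bli x) = x := bl_bli hx00
  have hw' : bli x ∈ ball w₀ ε₁ := by
    rw [mem_ball, dist_eq_norm]
    have h1 : ‖bli x - w‖ ≤ ε₁ / 4 := by
      rw [pi_norm_le_iff_of_nonneg (by positivity)]
      intro i
      have hs : ‖ζ‖ ≤ ε₁ / 4 := by linarith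
      fin_cases i
      · show ‖x 0 - w 0‖ ≤ _
        rw [x0, add_sub_cancel_left]
        exact (hζi 0).trans hs
      · show ‖x 1 / x 0 - w 1‖ ≤ _
        have e1 : x 1 / x 0 - w 1 = ζ * (e 1 - w 1 * e 0) / x 0 := by
          field_simp
          rw [x0, x1]; ring
        rw [e1, norm_div, norm_mul, div_le_iff₀ (by linarith)]
        have h2 : ‖e 1 - w 1 * e 0‖ ≤ L := by
          refine (norm_sub_le _ _).trans ?_
          rw [norm_mul]
          have h3 : ‖w 1‖ ≤ 1 + ‖w₀‖ := by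
            have a1 := norm_le_pi_norm w 1
            have a2 : ‖w‖ ≤ ‖w₀‖ + ‖w - w₀‖ := by
              have := norm_add_le w₀ (w - w₀)
              rwa [add_sub_cancel] at this
            linarith
          have h4 : ‖w 1‖ * ‖e 0‖ ≤ (1 + ‖w₀‖) * 1 := by
            have := hei 0
            gcongr
          have := hei 1
          rw [hL]; linarith
        calc ‖ζ‖ * ‖e 1 - w 1 * e 0‖ ≤ (c * ‖w 0‖) * L := by gcongr
          _ = (2 * c * L) * (‖w 0‖ / 2) := by ring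
          _ ≤ ε₁ / 4 * ‖x 0‖ := by gcongr
      · show ‖x 2 - w 2‖ ≤ _
        rw [x2, add_sub_cancel_left]
        exact (hζi 2).trans hs
      · show ‖x 3 - w 3‖ ≤ _
        rw [x3, add_sub_cancel_left]
        exact (hζi 3).trans hs
    have h5 : ‖bli x - w₀‖ ≤ ‖bli x - w‖ + ‖w - w₀‖ := by
      have := norm_add_le (bli x - w) (w - w₀)
      rwa [sub_add_sub_cancel] at this
    linarith
  have hb0 : (bli x) 0 = x 0 := rfl
  have hH := hN (bli x) hw' (by rw [hb0]; exact hx00) (by rw [hwx]; exact hx)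
  rw [hwx, hb0] at hH
  have hH2 : ∀ i j, ‖H x i j‖ ≤ 4 * |C| / ‖w 0‖ ^ 2 := by
    intro i j
    refine (hH i j).trans ?_
    calc C / ‖x 0‖ ^ 2 ≤ |C| / ‖x 0‖ ^ 2 := by gcongr; exact le_abs_self C
      _ ≤ |C| / (‖w 0‖ / 2) ^ 2 := by gcongr
      _ = 4 * |C| / ‖w 0‖ ^ 2 := by field_simp; ring
  refine (Complex.re_le_norm _).trans ((norm_hh_le hH2).trans ?_)
  have h6 : ‖e‖ * ‖e‖ ≤ 1 := by nlinarith [norm_nonneg e]
  calc ((4 : ℕ) : ℝ) ^ 2 * (4 * |C| / ‖w 0‖ ^ 2 * (‖e‖ * ‖e‖))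
      ≤ (4 : ℝ) ^ 2 * (4 * |C| / ‖w 0‖ ^ 2 * 1) := by push_cast; gcongr
    _ = (4 : ℝ) ^ 2 * (4 * |C|) / ‖w 0‖ ^ 2 := by ring

/-- good points of the wedge near `w₀` -/
theorem exists_good (hg : ∀ k, ∀ p ∈ Ω k, AnalyticAt ℂ (g k) p) (hE : E₀ ⊆ ⋃ k, g k '' Ω k)
    (hw0 : w₀ 0 = 0) (e : Cm 4) {N : Set (Cm 4)} (hN : N ∈ 𝓝 w₀) :
    ∃ w ∈ N, w 0 ≠ 0 ∧ ∀ ζ : ℂ, bl w + ζ • e ∉ E₀ := by
  obtain ⟨U, hUN, hU, hwU⟩ := _root_.mem_nhds_iff.1 hN
  have h1 : ∃ t : ℂ, t ≠ 0 ∧ Function.update w₀ 0 t ∈ U := by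
    have hc : ContinuousAt (fun t : ℂ => Function.update w₀ 0 t) 0 :=
      (continuous_const.update 0 continuous_id).continuousAt
    have h2 : Function.update w₀ 0 (0 : ℂ) = w₀ := by
      rw [← hw0, Function.update_eq_self]
    have h3 : ∀ᶠ t in 𝓝[≠] (0 : ℂ), Function.update w₀ 0 t ∈ U := by
      refine nhdsWithin_le_nhds (hc.eventually (hU.mem_nhds ?_))
      show Function.update w₀ 0 (0 : ℂ) ∈ U
      rw [h2]; exact hwU
    obtain ⟨t, ht, ht'⟩ := (h3.and self_mem_nhdsWithin).exists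
    exact ⟨t, ht', ht⟩
  obtain ⟨t, ht, htU⟩ := h1
  have hVo : IsOpen (U ∩ {w : Cm 4 | w 0 ≠ 0}) :=
    hU.inter (isOpen_ne_fun (continuous_apply 0) continuous_const)
  obtain ⟨p, hp, hp'⟩ := (dense_compl_of_dimH_le_seven (dimH_center hg hE e)).inter_open_nonempty _
    (isOpen_image_bl hVo fun w hw => hw.2)
    ⟨_, mem_image_of_mem bl (⟨htU, by simpa using ht⟩ :
      Function.update w₀ 0 t ∈ U ∩ {w : Cm 4 | w 0 ≠ 0})⟩
  obtain ⟨w, hw, rfl⟩ := hp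
  exact ⟨w, hUN hw.1, hw.2, fun ζ hζ => hp' ⟨ζ, hζ⟩⟩

end

theorem stCore : StCore := by
  intro r E₀ hopen Ω g hg hE H hHs hHc hHp w₀ hw0 hw hC κ hκ hφ
  obtain ⟨C, hC⟩ := hC
  obtain ⟨e, R, η, K, he, hR, hη, hKc, hKD, hin, hK⟩ := exists_setup hopen hg hE hw
  obtain ⟨A₀, hA0, hA⟩ := area_bound hopen hg hE hHs hHc hHp he hR hη hKc hKD hin hK
  obtain ⟨c, M, hc, hcM⟩ := wedge_bound hw0 he hC
  set a : ℝ := 2 / Real.pi * A₀ with ha
  have ha0 : 0 ≤ a := mul_nonneg (by positivity) hA0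
  set δ : ℝ := κ / (2 * (a + 1)) with hδ
  have hδ0 : 0 < δ := by positivity
  have hδa : δ * a ≤ κ / 2 := by
    rw [hδ, div_mul_eq_mul_div, div_le_div_iff₀ (by positivity) (by norm_num)]
    nlinarith
  obtain ⟨φ, hφ1, C₂, hφ2⟩ := hφ δ hδ0
  obtain ⟨C₁, hC₁⟩ := phi_upper hHs hφ1 hR hKc hKD hin hK
  set B : ℝ := C₁ + C₂ + δ * (a * Real.log (R / 2 / c) + M * c ^ 2) with hB
  -- the contradiction for good points of the wedge
  have key : ∀ᶠ w in 𝓝 w₀, w 0 ≠ 0 → (∀ ζ : ℂ, bl w + ζ • e ∉ E₀) →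
      κ / 2 * Real.log (1 / ‖w 0‖) ≤ B := by
    have hb : ∀ᶠ w in 𝓝 w₀, bl w ∈ ball (bl w₀) η :=
      continuous_bl.continuousAt.eventually (ball_mem_nhds _ hη)
    have hs : ∀ᶠ w : Cm 4 in 𝓝 w₀, c * ‖w 0‖ < R / 2 ∧ ‖w 0‖ < 1 := by
      have h2 : ContinuousAt (fun w : Cm 4 => ‖w 0‖) w₀ :=
        (continuous_apply (0 : Fin 4)).norm.continuousAt
      have h1 : ContinuousAt (fun w : Cm 4 => c * ‖w 0‖) w₀ := continuousAt_const.mul h2
      refine (h1.eventually_lt continuousAt_const ?_).and (h2.eventually_lt continuousAt_const ?_)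
      · rw [hw0, norm_zero, mul_zero]; positivity
      · rw [hw0, norm_zero]; exact one_pos
    filter_upwards [hb, hs, hcM, hφ2] with w hbw hsw hcw hφw hwne hgood
    have ht : 0 < ‖w 0‖ := norm_pos_iff.2 hwne
    have hgood' : ∀ ζ : ℂ, ‖ζ‖ ≤ R → bl w + ζ • e ∉ E₀ := fun ζ _ => hgood ζ
    have h1 := hC₁ _ hbw hgood'
    have hlow := hφw hwne (by simpa using hgood 0)
    have hTc : ContinuousOn (fun ζ : ℂ => (hh H e e (bl w + ζ • e)).re) (closedBall 0 (R / 2)) := by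
      intro ζ hζ
      rw [mem_closedBall_zero_iff] at hζ
      have h3 := (contDiffAt_re (hh_contDiffAt (a := e) (b := e)
        (hHs _ ⟨hin _ hbw ζ (by linarith), hgood ζ⟩))).continuousAt
      exact (ContinuousAt.comp (f := fun ζ : ℂ => bl w + ζ • e) h3 (by fun_prop)).continuousWithinAt
    have h2 := green_split (f := fun ζ : ℂ => (hh H e e (bl w + ζ • e)).re) (R := R / 2)
      (s := c * ‖w 0‖) (M := M / ‖w 0‖ ^ 2) (A := A₀) (by positivity) hsw.1.le hTc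
      (fun ζ hζ => by
        rw [mem_ball_zero_iff] at hζ
        exact hh_re_nonneg (hHp _ ⟨hin _ hbw ζ (by linarith), hgood ζ⟩))
      (fun ζ hζ => hcw hwne ζ (by simpa using hζ) (hgood ζ))
      (hA _ hbw hgood')
    have e1 : M / ‖w 0‖ ^ 2 * (c * ‖w 0‖) ^ 2 = M * c ^ 2 := by field_simp
    have e2 : Real.log (R / 2 / (c * ‖w 0‖)) = Real.log (R / 2 / c) + Real.log (1 / ‖w 0‖) := by
      rw [← Real.log_mul (by positivity) (by positivity)]
      congr 1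
      field_simp
    rw [e1, e2] at h2
    have hl0 : 0 ≤ Real.log (1 / ‖w 0‖) :=
      Real.log_nonneg ((one_le_div ht).2 hsw.2.le)
    have h3 : δ * ∫ ζ in ball (0 : ℂ) (R / 2), GJ.Gr (R / 2) ζ * (hh H e e (bl w + ζ • e)).re ≤
        δ * (2 / Real.pi * (Real.log (R / 2 / c) + Real.log (1 / ‖w 0‖)) * A₀ + M * c ^ 2) :=
      mul_le_mul_of_nonneg_left h2 hδ0.le
    have h4 : δ * (2 / Real.pi * (Real.log (R / 2 / c) + Real.log (1 / ‖w 0‖)) * A₀ + M * c ^ 2) =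
        δ * (a * Real.log (R / 2 / c) + M * c ^ 2) + (δ * a) * Real.log (1 / ‖w 0‖) := by
      rw [ha]; ring
    have h5 : (δ * a) * Real.log (1 / ‖w 0‖) ≤ κ / 2 * Real.log (1 / ‖w 0‖) := by gcongr
    rw [hB]
    linarith
  -- points with `‖w 0‖` small
  have hsmall : ∀ᶠ w : Cm 4 in 𝓝 w₀, ‖w 0‖ < Real.exp (-(2 * |B| / κ + 1)) := by
    have h2 : ContinuousAt (fun w : Cm 4 => ‖w 0‖) w₀ :=
      (continuous_apply (0 : Fin 4)).norm.continuousAt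
    refine h2.eventually_lt continuousAt_const ?_
    rw [hw0, norm_zero]; positivity
  obtain ⟨w, ⟨h1, h2⟩, hwne, hgood⟩ := exists_good hg hE hw0 e (key.and hsmall)
  have ht : 0 < ‖w 0‖ := norm_pos_iff.2 hwne
  have h3 := h1 hwne hgood
  have h4 : 2 * |B| / κ + 1 < Real.log (1 / ‖w 0‖) := by
    rw [one_div, Real.log_inv]
    have := Real.log_lt_log ht h2
    rw [Real.log_exp] at this
    linarith
  have h5 : κ / 2 * (2 * |B| / κ + 1) < κ / 2 * Real.log (1 / ‖w 0‖) := by gcongr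
  have h6 : κ / 2 * (2 * |B| / κ + 1) = |B| + κ / 2 := by field_simp
  have h7 := le_abs_self B
  linarith

end Vale.Agent.P277.TD
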