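import Vale.Agent.P277.H29.PM
import Vale.Agent.P277.H619.Block

/-!
# P277, Theorem R2: a block of flips with one-dimensional flipped loci, arbitrary singularities
-/

open scoped Manifold ContDiff Topology
open Vale.Agent.P272.K Vale.Agent.P285.H281.FD Vale.Agent.P267.H175 Set

noncomputable section

namespace Vale.Agent.P277

/-- (BLOCK2) a block of `N` flips with flipped loci of dimension `≤ 1`, starting with a space `X 0`
for which `v : W → X 0 ∖ τ` is a proper modification. -/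
def StBlock2 : Prop :=
  ∀ (Y : Type) [TopologicalSpace Y] [T2Space Y] [SecondCountableTopology Y]
    [ChartedSpace (Cm 4) Y] [IsManifold 𝓘(ℂ, Cm 4) ω Y]
    (N : ℕ) (X Z : ℕ → CSp) (W : Set Y) (v : Y → (X 0).pt) (τ : Set (X 0).pt)
    (_ : PropMap (X 0) W v τ) (O : Set Y) (_ : O ⊆ W) (_ : IsOpenEmb (X 0) O v)
    (_ : DimLe (X 0) 2 (v '' O)ᶜ)
    (f : ∀ j, (X j).pt → (Z j).pt)
    (f' : ∀ j, (X (j + 1)).pt → (Z j).pt) (A : ∀ j, Set (Z j).pt) (L : ∀ j, Bd (X j).pt)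
    (L' : ∀ j, Bd (X (j + 1)).pt)
    (_ : ∀ j < N, IsFlip (X j) (Z j) (X (j + 1)) (f j) (f' j) (A j) (L j) (L' j))
    (_ : ∀ j < N, DimLe (X (j + 1)) 1 (f' j ⁻¹' A j)) (ρ : ℕ) (_ : RankOn Y W ρ),
    N ≤ ρ

namespace H762

open H619 H615

section step

variable {X Z X' : CSp} {f : X.pt → Z.pt} {f' : X'.pt → Z.pt} {A : Set Z.pt} {Y : Type}
  [TopologicalSpace Y] [ChartedSpace (Cm 4) Y]

theorem propMap_step (H : IsSmall X Z f A) (H' : IsSmall X' Z f' A) {W : Set Y} {v : Y → X.pt}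
    {τ : Set X.pt} (hW : PropMap X W v τ) (hd' : DimLe X' 1 (f' ⁻¹' A)) :
    PropMap X' {y | y ∈ W ∧ f (v y) ∉ A} (tr f H' ∘ v) (f' ⁻¹' (f '' τ ∪ A)) := by
  have hA : IsClosed A := an_closed H.an
  have hcv : ∀ y ∈ W, ContinuousAt v y := fun y hy => hW.cont.continuousAt (hW.isOpen.mem_nhds hy)
  refine ⟨?_, ?_, ?_, ?_, ?_, ?_, ?_, ?_⟩
  · exact (H.cont.comp_continuousOn hW.cont).isOpen_inter_preimage hW.isOpen hA.isOpen_compl
  · rintro y ⟨hy, hyA⟩
    exact (ContinuousAt.comp (f := v) (g := tr f H') (tr_continuousAt H H' hyA)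
      (hcv y hy)).continuousWithinAt
  · rintro y ⟨hy, hyA⟩ e he g hg
    exact hW.hol y hy e he _ (tr_hol H H' hyA hg)
  · exact ((H.cont.isClosedMap _ hW.closed).union hA).preimage H'.cont
  · refine dimLe_mono (dimLe_union hd' (dimLe_tr H H' hW.dim)) ?_
    rintro x' hx'
    by_cases hxA : f' x' ∈ A
    · exact Or.inl hxA
    · right
      rcases hx' with ⟨x, hx, hxx⟩ | hx'
      · refine ⟨x, ⟨hx, by rw [mem_preimage, mem_compl_iff, hxx]; exact hxA⟩, ?_⟩
        show pre H' (f x) = x'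
        rw [hxx]
        exact pre_f H' hxA
      · exact absurd hx' hxA
  · rintro y ⟨hy, hyA⟩ h
    have h1 : f' (tr f H' (v y)) = f (v y) := f'_tr H' _
    rcases h with ⟨x, hx, hxx⟩ | h
    · have h2 : f x = f (v y) := hxx.trans h1
      have h3 : x = v y := H.inj _ _ hyA h2
      exact hW.maps y hy (h3 ▸ hx)
    · have h' : f' (tr f H' (v y)) ∈ A := h
      rw [h1] at h'
      exact hyA h'
  · intro x' hx'
    have hxA : f' x' ∉ A := fun h => hx' (Or.inr h)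
    have h1 : tr f' H x' ∉ τ := fun h => hx' (Or.inl ⟨_, h, f'_tr H x'⟩)
    obtain ⟨y, hy, hyx⟩ := hW.surj _ h1
    refine ⟨y, ⟨hy, ?_⟩, ?_⟩
    · rw [hyx, f'_tr H]; exact hxA
    · show tr f H' (v y) = x'
      rw [hyx, tr_tr H' H hxA]
  · intro C hC hCτ
    have hCA : ∀ x' ∈ C, f' x' ∉ A := fun x' hx' h => Set.disjoint_left.1 hCτ hx' (Or.inr h)
    have h1 : {y | y ∈ W ∧ f (v y) ∉ A} ∩ (tr f H' ∘ v) ⁻¹' C = W ∩ v ⁻¹' (f ⁻¹' (f' '' C)) := by
      ext y
      constructor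
      · rintro ⟨⟨hy, hyA⟩, hyC⟩
        exact ⟨hy, _, hyC, f'_tr H' _⟩
      · rintro ⟨hy, x', hx', hxy⟩
        have hyA : f (v y) ∉ A := by rw [← hxy]; exact hCA x' hx'
        refine ⟨⟨hy, hyA⟩, ?_⟩
        show pre H' (f (v y)) ∈ C
        rw [← hxy, pre_f H' (hCA x' hx')]
        exact hx'
    rw [h1]
    refine hW.proper _ ((H'.cont.isClosedMap _ hC).preimage H.cont) ?_
    rw [Set.disjoint_left]
    rintro x ⟨x', hx', hxx⟩ hxτ
    exact Set.disjoint_left.1 hCτ hx' (Or.inl ⟨x, hxτ, hxx.symm⟩)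

end step

/-- the forms attached to a sequence of flips -/
theorem exists_forms2 (hD : StD2) (hF : StF2) (hP : StPair) (Y : Type) [TopologicalSpace Y]
    [T2Space Y] [SecondCountableTopology Y] [ChartedSpace (Cm 4) Y] [IsManifold 𝓘(ℂ, Cm 4) ω Y]
    (N : ℕ) :
    ∀ (X Z : ℕ → CSp) (W : Set Y) (v : Y → (X 0).pt) (τ : Set (X 0).pt)
      (_ : PropMap (X 0) W v τ) (O : Set Y) (_ : O ⊆ W) (_ : IsOpenEmb (X 0) O v)
      (_ : DimLe (X 0) 2 (v '' O)ᶜ) (f : ∀ j, (X j).pt → (Z j).pt)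
      (f' : ∀ j, (X (j + 1)).pt → (Z j).pt) (A : ∀ j, Set (Z j).pt) (L : ∀ j, Bd (X j).pt)
      (L' : ∀ j, Bd (X (j + 1)).pt)
      (_ : ∀ j < N, IsFlip (X j) (Z j) (X (j + 1)) (f j) (f' j) (A j) (L j) (L' j))
      (_ : ∀ j < N, DimLe (X (j + 1)) 1 (f' j ⁻¹' A j)),
      ∃ (η θ : Fin N → Fm 4 Y), (∀ j, CCF W (η j)) ∧ (∀ j, CCF W (θ j)) ∧
        (∀ i j, j < i → pr Y (θ j) (η i) = 0) ∧ (∀ j, pr Y (θ j) (η j) ≠ 0) := by
  induction N with
  | zero =>
    intro X Z W v τ _ O _ _ _ f f' A L L' _ _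
    exact ⟨fun j => j.elim0, fun j => j.elim0, fun j => j.elim0, fun j => j.elim0,
      fun j => j.elim0, fun j => j.elim0⟩
  | succ N ih =>
    intro X Z W v τ hW O hOW hv hd f f' A L L' hflip hdim
    have hf0 := hflip 0 (Nat.succ_pos N)
    have hd0 := hdim 0 (Nat.succ_pos N)
    have hW' := propMap_step hf0.small hf0.small' hW hd0
    have hv' := emb_tr hf0.small hf0.small' hv
    have hd' : DimLe (X 1) 2
        ((tr (f 0) hf0.small' ∘ v) '' {y | y ∈ O ∧ f 0 (v y) ∉ A 0})ᶜ :=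
      dimLe_mono (dimLe_union (hd0.le (by norm_num)) (dimLe_tr hf0.small hf0.small' hd))
        (compl_tr hf0.small hf0.small')
    obtain ⟨η', θ', h1, h2, h3, h4⟩ := ih (fun j => X (j + 1)) (fun j => Z (j + 1)) _ _ _ hW'
      {y | y ∈ O ∧ f 0 (v y) ∉ A 0} (fun y hy => ⟨hOW hy.1, hy.2⟩) hv' hd'
      (fun j => f (j + 1)) (fun j => f' (j + 1)) (fun j => A (j + 1))
      (fun j => L (j + 1)) (fun j => L' (j + 1)) (fun j hj => hflip (j + 1) (by omega))
      (fun j hj => hdim (j + 1) (by omega))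
    obtain ⟨P, Q, G, s, s', σ, σ', x₀, hout, hGA⟩ := hD Y (X 0) (Z 0) (X 1) (f 0) (f' 0) (A 0)
      (L 0) (L' 0) hf0 W v τ hW O hOW hv hd hd0
    obtain ⟨η₀, hη₀, hT⟩ := hF Y (X 0) W v τ hW P Q G s s' σ σ' x₀ hout
    choose C' hC' hC'c hη'z using fun j => (h1 j).cpt
    have hWW : {y | y ∈ W ∧ f 0 (v y) ∉ A 0} ⊆ W := fun y hy => hy.1
    obtain ⟨θ₀, g1, g2, g3⟩ := hT (⋃ j, C' j)
      (iUnion_subset fun j => (hC' j).trans hWW) (isCompact_iUnion hC'c) (by
        rw [Set.disjoint_left]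
        rintro _ ⟨y, hy, rfl⟩ hy2
        obtain ⟨j, hj⟩ := mem_iUnion.1 hy
        exact (hC' j hj).2 (hGA hy2))
    refine ⟨Fin.cons η₀ η', Fin.cons θ₀ θ', ?_, ?_, ?_, ?_⟩
    · intro j
      refine Fin.cases ?_ (fun j => ?_) j
      · exact hη₀
      · exact CCF.mono' (h1 j) hWW
    · intro j
      refine Fin.cases ?_ (fun j => ?_) j
      · exact g1
      · exact CCF.mono' (h2 j) hWW
    · intro i j
      refine Fin.cases ?_ (fun i => ?_) i
      · intro h; exact absurd h (Fin.not_lt_zero j)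
      · refine Fin.cases ?_ (fun j => ?_) j
        · intro _
          show pr Y θ₀ (η' i) = 0
          rw [(hP Y).congr θ₀ 0 (η' i), pr_zero_left (hP Y)]
          intro y
          by_cases hy : y ∈ C' i
          · exact Or.inr (g2 y (mem_iUnion.2 ⟨i, hy⟩))
          · exact Or.inl (hη'z i y hy)
        · intro h
          exact h3 i j (Fin.succ_lt_succ_iff.1 h)
    · intro j
      refine Fin.cases ?_ (fun j => ?_) j
      · exact g3
      · exact h4 j

/-- (BLOCK2) -/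
theorem stBlock2_of (hD : StD2) (hF : StF2) (hP : StPair) : StBlock2 := by
  intro Y _ _ _ _ _ N X Z W v τ hW O hOW hv hd f f' A L L' hflip hdim ρ hρ
  obtain ⟨η, θ, h1, h2, h3, h4⟩ := exists_forms2 hD hF hP Y N X Z W v τ hW O hOW hv hd
    f f' A L L' hflip hdim
  have hr := hρ N θ η h2 h1
  have hdet : (Matrix.of fun i j => pr Y (θ i) (η j)).det ≠ 0 := by
    have ht : (Matrix.of fun i j => pr Y (θ i) (η j)).BlockTriangular
        OrderDual.toDual := by
      intro i j hij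
      exact h3 j i hij
    rw [Matrix.det_of_lowerTriangular _ ht]
    exact Finset.prod_ne_zero_iff.2 fun i _ => h4 i
  have hu : IsUnit (Matrix.of fun i j => pr Y (θ i) (η j)) :=
    (Matrix.isUnit_iff_isUnit_det _).2 (isUnit_iff_ne_zero.2 hdet)
  rw [Matrix.rank_of_isUnit _ hu, Fintype.card_fin] at hr
  exact hr

end H762

end Vale.Agent.P277
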