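import Vale.Agent.P277.H371.C.FlipB
import Vale.Agent.P277.H615.R.BaseV
import Vale.Agent.P277.H615.P7
import Vale.Agent.P277.H615.R.WgDef

/-!
# P277, T3, piece A2: the tower of the spaces `X j` over the resolution `Y`
-/

open scoped Manifold ContDiff Topology
open Vale.Agent.P272.K Vale.Agent.P285.H281.FD Vale.Agent.P267.H175 Set Metric Filter

noncomputable section

namespace Vale.Agent.P277.H762

open Vale.Agent.P277 Vale.Agent.P277.T2 Vale.Agent.P277.T3 Vale.Agent.P277.H615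

/-! ### the data of a flip with boundary -/

section flip

variable {X Z X' : CSp} {f : X.pt → Z.pt} {f' : X'.pt → Z.pt} {A : Set Z.pt} {k s : ℕ}

/-- `exists_flipD` with given isomorphisms -/
theorem exists_flipD_of {K : ℕ} {L : Fin K → Bd X.pt} {L' : Fin K → Bd X'.pt}
    {c c' : Fin K → ℕ} {ρ : Fin K → ℝ} (h : IsFlipR X Z X' f f' (Amin f) L L' c c' ρ)
    (hc : ∀ e, 1 ≤ c e) {p q : Fin K → ℕ} (hp : ∀ e, 1 ≤ p e) (hq : ∀ e, 1 ≤ q e)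
    (hcpq : ∀ e, c e * p e = c' e * q e) {t : ∀ e, (L e).ι → (L' e).ι → Z.pt → ℂ}
    (ht : ∀ e, IsIso f f' (Amin f) ((L e).pow (p e)) ((L' e).pow (q e)) (t e)) :
    ∃ (d : ℕ) (a : Fin K → ℤ), 1 ≤ d ∧ FlipD f f' L L' p q t a ∧
      ∀ e, (a e : ℝ) ≤ d * (ρ e / (c e * p e)) ∧ d * (ρ e / (c e * p e)) ≤ a e + 1 := by
  obtain ⟨ε, hε, hamp⟩ := h.ample
  obtain ⟨ε', hε', hamp'⟩ := h.ample'
  obtain ⟨d, a, hd, hda, hcomb⟩ := exists_comb (x := fun e => ρ e / (c e * p e))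
    (C := fun e => c e * p e) (lt_min hε hε')
  have hxC : ∀ e, ρ e / (c e * p e) * ((c e * p e : ℕ) : ℝ) = ρ e := by
    intro e
    have h1 : (c e : ℝ) ≠ 0 := by exact_mod_cast (Nat.one_le_iff_ne_zero.1 (hc e))
    have h2 : (p e : ℝ) ≠ 0 := by exact_mod_cast (Nat.one_le_iff_ne_zero.1 (hp e))
    push_cast
    field_simp
  have hflip : ∀ l, IsFlip X Z X' f f' (Amin f) (Bd.lin (fun e => (L e).pow (p e)) (comb a l))
      (Bd.lin (fun e => (L' e).pow (q e)) (comb a l)) := by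
    intro l
    refine ⟨h.normal, h.normalZ, h.normal', h.small, h.small', h.ninj, h.ninj',
      IsLBx.lin (fun e => IsLBx.pow (h.lb e) _) _, IsLBx.lin (fun e => IsLBx.pow (h.lb' e) _) _,
      ⟨_, IsIso.lin ht _⟩, ?_, ?_⟩
    · rw [lin_pow]
      refine hamp _ d hd fun e => ?_
      have h1 := (hcomb l e).trans_le (min_le_left _ _)
      rw [hxC e] at h1
      have h2 : ((comb a l e * p e : ℤ) : ℝ) * c e =
          ((comb a l e * ((c e * p e : ℕ) : ℤ) : ℤ) : ℝ) := by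
        push_cast
        ring
      rw [h2]
      exact h1
    · rw [lin_pow]
      refine hamp' _ d hd fun e => ?_
      have h1 := (hcomb l e).trans_le (min_le_right _ _)
      rw [hxC e] at h1
      have h2 : ((comb a l e * q e : ℤ) : ℝ) * c' e =
          ((comb a l e * ((c e * p e : ℕ) : ℤ) : ℤ) : ℝ) := by
        rw [hcpq e]
        push_cast
        ring
      rw [h2]
      exact h1
  exact ⟨d, a, hd, ⟨h.normal, h.normalZ, h.normal', h.small, h.small', h.lb, h.lb', hp, hq, ht,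
    hflip⟩, hda⟩

/-- the sections `σ i` and `σ' i` correspond to each other through the isomorphism `t` -/
def CorrB {L : Fin (k + s) → Bd X.pt} {L' : Fin (k + s) → Bd X'.pt} (f : X.pt → Z.pt)
    (f' : X'.pt → Z.pt) (σ : ∀ i : Fin s, (L (Fin.natAdd k i)).ι → X.pt → ℂ)
    (σ' : ∀ i : Fin s, (L' (Fin.natAdd k i)).ι → X'.pt → ℂ) (p q : Fin (k + s) → ℕ)
    (t : ∀ e, (L e).ι → (L' e).ι → Z.pt → ℂ) : Prop :=
  ∀ i x x' a b, f x ∉ Amin f → f' x' = f x → x ∈ (L (Fin.natAdd k i)).U a →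
    x' ∈ (L' (Fin.natAdd k i)).U b →
      σ i a x ^ p (Fin.natAdd k i) * t (Fin.natAdd k i) a b (f x) = σ' i b x' ^ q (Fin.natAdd k i)

theorem exists_flipDB {L : Fin (k + s) → Bd X.pt} {L' : Fin (k + s) → Bd X'.pt}
    {c c' : Fin (k + s) → ℕ} {ρ : Fin (k + s) → ℝ}
    {σ : ∀ i : Fin s, (L (Fin.natAdd k i)).ι → X.pt → ℂ}
    {σ' : ∀ i : Fin s, (L' (Fin.natAdd k i)).ι → X'.pt → ℂ}
    (h : IsFlipB X Z X' f f' A L L' c c' ρ σ σ') (hc : ∀ e, 1 ≤ c e) :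
    ∃ (p q : Fin (k + s) → ℕ) (t : ∀ e, (L e).ι → (L' e).ι → Z.pt → ℂ) (d : ℕ)
      (a : Fin (k + s) → ℤ), 1 ≤ d ∧ (∀ e, c e * p e = c' e * q e) ∧ FlipD f f' L L' p q t a ∧
      (∀ e, (a e : ℝ) ≤ d * (ρ e / (c e * p e)) ∧ d * (ρ e / (c e * p e)) ≤ a e + 1) ∧
      CorrB f f' σ σ' p q t := by
  have h' := H371.C.IsFlipB.amin h hc
  let R : ∀ e : Fin (k + s), ℕ → ℕ → ((L e).ι → (L' e).ι → Z.pt → ℂ) → Prop :=
    Fin.addCases (fun _ _ _ _ => True) fun i p q t => ∀ x x' a b, f x ∉ Amin f → f' x' = f x →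
      x ∈ (L (Fin.natAdd k i)).U a → x' ∈ (L' (Fin.natAdd k i)).U b →
        σ i a x ^ p * t a b (f x) = σ' i b x' ^ q
  have h1 : ∀ e : Fin (k + s), ∃ p q : ℕ, 1 ≤ p ∧ 1 ≤ q ∧ c e * p = c' e * q ∧
      ∃ t : (L e).ι → (L' e).ι → Z.pt → ℂ,
        IsIso f f' (Amin f) ((L e).pow p) ((L' e).pow q) t ∧ R e p q t := by
    intro e
    induction e using Fin.addCases with
    | left e =>
      obtain ⟨p, q, hp, hq, hpq, t, ht⟩ := h'.flip.iso (Fin.castAdd s e)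
      refine ⟨p, q, hp, hq, hpq, t, ht, ?_⟩
      simp only [R, Fin.addCases_left]
    | right i =>
      obtain ⟨p, q, hp, hq, hpq, t, ht, hcor⟩ := h'.corr i
      refine ⟨p, q, hp, hq, hpq, t, ht, ?_⟩
      simp only [R, Fin.addCases_right]
      exact hcor
  choose p q hp hq hcpq t ht hR using h1
  obtain ⟨d, a, hd, hD, hda⟩ := exists_flipD_of h'.flip hc hp hq hcpq ht
  refine ⟨p, q, t, d, a, hd, hcpq, hD, hda, fun i x x' a b => ?_⟩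
  have h2 := hR (Fin.natAdd k i)
  simp only [R, Fin.addCases_right] at h2
  exact h2 x x' a b

end flip

/-! ### the tower -/

section tower

variable {Y : Type} [TopologicalSpace Y] [ChartedSpace (Cm 4) Y]

/-- the section relation on the space `X` -/
def SecRel {k s : ℕ} {X : CSp} {M : Fin (k + s) → Bd Y} {m : Fin (k + s) → ℕ}
    (L : Fin (k + s) → Bd X.pt) (O : Set Y) (v : Y → X.pt) (P Q : Fin (k + s) → ℕ)
    (T : ∀ e, (L e).ι → (((Bd.can 4 Y).pow (m e)).mul (M e)).ι → Y → ℂ)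
    (sg : ∀ i : Fin s, (M (Fin.natAdd k i)).ι → Y → ℂ)
    (σ : ∀ i : Fin s, (L (Fin.natAdd k i)).ι → X.pt → ℂ) : Prop :=
  ∀ i y a ch b, y ∈ O → v y ∈ (L (Fin.natAdd k i)).U a → At ch y →
    y ∈ (M (Fin.natAdd k i)).U b →
      σ i a (v y) ^ P (Fin.natAdd k i) * T (Fin.natAdd k i) a (ch, b) y =
        sg i b y ^ Q (Fin.natAdd k i)

/-- The tower of the spaces `X j` over `Y`. -/
structure TwSeq {k s : ℕ} {M : Fin (k + s) → Bd Y}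
    {m : Fin (k + s) → ℕ} (ρ : Fin (k + s) → ℝ)
    (sg : ∀ i : Fin s, (M (Fin.natAdd k i)).ι → Y → ℂ) {W : CSp} {X Z : ℕ → CSp} {r : ℕ}
    (v₀ : Y → W.pt) (p₀ : W.pt → (X 0).pt) (G : Fin r → Set Y)
    (f : ∀ j, (X j).pt → (Z j).pt) (f' : ∀ j, (X (j + 1)).pt → (Z j).pt)
    (L : ∀ j, Fin (k + s) → Bd (X j).pt) (c : ℕ → Fin (k + s) → ℕ)
    (σ : ∀ j, ∀ i : Fin s, (L j (Fin.natAdd k i)).ι → (X j).pt → ℂ)
    (t : ∀ e, (L 0 e).ι → (((Bd.can 4 Y).pow (m e)).mul (M e)).ι → Y → ℂ)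
    (O : ℕ → Set Y) (v : ∀ j, Y → (X j).pt) (P Q : ℕ → Fin (k + s) → ℕ)
    (T : ∀ j e, (L j e).ι → (((Bd.can 4 Y).pow (m e)).mul (M e)).ι → Y → ℂ) : Prop where
  O0 : O 0 = (⋃ l, G l)ᶜ
  v0 : v 0 = fun y => p₀ (v₀ y)
  P0 : P 0 = fun _ => 1
  Q0 : Q 0 = c 0
  T0 : T 0 = t
  tw0 : TwV v₀ (⋃ l, G l) (fun e => ((Bd.can 4 Y).pow (m e)).mul (M e)) (X 0) (L 0) (c 0) (O 0)
    (v 0) (P 0) (Q 0) (T 0) ρ ∅
  tw : ∀ j, TwV v₀ (⋃ l, G l) (fun e => ((Bd.can 4 Y).pow (m e)).mul (M e)) (X (j + 1))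
    (L (j + 1)) (c (j + 1)) (O (j + 1)) (v (j + 1)) (P (j + 1)) (Q (j + 1)) (T (j + 1)) ρ
    (f' j ⁻¹' Amin (f j))
  step : ∀ j, ∃ (p q : Fin (k + s) → ℕ) (u : ∀ e, (L j e).ι → (L (j + 1) e).ι → (Z j).pt → ℂ)
    (a : Fin (k + s) → ℤ) (hf : FlipD (f j) (f' j) (L j) (L (j + 1)) p q u a) (d : ℕ)
    (b : ∀ e, (X j).pt → (L j e).ι), 1 ≤ d ∧ (∀ e, c j e * p e = c (j + 1) e * q e) ∧
    (∀ e, (a e : ℝ) ≤ d * (ρ e / (c j e * p e)) ∧ d * (ρ e / (c j e * p e)) ≤ a e + 1) ∧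
    (∀ e x, x ∈ (L j e).U (b e x)) ∧ O (j + 1) = {y | y ∈ O j ∧ f j (v j y) ∉ Amin (f j)} ∧
    v (j + 1) = (fun y => hf.small'.sec (f j (v j y))) ∧ P (j + 1) = (fun e => q e * P j e) ∧
    Q (j + 1) = (fun e => Q j e * p e) ∧
    T (j + 1) = (fun e => stT (v j) (f j) (P j e) (p e) (T j e) (u e) (b e))
  sec : ∀ j, SecRel (L j) (O j) (v j) (P j) (Q j) (T j) sg (σ j)
  dense : ∀ j, Dense (O j)

/-- a state of the construction -/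
structure StateB {k s : ℕ} (M : Fin (k + s) → Bd Y) (m : Fin (k + s) → ℕ) {X : CSp}
    (L : Fin (k + s) → Bd X.pt) : Type where
  O : Set Y
  v : Y → X.pt
  P : Fin (k + s) → ℕ
  Q : Fin (k + s) → ℕ
  T : ∀ e, (L e).ι → (((Bd.can 4 Y).pow (m e)).mul (M e)).ι → Y → ℂ

theorem exists_seq_dep {α : ℕ → Type} (a₀ : α 0) (Gd : ∀ j, α j → Prop)
    (R : ∀ j, α j → α (j + 1) → Prop) (h0 : Gd 0 a₀)
    (h : ∀ j a, Gd j a → ∃ b, Gd (j + 1) b ∧ R j a b) :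
    ∃ s : ∀ j, α j, s 0 = a₀ ∧ (∀ j, Gd j (s j)) ∧ ∀ j, R j (s j) (s (j + 1)) := by
  let F : ∀ j, {a : α j // Gd j a} := fun j => Nat.rec (motive := fun j => {a : α j // Gd j a})
    ⟨a₀, h0⟩ (fun j a => ⟨Classical.choose (h j a.1 a.2), (Classical.choose_spec (h j a.1 a.2)).1⟩) j
  exact ⟨fun j => (F j).1, rfl, fun j => (F j).2, fun j =>
    (Classical.choose_spec (h j (F j).1 (F j).2)).2⟩

theorem SecRel.step {k s : ℕ} {X Z X' : CSp} {M : Fin (k + s) → Bd Y} {m : Fin (k + s) → ℕ}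
    {L : Fin (k + s) → Bd X.pt} {L' : Fin (k + s) → Bd X'.pt} {O : Set Y} {v : Y → X.pt}
    {P Q : Fin (k + s) → ℕ} {T : ∀ e, (L e).ι → (((Bd.can 4 Y).pow (m e)).mul (M e)).ι → Y → ℂ}
    {sg : ∀ i : Fin s, (M (Fin.natAdd k i)).ι → Y → ℂ}
    {σ : ∀ i : Fin s, (L (Fin.natAdd k i)).ι → X.pt → ℂ}
    {σ' : ∀ i : Fin s, (L' (Fin.natAdd k i)).ι → X'.pt → ℂ} {f : X.pt → Z.pt} {f' : X'.pt → Z.pt}
    {p q : Fin (k + s) → ℕ} {u : ∀ e, (L e).ι → (L' e).ι → Z.pt → ℂ} {a : Fin (k + s) → ℤ}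
    (hf : FlipD f f' L L' p q u a) (hcor : CorrB f f' σ σ' p q u)
    {b : ∀ e, X.pt → (L e).ι} (hb : ∀ e x, x ∈ (L e).U (b e x))
    (h : SecRel L O v P Q T sg σ) :
    SecRel L' {y | y ∈ O ∧ f (v y) ∉ Amin f} (fun y => hf.small'.sec (f (v y)))
      (fun e => q e * P e) (fun e => Q e * p e)
      (fun e => stT v f (P e) (p e) (T e) (u e) (b e)) sg σ' := by
  rintro i y a' ch c ⟨hy, hyA⟩ ha' hch hc
  have ha' : hf.small'.sec (f (v y)) ∈ (L' (Fin.natAdd k i)).U a' := ha'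
  have h1 := hcor i (v y) (hf.small'.sec (f (v y))) (b (Fin.natAdd k i) (v y)) a' hyA
    (hf.small'.sec_eq _) (hb _ _) ha'
  have h2 := h i y (b (Fin.natAdd k i) (v y)) ch c hy (hb _ _) hch hc
  have h3 : u (Fin.natAdd k i) (b (Fin.natAdd k i) (v y)) a' (f (v y)) ≠ 0 :=
    ((hf.iso (Fin.natAdd k i)).holo (v y) (hf.small'.sec (f (v y))) _ a' hyA
      (hf.small'.sec_eq _) (hb _ _) ha').2
  show σ' i a' (hf.small'.sec (f (v y))) ^ (q (Fin.natAdd k i) * P (Fin.natAdd k i)) *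
    (T (Fin.natAdd k i) (b (Fin.natAdd k i) (v y)) (ch, c) y ^ p (Fin.natAdd k i) /
      u (Fin.natAdd k i) (b (Fin.natAdd k i) (v y)) a' (f (v y)) ^ P (Fin.natAdd k i)) =
    sg i c y ^ (Q (Fin.natAdd k i) * p (Fin.natAdd k i))
  rw [pow_mul, ← h1, pow_mul, ← h2, mul_pow, mul_pow, ← pow_mul, ← pow_mul,
    mul_comm (p (Fin.natAdd k i)) (P (Fin.natAdd k i))]
  have h4 := pow_ne_zero (P (Fin.natAdd k i)) h3
  field_simp

variable [T2Space Y] [CompactSpace Y] [IsManifold 𝓘(ℂ, Cm 4) ω Y]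

theorem exists_twSeq (hL0 : StL0) {χ : Chart 4 Y → Cm 4 → Matrix (Fin 4) (Fin 4) ℂ} {k s : ℕ}
    {M : Fin (k + s) → Bd Y} {m : Fin (k + s) → ℕ} {ρ : Fin (k + s) → ℝ} {H : Fin s → Type}
    [∀ i, TopologicalSpace (H i)] [∀ i, ChartedSpace (Cm 3) (H i)] {ι : ∀ i, H i → Y}
    {sg : ∀ i : Fin s, (M (Fin.natAdd k i)).ι → Y → ℂ} {W : CSp} {X Z : ℕ → CSp} {r : ℕ}
    {v₀ : Y → W.pt} {p₀ : W.pt → (X 0).pt} {P₀ : Bd W.pt} {G : Fin r → Set Y}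
    {f : ∀ j, (X j).pt → (Z j).pt} {f' : ∀ j, (X (j + 1)).pt → (Z j).pt}
    {A : ∀ j, Set (Z j).pt} {L : ∀ j, Fin (k + s) → Bd (X j).pt} {c : ℕ → Fin (k + s) → ℕ}
    {σ : ∀ j, ∀ i : Fin s, (L j (Fin.natAdd k i)).ι → (X j).pt → ℂ}
    {n : Fin (k + s) → Fin r → ℤ} {t : ∀ e, (L 0 e).ι →
      ((((Bd.can 4 Y).pow (m e)).mul (M e)).pow (c 0 e)).ι → Y → ℂ}
    (h : IsPS χ M m ρ ι sg v₀ p₀ P₀ G f f' A L c σ n t) :
    ∃ (O : ℕ → Set Y) (v : ∀ j, Y → (X j).pt) (P Q : ℕ → Fin (k + s) → ℕ)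
      (T : ∀ j e, (L j e).ι → (((Bd.can 4 Y).pow (m e)).mul (M e)).ι → Y → ℂ),
      TwSeq ρ sg v₀ p₀ G f f' L c σ t O v P Q T := by
  have hk : 1 ≤ k + s := by
    rcases Nat.eq_zero_or_pos (k + s) with h0 | h0
    · exfalso
      have h1 := h.sum
      have h2 : IsEmpty (Fin (k + s)) := by rw [h0]; infer_instance
      rw [Finset.sum_of_isEmpty] at h1
      exact zero_ne_one h1
    · exact h0
  have hN : ∀ e, CtBd (((Bd.can 4 Y).pow (m e)).mul (M e)) := fun e => ctBd (h.lb e) (m e)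
  have hneX : Nonempty (X 0).pt := by
    have h1 := (h.flip 0).flip.ninj
    rw [Function.Injective] at h1
    push Not at h1
    obtain ⟨x, -⟩ := h1
    exact ⟨x⟩
  have hneW : Nonempty W.pt := by
    obtain ⟨x⟩ := hneX
    obtain ⟨w, -⟩ := h.res.psurj x
    exact ⟨w⟩
  have hDd : Dense (⋃ l, G l)ᶜ := dense_compl_iUnion_hyp h.res.hyp h.res.closed
  have hDc : IsClosed (⋃ l, G l) := isClosed_iUnion_of_finite h.res.closed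
  let st0 : StateB M m (L 0) := ⟨(⋃ l, G l)ᶜ, fun y => p₀ (v₀ y), fun _ => 1, c 0, t⟩
  have hbase : TwV v₀ (⋃ l, G l) (fun e => ((Bd.can 4 Y).pow (m e)).mul (M e)) (X 0) (L 0) (c 0)
      (⋃ l, G l)ᶜ (fun y => p₀ (v₀ y)) (fun _ => 1) (c 0) t ρ ∅ :=
    TwV.base hL0 (h.flip 0).flip.normal h.res hneW (fun e => (hN e).isOpen)
      (fun e => (hN e).cover) (h.flip 0).flip.lb (h.c1 0) h.cmp h.canon
  obtain ⟨S, hS0, hS1, hS2⟩ := exists_seq_dep (α := fun j => StateB M m (L j)) st0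
    (fun j a => (∃ S, TwV v₀ (⋃ l, G l) (fun e => ((Bd.can 4 Y).pow (m e)).mul (M e)) (X j) (L j)
      (c j) a.O a.v a.P a.Q a.T ρ S) ∧ SecRel (L j) a.O a.v a.P a.Q a.T sg (σ j))
    (fun j a a' => TwV v₀ (⋃ l, G l) (fun e => ((Bd.can 4 Y).pow (m e)).mul (M e)) (X (j + 1))
      (L (j + 1)) (c (j + 1)) a'.O a'.v a'.P a'.Q a'.T ρ (f' j ⁻¹' Amin (f j)) ∧
      ∃ (p q : Fin (k + s) → ℕ) (u : ∀ e, (L j e).ι → (L (j + 1) e).ι → (Z j).pt → ℂ)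
        (w : Fin (k + s) → ℤ) (hf : FlipD (f j) (f' j) (L j) (L (j + 1)) p q u w) (d : ℕ)
        (b : ∀ e, (X j).pt → (L j e).ι), 1 ≤ d ∧ (∀ e, c j e * p e = c (j + 1) e * q e) ∧
        (∀ e, (w e : ℝ) ≤ d * (ρ e / (c j e * p e)) ∧ d * (ρ e / (c j e * p e)) ≤ w e + 1) ∧
        (∀ e x, x ∈ (L j e).U (b e x)) ∧ a'.O = {y | y ∈ a.O ∧ f j (a.v y) ∉ Amin (f j)} ∧
        a'.v = (fun y => hf.small'.sec (f j (a.v y))) ∧ a'.P = (fun e => q e * a.P e) ∧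
        a'.Q = (fun e => a.Q e * p e) ∧
        a'.T = (fun e => stT a.v (f j) (a.P e) (p e) (a.T e) (u e) (b e)))
    ⟨⟨∅, hbase⟩, by
      intro i y a ch b hy ha hch hb
      show σ 0 i a (p₀ (v₀ y)) ^ 1 * t (Fin.natAdd k i) a (ch, b) y =
        sg i b y ^ c 0 (Fin.natAdd k i)
      rw [pow_one]
      exact h.corr i a ch b y hy ha hch hb⟩
    (by
      rintro j ⟨O, v, P, Q, T⟩ ⟨⟨S, hTw⟩, hsec⟩
      obtain ⟨p, q, u, d, w, hd, hcpq, hf, hda, hcor⟩ := exists_flipDB (h.flip j) (h.c1 j)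
      choose b hb using fun e => (hf.lb e).cover
      have hb' : ∀ e x, x ∈ (L j e).U (b e x) := hb
      have hTw' := hTw.step hk (fun e => (hN e).isOpen) h.res.emb hf hd hcpq hda hb'
      exact ⟨⟨_, _, _, _, _⟩, ⟨⟨_, hTw'⟩, hsec.step hf hcor hb'⟩, hTw', p, q, u, w, hf, d, b, hd,
        hcpq, hda, hb', rfl, rfl, rfl, rfl, rfl⟩)
  refine ⟨fun j => (S j).O, fun j => (S j).v, fun j => (S j).P, fun j => (S j).Q,
    fun j => (S j).T, ?_⟩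
  refine ⟨by rw [hS0], by rw [hS0], by rw [hS0], by rw [hS0], by rw [hS0], ?_, fun j => (hS2 j).1,
    fun j => (hS2 j).2, fun j => (hS1 j).2, fun j => ?_⟩
  · rw [hS0]; exact hbase
  · obtain ⟨⟨S', hTw⟩, -⟩ := hS1 j
    exact (hTw.tw ⟨0, hk⟩).dense h.res.emb h.res.surj hDd hDc

omit [T2Space Y] [CompactSpace Y] [IsManifold 𝓘(ℂ, Cm 4) ω Y] in
/-- the tower has the same underlying sequence -/
theorem TwSeq.eq_seq {k s : ℕ} {M : Fin (k + s) → Bd Y} {m : Fin (k + s) → ℕ}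
    {ρ : Fin (k + s) → ℝ} {sg : ∀ i : Fin s, (M (Fin.natAdd k i)).ι → Y → ℂ} {W : CSp}
    {X Z : ℕ → CSp} {r : ℕ} {v₀ : Y → W.pt} {p₀ : W.pt → (X 0).pt} {G : Fin r → Set Y}
    {f : ∀ j, (X j).pt → (Z j).pt} {f' : ∀ j, (X (j + 1)).pt → (Z j).pt}
    {L : ∀ j, Fin (k + s) → Bd (X j).pt} {c : ℕ → Fin (k + s) → ℕ}
    {σ : ∀ j, ∀ i : Fin s, (L j (Fin.natAdd k i)).ι → (X j).pt → ℂ}
    {t : ∀ e, (L 0 e).ι → (((Bd.can 4 Y).pow (m e)).mul (M e)).ι → Y → ℂ}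
    {O : ℕ → Set Y} {v : ∀ j, Y → (X j).pt} {P Q : ℕ → Fin (k + s) → ℕ}
    {T : ∀ j e, (L j e).ι → (((Bd.can 4 Y).pow (m e)).mul (M e)).ι → Y → ℂ}
    (h : TwSeq ρ sg v₀ p₀ G f f' L c σ t O v P Q T) {O' : ℕ → Set Y} {v' : ∀ j, Y → (X j).pt}
    (hs : IsSeq X Z f f' (fun j => Amin (f j)) O' v') (hO : O' 0 = (⋃ l, G l)ᶜ)
    (hv : v' 0 = fun y => p₀ (v₀ y)) (j : ℕ) : O' j = O j ∧ ∀ y ∈ O j, v' j y = v j y := by
  induction j with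
  | zero => exact ⟨by rw [hO, h.O0], fun y _ => by rw [hv, h.v0]⟩
  | succ j ih =>
    obtain ⟨p, q, u, a, hf, d, b, -, -, -, -, hOj, hvj, -, -, -⟩ := h.step j
    have h1 : O' (j + 1) = O (j + 1) := by
      rw [hs.step j, hOj, ih.1]
      ext y
      constructor
      · rintro ⟨h2, h3⟩
        refine ⟨h2, fun h4 => h3 ?_⟩
        show f j (v' j y) ∈ Amin (f j)
        rw [ih.2 y h2]; exact h4
      · rintro ⟨h2, h3⟩
        refine ⟨h2, fun h4 => h3 ?_⟩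
        have h4 : f j (v' j y) ∈ Amin (f j) := h4
        rwa [ih.2 y h2] at h4
    refine ⟨h1, fun y hy => ?_⟩
    have h2 : y ∈ O j ∧ f j (v j y) ∉ Amin (f j) := by rw [hOj] at hy; exact hy
    have h3 : f' j (v' (j + 1) y) = f j (v j y) := by
      rw [hs.comp j y (h1 ▸ hy), ih.2 y h2.1]
    have h4 : f' j (v (j + 1) y) = f j (v j y) := by
      rw [hvj]; exact hf.small'.sec_eq _
    exact hf.small'.inj _ _ (by rw [h4]; exact h2.2) (h3.trans h4.symm)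

omit [T2Space Y] [CompactSpace Y] [IsManifold 𝓘(ℂ, Cm 4) ω Y] in
theorem TwSeq.sub_compl {k s : ℕ} {M : Fin (k + s) → Bd Y} {m : Fin (k + s) → ℕ}
    {ρ : Fin (k + s) → ℝ} {sg : ∀ i : Fin s, (M (Fin.natAdd k i)).ι → Y → ℂ} {W : CSp}
    {X Z : ℕ → CSp} {r : ℕ} {v₀ : Y → W.pt} {p₀ : W.pt → (X 0).pt} {G : Fin r → Set Y}
    {f : ∀ j, (X j).pt → (Z j).pt} {f' : ∀ j, (X (j + 1)).pt → (Z j).pt}
    {L : ∀ j, Fin (k + s) → Bd (X j).pt} {c : ℕ → Fin (k + s) → ℕ}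
    {σ : ∀ j, ∀ i : Fin s, (L j (Fin.natAdd k i)).ι → (X j).pt → ℂ}
    {t : ∀ e, (L 0 e).ι → (((Bd.can 4 Y).pow (m e)).mul (M e)).ι → Y → ℂ}
    {O : ℕ → Set Y} {v : ∀ j, Y → (X j).pt} {P Q : ℕ → Fin (k + s) → ℕ}
    {T : ∀ j e, (L j e).ι → (((Bd.can 4 Y).pow (m e)).mul (M e)).ι → Y → ℂ}
    (h : TwSeq ρ sg v₀ p₀ G f f' L c σ t O v P Q T) (j : ℕ) :
    f' j ⁻¹' Amin (f j) ⊆ (v (j + 1) '' O (j + 1))ᶜ := by
  obtain ⟨p, q, u, a, hf, d, b, -, -, -, -, hOj, hvj, -, -, -⟩ := h.step j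
  rintro x' hx' ⟨y, hy, rfl⟩
  have h1 : f' j (v (j + 1) y) ∈ Amin (f j) := hx'
  rw [hvj] at h1
  have h2 : f' j (hf.small'.sec (f j (v j y))) ∈ Amin (f j) := h1
  rw [hf.small'.sec_eq] at h2
  rw [hOj] at hy
  exact hy.2 h2

/-- the tower with the given sets `O j` -/
theorem exists_twSeq_of (hL0 : StL0) {χ : Chart 4 Y → Cm 4 → Matrix (Fin 4) (Fin 4) ℂ} {k s : ℕ}
    {M : Fin (k + s) → Bd Y} {m : Fin (k + s) → ℕ} {ρ : Fin (k + s) → ℝ} {H : Fin s → Type}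
    [∀ i, TopologicalSpace (H i)] [∀ i, ChartedSpace (Cm 3) (H i)] {ι : ∀ i, H i → Y}
    {sg : ∀ i : Fin s, (M (Fin.natAdd k i)).ι → Y → ℂ} {W : CSp} {X Z : ℕ → CSp} {r : ℕ}
    {v₀ : Y → W.pt} {p₀ : W.pt → (X 0).pt} {P₀ : Bd W.pt} {G : Fin r → Set Y}
    {f : ∀ j, (X j).pt → (Z j).pt} {f' : ∀ j, (X (j + 1)).pt → (Z j).pt}
    {A : ∀ j, Set (Z j).pt} {L : ∀ j, Fin (k + s) → Bd (X j).pt} {c : ℕ → Fin (k + s) → ℕ}
    {σ : ∀ j, ∀ i : Fin s, (L j (Fin.natAdd k i)).ι → (X j).pt → ℂ}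
    {n : Fin (k + s) → Fin r → ℤ} {t : ∀ e, (L 0 e).ι →
      ((((Bd.can 4 Y).pow (m e)).mul (M e)).pow (c 0 e)).ι → Y → ℂ}
    (h : IsPS χ M m ρ ι sg v₀ p₀ P₀ G f f' A L c σ n t) {O : ℕ → Set Y} {v : ∀ j, Y → (X j).pt}
    (hs : IsSeq X Z f f' (fun j => Amin (f j)) O v) (hO : O 0 = (⋃ l, G l)ᶜ)
    (hv : v 0 = fun y => p₀ (v₀ y)) :
    ∃ (v' : ∀ j, Y → (X j).pt) (P Q : ℕ → Fin (k + s) → ℕ)
      (T : ∀ j e, (L j e).ι → (((Bd.can 4 Y).pow (m e)).mul (M e)).ι → Y → ℂ),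
      TwSeq ρ sg v₀ p₀ G f f' L c σ t O v' P Q T ∧ ∀ j, ∀ y ∈ O j, v' j y = v j y := by
  obtain ⟨O', v', P, Q, T, hT⟩ := exists_twSeq hL0 h
  have h1 := hT.eq_seq hs hO hv
  have h2 : O' = O := funext fun j => (h1 j).1.symm
  subst h2
  exact ⟨v', P, Q, T, hT, fun j y hy => ((h1 j).2 y hy).symm⟩

/-- the order vectors along a wedge -/
theorem TwSeq.exists_ordW (hB : StWgBase) (hS : StWgStep) {k s : ℕ} {M : Fin (k + s) → Bd Y}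
    {m : Fin (k + s) → ℕ} {ρ : Fin (k + s) → ℝ}
    {sg : ∀ i : Fin s, (M (Fin.natAdd k i)).ι → Y → ℂ} {W : CSp}
    {X Z : ℕ → CSp} {r : ℕ} {v₀ : Y → W.pt} {p₀ : W.pt → (X 0).pt} {P₀ : Bd W.pt}
    {G : Fin r → Set Y} {f : ∀ j, (X j).pt → (Z j).pt} {f' : ∀ j, (X (j + 1)).pt → (Z j).pt}
    {L : ∀ j, Fin (k + s) → Bd (X j).pt} {c : ℕ → Fin (k + s) → ℕ}
    {σ : ∀ j, ∀ i : Fin s, (L j (Fin.natAdd k i)).ι → (X j).pt → ℂ}
    {n : Fin (k + s) → Fin r → ℤ}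
    {t : ∀ e, (L 0 e).ι → (((Bd.can 4 Y).pow (m e)).mul (M e)).ι → Y → ℂ}
    {O : ℕ → Set Y} {v : ∀ j, Y → (X j).pt} {P Q : ℕ → Fin (k + s) → ℕ}
    {T : ∀ j e, (L j e).ι → (((Bd.can 4 Y).pow (m e)).mul (M e)).ι → Y → ℂ}
    (h : TwSeq ρ sg v₀ p₀ G f f' L c σ t O v P Q T) (hk : 1 ≤ k + s) (hM : ∀ e, IsLB 4 (M e))
    (hR : T2.IsRes v₀ p₀ P₀ G)
    (ht : IsCmpV (fun y => p₀ (v₀ y)) (L 0)
      (fun e => (((Bd.can 4 Y).pow (m e)).mul (M e)).pow (c 0 e)) G n t)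
    {Γ : Cm 4 → Y} {D : Set (Cm 4)} (hW : IsWg Γ D) :
    ∃ α : ℕ → Fin (k + s) → ℚ, (∀ j, OrdW (O j) (v j) (T j) (Q j) Γ D (α j)) ∧
      (∀ j, ∑ e, ρ e * α j e ≤ ∑ e, ρ e * α (j + 1) e) ∧
      ∀ j, (∃ w₀ r γ i c x, NiceW (O (j + 1)) (v (j + 1)) (T (j + 1)) Γ D w₀ r γ i c x ∧
        ∀ w ∈ ball w₀ r, w 0 = 0 → f' j (γ w) ∈ Amin (f j)) →
          ∑ e, ρ e * α j e < ∑ e, ρ e * α (j + 1) e := by
  have hN : ∀ e, CtBd (((Bd.can 4 Y).pow (m e)).mul (M e)) := fun e => ctBd (hM e) (m e)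
  have htw : ∀ j, ∃ S, TwV v₀ (⋃ l, G l) (fun e => ((Bd.can 4 Y).pow (m e)).mul (M e)) (X j)
      (L j) (c j) (O j) (v j) (P j) (Q j) (T j) ρ S := by
    intro j
    cases j with
    | zero => exact ⟨_, h.tw0⟩
    | succ j => exact ⟨_, h.tw j⟩
  have hb : ∃ α, OrdW (O 0) (v 0) (T 0) (Q 0) Γ D α := by
    have h1 := h.tw0
    have h2 := h.dense 0
    rw [h.O0, h.v0, h.P0, h.Q0, h.T0] at h1
    rw [h.O0] at h2
    rw [h.O0, h.v0, h.Q0, h.T0]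
    exact hB Y (k + s) W (X 0) r v₀ p₀ P₀ G hR _ hN (L 0) (c 0) n t ht ρ h1 h2 Γ D hW
  obtain ⟨α₀, hα₀⟩ := hb
  obtain ⟨α, -, h1, h2⟩ := exists_seq_dep (α := fun _ => Fin (k + s) → ℚ) α₀
    (fun j a => OrdW (O j) (v j) (T j) (Q j) Γ D a)
    (fun j a a' => ∑ e, ρ e * (a e : ℝ) ≤ ∑ e, ρ e * (a' e : ℝ) ∧
      ((∃ w₀ r γ i c x, NiceW (O (j + 1)) (v (j + 1)) (T (j + 1)) Γ D w₀ r γ i c x ∧
        ∀ w ∈ ball w₀ r, w 0 = 0 → f' j (γ w) ∈ Amin (f j)) →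
          ∑ e, ρ e * (a e : ℝ) < ∑ e, ρ e * (a' e : ℝ)))
    hα₀ (by
      intro j a ha
      obtain ⟨p, q, u, w, hf, d, b, hd, hcpq, hda, hb, hOj, hvj, -, hQj, hTj⟩ := h.step j
      obtain ⟨S, hTw⟩ := htw j
      have hdn := h.dense (j + 1)
      rw [hOj] at hdn
      obtain ⟨a', h1, h2, h3⟩ := hS Y (k + s) hk W (X j) (Z j) (X (j + 1)) v₀ hR.emb (⋃ l, G l) _
        hN (L j) (L (j + 1)) (c j) (c (j + 1)) (O j) (v j) (P j) (Q j) (T j) ρ S hTw (f j) (f' j)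
        p q u w hf d hd hcpq hda b hb hdn Γ D hW a ha
      refine ⟨a', ?_, h2, ?_⟩
      · rw [hOj, hvj, hQj, hTj]; exact h1
      · rw [hOj, hvj, hTj]; exact h3)
  exact ⟨α, h1, fun j => (h2 j).1, fun j => (h2 j).2⟩

end tower

end Vale.Agent.P277.H762
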