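import Vale.Agent.P277.Stmts16
import Vale.Agent.P277.H762.A2
import Vale.Agent.P277.H371.N.BaseN
import Vale.Agent.P277.H884.N1

/-!
# P277, T4: the tower of the spaces `X j` over the resolution `Y`, for wedges outside `N j`
-/

open scoped Manifold ContDiff Topology
open Vale.Agent.P272.K Vale.Agent.P285.H281.FD Vale.Agent.P267.H175 Set Metric Filter

noncomputable section

namespace Vale.Agent.P277.H762

open Vale.Agent.P277 Vale.Agent.P277.T2 Vale.Agent.P277.T3 Vale.Agent.P277.H615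
open Vale.Agent.P277.H371.N Vale.Agent.P277.H884.N

variable {Y : Type} [TopologicalSpace Y] [ChartedSpace (Cm 4) Y]

/-- The tower of the spaces `X j` over `Y` (`N j` is the total transform of the image of `Bad`). -/
structure TwSeqN {k s : ℕ} {M : Fin (k + s) → Bd Y}
    {m : Fin (k + s) → ℕ} (ρ : Fin (k + s) → ℝ)
    (sg : ∀ i : Fin s, (M (Fin.natAdd k i)).ι → Y → ℂ) {W : CSp} {X Z : ℕ → CSp} {r : ℕ}
    (v₀ : Y → W.pt) (p₀ : W.pt → (X 0).pt) (G : Fin r → Set Y)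
    (f : ∀ j, (X j).pt → (Z j).pt) (f' : ∀ j, (X (j + 1)).pt → (Z j).pt)
    (L : ∀ j, Fin (k + s) → Bd (X j).pt) (c : ℕ → Fin (k + s) → ℕ)
    (σ : ∀ j, ∀ i : Fin s, (L j (Fin.natAdd k i)).ι → (X j).pt → ℂ)
    (t : ∀ e, (L 0 e).ι → (((Bd.can 4 Y).pow (m e)).mul (M e)).ι → Y → ℂ)
    (N : ∀ j, Set (X j).pt) (Bad : Set Y)
    (O : ℕ → Set Y) (v : ∀ j, Y → (X j).pt) (P Q : ℕ → Fin (k + s) → ℕ)
    (T : ∀ j e, (L j e).ι → (((Bd.can 4 Y).pow (m e)).mul (M e)).ι → Y → ℂ) : Prop where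
  O0 : O 0 = (⋃ l, G l)ᶜ
  v0 : v 0 = fun y => p₀ (v₀ y)
  P0 : P 0 = fun _ => 1
  Q0 : Q 0 = c 0
  T0 : T 0 = t
  tw0 : TwN v₀ (⋃ l, G l) (fun e => ((Bd.can 4 Y).pow (m e)).mul (M e)) (X 0) (L 0) (c 0) (O 0)
    (v 0) (P 0) (Q 0) (T 0) ρ ∅ (N 0) Bad
  tw : ∀ j, TwN v₀ (⋃ l, G l) (fun e => ((Bd.can 4 Y).pow (m e)).mul (M e)) (X (j + 1))
    (L (j + 1)) (c (j + 1)) (O (j + 1)) (v (j + 1)) (P (j + 1)) (Q (j + 1)) (T (j + 1)) ρ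
    (f' j ⁻¹' Amin (f j)) (N (j + 1)) Bad
  step : ∀ j, ∃ (p q : Fin (k + s) → ℕ) (u : ∀ e, (L j e).ι → (L (j + 1) e).ι → (Z j).pt → ℂ)
    (a : Fin (k + s) → ℤ) (hf : FlipD (f j) (f' j) (L j) (L (j + 1)) p q u a) (d : ℕ)
    (b : ∀ e, (X j).pt → (L j e).ι), 1 ≤ d ∧ (∀ e, c j e * p e = c (j + 1) e * q e) ∧
    (∀ e, (a e : ℝ) ≤ d * (ρ e / (c j e * p e)) ∧ d * (ρ e / (c j e * p e)) ≤ a e + 1) ∧
    (∀ e x, x ∈ (L j e).U (b e x)) ∧ O (j + 1) = {y | y ∈ O j ∧ f j (v j y) ∉ Amin (f j)} ∧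
    v (j + 1) = (fun y => hf.small'.sec (f j (v j y))) ∧ P (j + 1) = (fun e => q e * P j e) ∧
    Q (j + 1) = (fun e => Q j e * p e) ∧
    T (j + 1) = (fun e => stT (v j) (f j) (P j e) (p e) (T j e) (u e) (b e))
  sec : ∀ j, SecRel (L j) (O j) (v j) (P j) (Q j) (T j) sg (σ j)
  dense : ∀ j, Dense (O j)

section

variable {k s : ℕ} {M : Fin (k + s) → Bd Y} {m : Fin (k + s) → ℕ}
  {ρ : Fin (k + s) → ℝ} {sg : ∀ i : Fin s, (M (Fin.natAdd k i)).ι → Y → ℂ} {W : CSp}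
  {X Z : ℕ → CSp} {r : ℕ} {v₀ : Y → W.pt} {p₀ : W.pt → (X 0).pt} {G : Fin r → Set Y}
  {f : ∀ j, (X j).pt → (Z j).pt} {f' : ∀ j, (X (j + 1)).pt → (Z j).pt}
  {L : ∀ j, Fin (k + s) → Bd (X j).pt} {c : ℕ → Fin (k + s) → ℕ}
  {σ : ∀ j, ∀ i : Fin s, (L j (Fin.natAdd k i)).ι → (X j).pt → ℂ}
  {t : ∀ e, (L 0 e).ι → (((Bd.can 4 Y).pow (m e)).mul (M e)).ι → Y → ℂ}
  {N : ∀ j, Set (X j).pt} {Bad : Set Y}
  {O : ℕ → Set Y} {v : ∀ j, Y → (X j).pt} {P Q : ℕ → Fin (k + s) → ℕ}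
  {T : ∀ j e, (L j e).ι → (((Bd.can 4 Y).pow (m e)).mul (M e)).ι → Y → ℂ}

theorem TwSeqN.tw1 (h : TwSeqN ρ sg v₀ p₀ G f f' L c σ t N Bad O v P Q T) (j : ℕ) :
    Tw1 v₀ (⋃ l, G l) (fun e => ((Bd.can 4 Y).pow (m e)).mul (M e)) (X j) (L j) (c j) (O j)
      (v j) (P j) (Q j) (T j) := by
  cases j with
  | zero => exact h.tw0.tw1
  | succ j => exact (h.tw j).tw1

/-- the tower has the same underlying sequence -/
theorem TwSeqN.eq_seq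
    (h : TwSeqN ρ sg v₀ p₀ G f f' L c σ t N Bad O v P Q T) {O' : ℕ → Set Y} {v' : ∀ j, Y → (X j).pt}
    (hs : IsSeq X Z f f' (fun j => Amin (f j)) O' v') (hO : O' 0 = (⋃ l, G l)ᶜ)
    (hv : v' 0 = fun y => p₀ (v₀ y)) (j : ℕ) : O' j = O j ∧ ∀ y ∈ O j, v' j y = v j y := by
  induction j with
  | zero => exact ⟨by rw [hO, h.O0], fun y _ => by rw [hv, h.v0]⟩
  | succ j ih =>
    obtain ⟨p, q, u, a, hf, d, b, -, -, -, -, hOj, hvj, -, -, -⟩ := h.step j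
    have h1 : O' (j + 1) = O (j + 1) := by
      rw [hs.step j, hOj, ih.1]
      ext y
      constructor
      · rintro ⟨h2, h3⟩
        refine ⟨h2, fun h4 => h3 ?_⟩
        show f j (v' j y) ∈ Amin (f j)
        rw [ih.2 y h2]; exact h4
      · rintro ⟨h2, h3⟩
        refine ⟨h2, fun h4 => h3 ?_⟩
        have h4 : f j (v' j y) ∈ Amin (f j) := h4
        rwa [ih.2 y h2] at h4
    refine ⟨h1, fun y hy => ?_⟩
    have h2 : y ∈ O j ∧ f j (v j y) ∉ Amin (f j) := by rw [hOj] at hy; exact hy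
    have h3 : f' j (v' (j + 1) y) = f j (v j y) := by
      rw [hs.comp j y (h1 ▸ hy), ih.2 y h2.1]
    have h4 : f' j (v (j + 1) y) = f j (v j y) := by
      rw [hvj]; exact hf.small'.sec_eq _
    exact hf.small'.inj _ _ (by rw [h4]; exact h2.2) (h3.trans h4.symm)

theorem TwSeqN.sub_compl
    (h : TwSeqN ρ sg v₀ p₀ G f f' L c σ t N Bad O v P Q T) (j : ℕ) :
    f' j ⁻¹' Amin (f j) ⊆ (v (j + 1) '' O (j + 1))ᶜ := by
  obtain ⟨p, q, u, a, hf, d, b, -, -, -, -, hOj, hvj, -, -, -⟩ := h.step j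
  rintro x' hx' ⟨y, hy, rfl⟩
  have h1 : f' j (v (j + 1) y) ∈ Amin (f j) := hx'
  rw [hvj] at h1
  have h2 : f' j (hf.small'.sec (f j (v j y))) ∈ Amin (f j) := h1
  rw [hf.small'.sec_eq] at h2
  rw [hOj] at hy
  exact hy.2 h2

end

variable [T2Space Y] [CompactSpace Y] [IsManifold 𝓘(ℂ, Cm 4) ω Y]

theorem exists_twSeqN (hL0 : StL0) {χ : Chart 4 Y → Cm 4 → Matrix (Fin 4) (Fin 4) ℂ} {k s : ℕ}
    {M : Fin (k + s) → Bd Y} {m : Fin (k + s) → ℕ} {ρ : Fin (k + s) → ℝ} {H : Fin s → Type}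
    [∀ i, TopologicalSpace (H i)] [∀ i, ChartedSpace (Cm 3) (H i)] {ι : ∀ i, H i → Y}
    {sg : ∀ i : Fin s, (M (Fin.natAdd k i)).ι → Y → ℂ} {W : CSp} {X Z : ℕ → CSp} {r : ℕ}
    {v₀ : Y → W.pt} {p₀ : W.pt → (X 0).pt} {P₀ : Bd W.pt} {G : Fin r → Set Y}
    {f : ∀ j, (X j).pt → (Z j).pt} {f' : ∀ j, (X (j + 1)).pt → (Z j).pt}
    {A : ∀ j, Set (Z j).pt} {L : ∀ j, Fin (k + s) → Bd (X j).pt} {c : ℕ → Fin (k + s) → ℕ}
    {σ : ∀ j, ∀ i : Fin s, (L j (Fin.natAdd k i)).ι → (X j).pt → ℂ}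
    {n : Fin (k + s) → Fin r → ℤ} {t : ∀ e, (L 0 e).ι →
      ((((Bd.can 4 Y).pow (m e)).mul (M e)).pow (c 0 e)).ι → Y → ℂ}
    {I : Set (Fin r)} {I' : Set (Fin s)} {N : ∀ j, Set (X j).pt}
    (h : IsPN χ M m ρ ι sg v₀ p₀ P₀ G f f' A L c σ n t I I' N) :
    ∃ (O : ℕ → Set Y) (v : ∀ j, Y → (X j).pt) (P Q : ℕ → Fin (k + s) → ℕ)
      (T : ∀ j e, (L j e).ι → (((Bd.can 4 Y).pow (m e)).mul (M e)).ι → Y → ℂ),
      TwSeqN ρ sg v₀ p₀ G f f' L c σ t N (bad ι G I I') O v P Q T := by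
  have hk : 1 ≤ k + s := by
    rcases Nat.eq_zero_or_pos (k + s) with h0 | h0
    · exfalso
      have h1 := h.sum
      have h2 : IsEmpty (Fin (k + s)) := by rw [h0]; infer_instance
      rw [Finset.sum_of_isEmpty] at h1
      exact zero_ne_one h1
    · exact h0
  have hN : ∀ e, CtBd (((Bd.can 4 Y).pow (m e)).mul (M e)) := fun e => ctBd (h.lb e) (m e)
  have hneX : Nonempty (X 0).pt := by
    have h1 := (h.flip 0).flip.ninj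
    rw [Function.Injective] at h1
    push Not at h1
    obtain ⟨x, -⟩ := h1
    exact ⟨x⟩
  have hneW : Nonempty W.pt := by
    obtain ⟨x⟩ := hneX
    obtain ⟨w, -⟩ := h.res.psurj x
    exact ⟨w⟩
  have hDd : Dense (⋃ l, G l)ᶜ := dense_compl_iUnion_hyp h.res.hyp h.res.closed
  have hDc : IsClosed (⋃ l, G l) := isClosed_iUnion_of_finite h.res.closed
  have hcan : ∀ l, 0 ≤ ∑ e, ρ e * n e l / c 0 e ∨ G l ⊆ bad ι G I I' := by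
    intro l
    by_cases hl : l ∈ I
    · exact Or.inr fun y hy => Or.inl (mem_iUnion₂.2 ⟨l, hl, hy⟩)
    · exact Or.inl (h.canon l hl)
  let st0 : StateB M m (L 0) := ⟨(⋃ l, G l)ᶜ, fun y => p₀ (v₀ y), fun _ => 1, c 0, t⟩
  have hbase : TwN v₀ (⋃ l, G l) (fun e => ((Bd.can 4 Y).pow (m e)).mul (M e)) (X 0) (L 0) (c 0)
      (⋃ l, G l)ᶜ (fun y => p₀ (v₀ y)) (fun _ => 1) (c 0) t ρ ∅ (N 0) (bad ι G I I') := by
    rw [h.N0]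
    exact TwN.base hL0 (h.flip 0).flip.normal h.res hneW (fun e => (hN e).isOpen)
      (fun e => (hN e).cover) (h.flip 0).flip.lb (h.c1 0) h.cmp hcan
  obtain ⟨S, hS0, hS1, hS2⟩ := exists_seq_dep (α := fun j => StateB M m (L j)) st0
    (fun j a => (∃ S, TwN v₀ (⋃ l, G l) (fun e => ((Bd.can 4 Y).pow (m e)).mul (M e)) (X j) (L j)
      (c j) a.O a.v a.P a.Q a.T ρ S (N j) (bad ι G I I')) ∧
      SecRel (L j) a.O a.v a.P a.Q a.T sg (σ j))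
    (fun j a a' => TwN v₀ (⋃ l, G l) (fun e => ((Bd.can 4 Y).pow (m e)).mul (M e)) (X (j + 1))
      (L (j + 1)) (c (j + 1)) a'.O a'.v a'.P a'.Q a'.T ρ (f' j ⁻¹' Amin (f j)) (N (j + 1))
        (bad ι G I I') ∧
      ∃ (p q : Fin (k + s) → ℕ) (u : ∀ e, (L j e).ι → (L (j + 1) e).ι → (Z j).pt → ℂ)
        (w : Fin (k + s) → ℤ) (hf : FlipD (f j) (f' j) (L j) (L (j + 1)) p q u w) (d : ℕ)
        (b : ∀ e, (X j).pt → (L j e).ι), 1 ≤ d ∧ (∀ e, c j e * p e = c (j + 1) e * q e) ∧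
        (∀ e, (w e : ℝ) ≤ d * (ρ e / (c j e * p e)) ∧ d * (ρ e / (c j e * p e)) ≤ w e + 1) ∧
        (∀ e x, x ∈ (L j e).U (b e x)) ∧ a'.O = {y | y ∈ a.O ∧ f j (a.v y) ∉ Amin (f j)} ∧
        a'.v = (fun y => hf.small'.sec (f j (a.v y))) ∧ a'.P = (fun e => q e * a.P e) ∧
        a'.Q = (fun e => a.Q e * p e) ∧
        a'.T = (fun e => stT a.v (f j) (a.P e) (p e) (a.T e) (u e) (b e)))
    ⟨⟨∅, hbase⟩, by
      intro i y a ch b hy ha hch hb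
      show σ 0 i a (p₀ (v₀ y)) ^ 1 * t (Fin.natAdd k i) a (ch, b) y =
        sg i b y ^ c 0 (Fin.natAdd k i)
      rw [pow_one]
      exact h.corr i a ch b y hy ha hch hb⟩
    (by
      rintro j ⟨O, v, P, Q, T⟩ ⟨⟨S, hTw⟩, hsec⟩
      obtain ⟨p, q, u, d, w, hd, hcpq, hf, hda, hcor⟩ := exists_flipDB (h.flip j) (h.c1 j)
      choose b hb using fun e => (hf.lb e).cover
      have hb' : ∀ e x, x ∈ (L j e).U (b e x) := hb
      have hTw' := hTw.step hk (fun e => (hN e).isOpen) h.res.emb hf hd hcpq hda hb'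
      rw [← h.Nsucc j] at hTw'
      exact ⟨⟨_, _, _, _, _⟩, ⟨⟨_, hTw'⟩, hsec.step hf hcor hb'⟩, hTw', p, q, u, w, hf, d, b, hd,
        hcpq, hda, hb', rfl, rfl, rfl, rfl, rfl⟩)
  refine ⟨fun j => (S j).O, fun j => (S j).v, fun j => (S j).P, fun j => (S j).Q,
    fun j => (S j).T, ?_⟩
  refine ⟨by rw [hS0], by rw [hS0], by rw [hS0], by rw [hS0], by rw [hS0], ?_, fun j => (hS2 j).1,
    fun j => (hS2 j).2, fun j => (hS1 j).2, fun j => ?_⟩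
  · rw [hS0]; exact hbase
  · obtain ⟨⟨S', hTw⟩, -⟩ := hS1 j
    exact (hTw.tw ⟨0, hk⟩).dense h.res.emb h.res.surj hDd hDc

/-- the tower with the given sets `O j` -/
theorem exists_twSeqN_of (hL0 : StL0) {χ : Chart 4 Y → Cm 4 → Matrix (Fin 4) (Fin 4) ℂ} {k s : ℕ}
    {M : Fin (k + s) → Bd Y} {m : Fin (k + s) → ℕ} {ρ : Fin (k + s) → ℝ} {H : Fin s → Type}
    [∀ i, TopologicalSpace (H i)] [∀ i, ChartedSpace (Cm 3) (H i)] {ι : ∀ i, H i → Y}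
    {sg : ∀ i : Fin s, (M (Fin.natAdd k i)).ι → Y → ℂ} {W : CSp} {X Z : ℕ → CSp} {r : ℕ}
    {v₀ : Y → W.pt} {p₀ : W.pt → (X 0).pt} {P₀ : Bd W.pt} {G : Fin r → Set Y}
    {f : ∀ j, (X j).pt → (Z j).pt} {f' : ∀ j, (X (j + 1)).pt → (Z j).pt}
    {A : ∀ j, Set (Z j).pt} {L : ∀ j, Fin (k + s) → Bd (X j).pt} {c : ℕ → Fin (k + s) → ℕ}
    {σ : ∀ j, ∀ i : Fin s, (L j (Fin.natAdd k i)).ι → (X j).pt → ℂ}
    {n : Fin (k + s) → Fin r → ℤ} {t : ∀ e, (L 0 e).ι →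
      ((((Bd.can 4 Y).pow (m e)).mul (M e)).pow (c 0 e)).ι → Y → ℂ}
    {I : Set (Fin r)} {I' : Set (Fin s)} {N : ∀ j, Set (X j).pt}
    (h : IsPN χ M m ρ ι sg v₀ p₀ P₀ G f f' A L c σ n t I I' N)
    {O : ℕ → Set Y} {v : ∀ j, Y → (X j).pt}
    (hs : IsSeq X Z f f' (fun j => Amin (f j)) O v) (hO : O 0 = (⋃ l, G l)ᶜ)
    (hv : v 0 = fun y => p₀ (v₀ y)) :
    ∃ (v' : ∀ j, Y → (X j).pt) (P Q : ℕ → Fin (k + s) → ℕ)
      (T : ∀ j e, (L j e).ι → (((Bd.can 4 Y).pow (m e)).mul (M e)).ι → Y → ℂ),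
      TwSeqN ρ sg v₀ p₀ G f f' L c σ t N (bad ι G I I') O v' P Q T ∧
        ∀ j, ∀ y ∈ O j, v' j y = v j y := by
  obtain ⟨O', v', P, Q, T, hT⟩ := exists_twSeqN hL0 h
  have h1 := hT.eq_seq hs hO hv
  have h2 : O' = O := funext fun j => (h1 j).1.symm
  subst h2
  exact ⟨v', P, Q, T, hT, fun j y hy => ((h1 j).2 y hy).symm⟩

/-- the order vectors along a wedge -/
theorem TwSeqN.exists_ordW (hB : StWgBase1) (hS : StWgStep1) {k s : ℕ} {M : Fin (k + s) → Bd Y}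
    {m : Fin (k + s) → ℕ} {ρ : Fin (k + s) → ℝ}
    {sg : ∀ i : Fin s, (M (Fin.natAdd k i)).ι → Y → ℂ} {W : CSp}
    {X Z : ℕ → CSp} {r : ℕ} {v₀ : Y → W.pt} {p₀ : W.pt → (X 0).pt} {P₀ : Bd W.pt}
    {G : Fin r → Set Y} {f : ∀ j, (X j).pt → (Z j).pt} {f' : ∀ j, (X (j + 1)).pt → (Z j).pt}
    {L : ∀ j, Fin (k + s) → Bd (X j).pt} {c : ℕ → Fin (k + s) → ℕ}
    {σ : ∀ j, ∀ i : Fin s, (L j (Fin.natAdd k i)).ι → (X j).pt → ℂ}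
    {n : Fin (k + s) → Fin r → ℤ}
    {t : ∀ e, (L 0 e).ι → (((Bd.can 4 Y).pow (m e)).mul (M e)).ι → Y → ℂ}
    {N : ∀ j, Set (X j).pt} {Bad : Set Y}
    {O : ℕ → Set Y} {v : ∀ j, Y → (X j).pt} {P Q : ℕ → Fin (k + s) → ℕ}
    {T : ∀ j e, (L j e).ι → (((Bd.can 4 Y).pow (m e)).mul (M e)).ι → Y → ℂ}
    (h : TwSeqN ρ sg v₀ p₀ G f f' L c σ t N Bad O v P Q T) (hk : 1 ≤ k + s)
    (hM : ∀ e, IsLB 4 (M e)) (hR : T2.IsRes v₀ p₀ P₀ G)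
    (ht : IsCmpV (fun y => p₀ (v₀ y)) (L 0)
      (fun e => (((Bd.can 4 Y).pow (m e)).mul (M e)).pow (c 0 e)) G n t)
    {Γ : Cm 4 → Y} {D : Set (Cm 4)} (hW : IsWg Γ D) :
    ∃ α : ℕ → Fin (k + s) → ℚ, (∀ j, OrdW (O j) (v j) (T j) (Q j) Γ D (α j)) ∧
      (∀ j, ∑ e, ρ e * α j e ≤ ∑ e, ρ e * α (j + 1) e) ∧
      ∀ j, (∃ w₀ r γ i c x, NiceW (O (j + 1)) (v (j + 1)) (T (j + 1)) Γ D w₀ r γ i c x ∧
        ∀ w ∈ ball w₀ r, w 0 = 0 → f' j (γ w) ∈ Amin (f j)) →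
          ∑ e, ρ e * α j e < ∑ e, ρ e * α (j + 1) e := by
  have hN : ∀ e, CtBd (((Bd.can 4 Y).pow (m e)).mul (M e)) := fun e => ctBd (hM e) (m e)
  have hb : ∃ α, OrdW (O 0) (v 0) (T 0) (Q 0) Γ D α := by
    have h1 := h.tw1 0
    have h2 := h.dense 0
    rw [h.O0, h.v0, h.P0, h.Q0, h.T0] at h1
    rw [h.O0] at h2
    rw [h.O0, h.v0, h.Q0, h.T0]
    exact hB Y (k + s) W (X 0) r v₀ p₀ P₀ G hR _ hN (L 0) (c 0) n t ht h1 h2 Γ D hW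
  obtain ⟨α₀, hα₀⟩ := hb
  obtain ⟨α, -, h1, h2⟩ := exists_seq_dep (α := fun _ => Fin (k + s) → ℚ) α₀
    (fun j a => OrdW (O j) (v j) (T j) (Q j) Γ D a)
    (fun j a a' => ∑ e, ρ e * (a e : ℝ) ≤ ∑ e, ρ e * (a' e : ℝ) ∧
      ((∃ w₀ r γ i c x, NiceW (O (j + 1)) (v (j + 1)) (T (j + 1)) Γ D w₀ r γ i c x ∧
        ∀ w ∈ ball w₀ r, w 0 = 0 → f' j (γ w) ∈ Amin (f j)) →
          ∑ e, ρ e * (a e : ℝ) < ∑ e, ρ e * (a' e : ℝ)))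
    hα₀ (by
      intro j a ha
      obtain ⟨p, q, u, w, hf, d, b, hd, hcpq, hda, hb, hOj, hvj, -, hQj, hTj⟩ := h.step j
      have hdn := h.dense (j + 1)
      rw [hOj] at hdn
      obtain ⟨a', h1, h2, h3⟩ := hS Y (k + s) hk W (X j) (Z j) (X (j + 1)) v₀ hR.emb (⋃ l, G l) _
        hN (L j) (L (j + 1)) (c j) (c (j + 1)) (O j) (v j) (P j) (Q j) (T j) ρ (h.tw1 j) (f j)
        (f' j) p q u w hf d hd hcpq hda b hb hdn Γ D hW a ha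
      refine ⟨a', ?_, h2, ?_⟩
      · rw [hOj, hvj, hQj, hTj]; exact h1
      · rw [hOj, hvj, hTj]; exact h3)
  exact ⟨α, h1, fun j => (h2 j).1, fun j => (h2 j).2⟩

end Vale.Agent.P277.H762
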