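import Mathlib.Analysis.Calculus.LineDeriv.IntegrationByParts
import Mathlib.Analysis.Calculus.ParametricIntegral
import Mathlib.Analysis.Calculus.MeanValue
import Mathlib.MeasureTheory.Measure.Lebesgue.Complex
import Mathlib.MeasureTheory.Function.LocallyIntegrable
import Mathlib.Analysis.Calculus.ContDiff.Operations
import Mathlib.Topology.Algebra.Support

/-!
# P277, task TD: areas of discs, weighted with a cutoff function

`T` is a function on a complex vector space `V`, whose derivative in the direction `v` is, along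
the discs `ζ ↦ x + ζ e`, the divergence of the vector field `(b₁, b₂)`.
-/

open scoped ContDiff Topology
open MeasureTheory Metric Set Filter Complex

noncomputable section

namespace Vale.Agent.P277.TD

theorem cont_cut {X : Type*} [TopologicalSpace X] {χ f : X → ℝ} (hχ : Continuous χ)
    (hf : ∀ x ∈ tsupport χ, ContinuousAt f x) : Continuous fun x => χ x * f x := by
  refine continuous_of_tsupport fun x hx => hχ.continuousAt.mul (hf x ?_)
  exact tsupport_mul_subset_left hx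

theorem integrable_cut {χ f : ℂ → ℝ} (hχ : Continuous χ) (hc : HasCompactSupport χ)
    (hf : ∀ x ∈ tsupport χ, ContinuousAt f x) : Integrable fun x => χ x * f x :=
  (cont_cut hχ hf).integrable_of_hasCompactSupport hc.mul_right

theorem continuousAt_fderiv_apply {E : Type*} [NormedAddCommGroup E] [NormedSpace ℝ E] {f : E → ℝ}
    {x : E} (h : ContDiffAt ℝ 1 f x) (v : E) : ContinuousAt (fun y => fderiv ℝ f y v) x := by
  have h1 : ContDiffAt ℝ 0 (fderiv ℝ f) x := h.fderiv_right (m := 0) (by norm_num)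
  exact h1.continuousAt.clm_apply continuousAt_const

/-- integration by parts -/
theorem int_parts {χ b : ℂ → ℝ} (hχ : ContDiff ℝ 1 χ) (hc : HasCompactSupport χ)
    (hb : ∀ x ∈ tsupport χ, ContDiffAt ℝ 1 b x) (v : ℂ) :
    ∫ x, χ x * fderiv ℝ b x v = - ∫ x, fderiv ℝ χ x v * b x := by
  have h1 : Continuous fun x => fderiv ℝ χ x v :=
    (hχ.continuous_fderiv one_ne_zero).clm_apply continuous_const
  have hs : tsupport (fun x => fderiv ℝ χ x v) ⊆ tsupport χ :=
    (closure_mono fun x hx => by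
      rw [Function.mem_support] at hx ⊢
      intro h0
      rw [h0] at hx
      exact hx rfl : tsupport (fun x => fderiv ℝ χ x v) ⊆ tsupport (fderiv ℝ χ)).trans
      (tsupport_fderiv_subset ℝ)
  refine integral_mul_fderiv_eq_neg_fderiv_mul_of_integrable ?_ ?_ ?_ ?_ ?_
  · exact integrable_cut h1 (hc.of_isClosed_subset (isClosed_tsupport _) hs)
      fun x hx => (hb x (hs hx)).continuousAt
  · exact integrable_cut hχ.continuous hc fun x hx => continuousAt_fderiv_apply (hb x hx) v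
  · exact integrable_cut hχ.continuous hc fun x hx => (hb x hx).continuousAt
  · intro x _
    exact hχ.differentiable one_ne_zero x
  · intro x hx
    exact (hb x hx).differentiableAt one_ne_zero

section
variable {V : Type*} [NormedAddCommGroup V] [NormedSpace ℂ V] [NormedSpace ℝ V]
  [IsScalarTower ℝ ℂ V] {D : Set V} {T : V → ℝ} {b₁ b₂ : V → ℝ} {e v p : V} {R B : ℝ}
  {χ : ℂ → ℝ}

/-- the point `p + s v + ζ e` -/
def pos (p v e : V) (s : ℝ) (ζ : ℂ) : V := p + s • v + ζ • e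

omit [NormedSpace ℝ V] [IsScalarTower ℝ ℂ V] in
theorem contDiff_line (q e : V) [NormedSpace ℝ V] [IsScalarTower ℝ ℂ V] :
    ContDiff ℝ 1 fun ζ : ℂ => q + ζ • e :=
  contDiff_const.add (contDiff_id.smul contDiff_const)

/-- chain rule along the disc -/
theorem fderiv_line {b : V → ℝ} {q : V} {ζ : ℂ} (hb : DifferentiableAt ℝ b (q + ζ • e)) (w : ℂ) :
    fderiv ℝ (fun ζ : ℂ => b (q + ζ • e)) ζ w = fderiv ℝ b (q + ζ • e) (w • e) := by
  have h1 : HasFDerivAt (fun ζ : ℂ => q + ζ • e)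
      ((ContinuousLinearMap.toSpanSingleton ℂ e).restrictScalars ℝ) ζ := by
    have := ((ContinuousLinearMap.toSpanSingleton ℂ e).restrictScalars ℝ).hasFDerivAt (x := ζ)
    exact this.const_add q
  have h2 := hb.hasFDerivAt.comp ζ h1
  have h3 : fderiv ℝ (fun ζ : ℂ => b (q + ζ • e)) ζ = (fderiv ℝ b (q + ζ • e)).comp
      ((ContinuousLinearMap.toSpanSingleton ℂ e).restrictScalars ℝ) := h2.fderiv
  rw [h3]
  simp

/-- the derivative of the area is the integral of a divergence -/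
theorem deriv_area_eq {q : V} (hχ : ContDiff ℝ 1 χ) (hc : HasCompactSupport χ)
    (hD : ∀ ζ ∈ tsupport χ, q + ζ • e ∈ D)
    (h1 : ∀ x ∈ D, ContDiffAt ℝ 1 b₁ x) (h2 : ∀ x ∈ D, ContDiffAt ℝ 1 b₂ x)
    (hcl : ∀ x ∈ D, fderiv ℝ T x v = fderiv ℝ b₁ x e + fderiv ℝ b₂ x (I • e)) :
    ∫ ζ, χ ζ * fderiv ℝ T (q + ζ • e) v =
      - ∫ ζ, (fderiv ℝ χ ζ 1 * b₁ (q + ζ • e) + fderiv ℝ χ ζ I * b₂ (q + ζ • e)) := by
  have hl : ∀ ζ ∈ tsupport χ, ContDiffAt ℝ 1 (fun ζ : ℂ => b₁ (q + ζ • e)) ζ := fun ζ hζ =>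
    (h1 _ (hD ζ hζ)).comp ζ (contDiff_line q e).contDiffAt
  have hl2 : ∀ ζ ∈ tsupport χ, ContDiffAt ℝ 1 (fun ζ : ℂ => b₂ (q + ζ • e)) ζ := fun ζ hζ =>
    (h2 _ (hD ζ hζ)).comp ζ (contDiff_line q e).contDiffAt
  have e1 : (fun ζ => χ ζ * fderiv ℝ T (q + ζ • e) v) = fun ζ =>
      χ ζ * fderiv ℝ (fun ζ : ℂ => b₁ (q + ζ • e)) ζ 1 +
        χ ζ * fderiv ℝ (fun ζ : ℂ => b₂ (q + ζ • e)) ζ I := by
    funext ζ
    by_cases hζ : ζ ∈ tsupport χ
    · rw [hcl _ (hD ζ hζ), fderiv_line ((h1 _ (hD ζ hζ)).differentiableAt one_ne_zero),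
        fderiv_line ((h2 _ (hD ζ hζ)).differentiableAt one_ne_zero), one_smul]
      ring
    · rw [image_eq_zero_of_notMem_tsupport hζ]; ring
  have hd : ∀ w : ℂ, Continuous fun x => fderiv ℝ χ x w := fun w =>
    (hχ.continuous_fderiv one_ne_zero).clm_apply continuous_const
  have hs : ∀ w : ℂ, tsupport (fun x => fderiv ℝ χ x w) ⊆ tsupport χ := fun w =>
    (closure_mono fun x hx => by
      rw [Function.mem_support] at hx ⊢
      intro h0
      rw [h0] at hx
      exact hx rfl : tsupport (fun x => fderiv ℝ χ x w) ⊆ tsupport (fderiv ℝ χ)).trans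
      (tsupport_fderiv_subset ℝ)
  rw [e1, integral_add, int_parts hχ hc hl 1, int_parts hχ hc hl2 I, integral_add, neg_add]
  · exact integrable_cut (hd 1) (hc.of_isClosed_subset (isClosed_tsupport _) (hs 1))
      fun x hx => (hl x (hs 1 hx)).continuousAt
  · exact integrable_cut (hd I) (hc.of_isClosed_subset (isClosed_tsupport _) (hs I))
      fun x hx => (hl2 x (hs I hx)).continuousAt
  · exact integrable_cut hχ.continuous hc fun x hx => continuousAt_fderiv_apply (hl x hx) 1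
  · exact integrable_cut hχ.continuous hc fun x hx => continuousAt_fderiv_apply (hl2 x hx) I

omit [IsScalarTower ℝ ℂ V] in
/-- differentiation under the integral sign -/
theorem hasDerivAt_area (hD : IsOpen D) (hχ : Continuous χ) (hc : HasCompactSupport χ)
    (hT : ∀ x ∈ D, ContDiffAt ℝ 1 T x) {s₀ : ℝ} (hs : ∀ ζ ∈ tsupport χ, pos p v e s₀ ζ ∈ D) :
    HasDerivAt (fun s => ∫ ζ, χ ζ * T (pos p v e s ζ))
      (∫ ζ, χ ζ * fderiv ℝ T (pos p v e s₀ ζ) v) s₀ := by
  have hP : Continuous fun x : ℝ × ℂ => pos p v e x.1 x.2 := by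
    unfold pos; fun_prop
  -- an interval around `s₀`
  obtain ⟨U, W, hU, hW, hsU, hKW, hUW⟩ := generalized_tube_lemma (isCompact_singleton (x := s₀)) hc
    (hD.preimage hP) (by
      rintro ⟨s, ζ⟩ ⟨hs', hζ⟩
      rw [mem_singleton_iff] at hs'
      subst hs'
      exact hs ζ hζ)
  obtain ⟨ε, hε, hεU⟩ := Metric.nhds_basis_closedBall.mem_iff.1
    (hU.mem_nhds (hsU (mem_singleton s₀)))
  have hin : ∀ s ∈ closedBall s₀ ε, ∀ ζ ∈ tsupport χ, pos p v e s ζ ∈ D := fun s hs' ζ hζ =>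
    hUW (mk_mem_prod (hεU hs') (hKW hζ))
  -- a bound for the derivative
  have hcF : ContinuousOn (fun x : ℝ × ℂ => fderiv ℝ T (pos p v e x.1 x.2) v)
      (closedBall s₀ ε ×ˢ tsupport χ) := by
    intro x hx
    have h1 := continuousAt_fderiv_apply (hT _ (hin x.1 hx.1 x.2 hx.2)) v
    exact (ContinuousAt.comp (f := fun x : ℝ × ℂ => pos p v e x.1 x.2) h1
      hP.continuousAt).continuousWithinAt
  obtain ⟨M, hM⟩ := ((isCompact_closedBall s₀ ε).prod hc).exists_bound_of_continuousOn hcF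
  have hdv : ∀ ζ s, HasDerivAt (fun s => pos p v e s ζ) v s := by
    intro ζ s
    unfold pos
    have := ((hasDerivAt_id s).smul_const v).const_add p |>.add_const (ζ • e)
    simpa using this
  refine (hasDerivAt_integral_of_dominated_loc_of_deriv_le (μ := volume)
    (F := fun s ζ => χ ζ * T (pos p v e s ζ))
    (F' := fun s ζ => χ ζ * fderiv ℝ T (pos p v e s ζ) v)
    (bound := fun ζ => |χ ζ| * M) (closedBall_mem_nhds s₀ hε) ?_ ?_ ?_ ?_ ?_ ?_).2
  · filter_upwards [closedBall_mem_nhds s₀ hε] with s hs'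
    refine (cont_cut hχ fun ζ hζ => ?_).aestronglyMeasurable
    exact ContinuousAt.comp (f := fun ζ : ℂ => pos p v e s ζ)
      (hT _ (hin s hs' ζ hζ)).continuousAt
      (hP.comp (continuous_const.prodMk continuous_id)).continuousAt
  · refine integrable_cut hχ hc fun ζ hζ => ?_
    exact ContinuousAt.comp (f := fun ζ : ℂ => pos p v e s₀ ζ)
      (hT _ (hin s₀ (mem_closedBall_self hε.le) ζ hζ)).continuousAt
      (hP.comp (continuous_const.prodMk continuous_id)).continuousAt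
  · refine (cont_cut hχ fun ζ hζ => ?_).aestronglyMeasurable
    exact ContinuousAt.comp (f := fun ζ : ℂ => pos p v e s₀ ζ)
      (continuousAt_fderiv_apply (hT _ (hin s₀ (mem_closedBall_self hε.le) ζ hζ)) v)
      (hP.comp (continuous_const.prodMk continuous_id)).continuousAt
  · refine ae_of_all _ fun ζ s hs' => ?_
    by_cases hζ : ζ ∈ tsupport χ
    · rw [norm_mul, Real.norm_eq_abs (χ ζ)]
      exact mul_le_mul_of_nonneg_left (hM (s, ζ) ⟨hs', hζ⟩) (abs_nonneg _)
    · rw [image_eq_zero_of_notMem_tsupport hζ]; simp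
  · refine ((hχ.abs).mul continuous_const).integrable_of_hasCompactSupport ?_
    exact (HasCompactSupport.comp_left hc (g := fun x : ℝ => |x|) abs_zero).mul_right
  · refine ae_of_all _ fun ζ s hs' => ?_
    by_cases hζ : ζ ∈ tsupport χ
    · have h1 := ((hT _ (hin s hs' ζ hζ)).differentiableAt one_ne_zero).hasFDerivAt
      exact (h1.comp_hasDerivAt s (hdv ζ s)).const_mul (χ ζ)
    · rw [image_eq_zero_of_notMem_tsupport hζ]
      simpa using hasDerivAt_const s (0 : ℝ)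

/-- **variation of the area** -/
theorem area_sub_le (hD : IsOpen D) (hχ : ContDiff ℝ 1 χ) (hc : HasCompactSupport χ)
    (hT : ∀ x ∈ D, ContDiffAt ℝ 1 T x)
    (h1 : ∀ x ∈ D, ContDiffAt ℝ 1 b₁ x) (h2 : ∀ x ∈ D, ContDiffAt ℝ 1 b₂ x)
    (hcl : ∀ x ∈ D, fderiv ℝ T x v = fderiv ℝ b₁ x e + fderiv ℝ b₂ x (I • e))
    (hs : ∀ s ∈ Icc (0 : ℝ) 1, ∀ ζ ∈ tsupport χ, p + s • v + ζ • e ∈ D)
    (hB : ∀ s ∈ Icc (0 : ℝ) 1, ∀ ζ, fderiv ℝ χ ζ ≠ 0 →
      |b₁ (p + s • v + ζ • e)| ≤ B ∧ |b₂ (p + s • v + ζ • e)| ≤ B) :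
    |(∫ ζ, χ ζ * T (p + v + ζ • e)) - ∫ ζ, χ ζ * T (p + ζ • e)| ≤
      B * ∫ ζ, 2 * ‖fderiv ℝ χ ζ‖ := by
  have hcd : Continuous fun ζ => ‖fderiv ℝ χ ζ‖ := (hχ.continuous_fderiv one_ne_zero).norm
  have key := norm_image_sub_le_of_norm_deriv_le_segment_01'
    (f := fun s : ℝ => ∫ ζ, χ ζ * T (pos p v e s ζ))
    (f' := fun s => ∫ ζ, χ ζ * fderiv ℝ T (pos p v e s ζ) v)
    (C := B * ∫ ζ, 2 * ‖fderiv ℝ χ ζ‖)
    (fun s hs' => (hasDerivAt_area hD hχ.continuous hc hT (hs s hs')).hasDerivWithinAt) ?_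
  · have e1 : ∀ ζ, pos p v e 1 ζ = p + v + ζ • e := by intro ζ; simp [pos]
    have e0 : ∀ ζ, pos p v e 0 ζ = p + ζ • e := by intro ζ; simp [pos]
    simp only [e1, e0] at key
    exact key
  · intro s hs'
    have hs'' : s ∈ Icc (0 : ℝ) 1 := Ico_subset_Icc_self hs'
    have := deriv_area_eq (T := T) (v := v) (q := p + s • v) hχ hc (hs s hs'') h1 h2 hcl
    show ‖∫ ζ, χ ζ * fderiv ℝ T (p + s • v + ζ • e) v‖ ≤ _
    rw [this, norm_neg, ← integral_const_mul]
    refine norm_integral_le_of_norm_le ?_ (ae_of_all _ fun ζ => ?_)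
    · refine ((continuous_const.mul hcd).const_smul B |>.integrable_of_hasCompactSupport ?_)
      refine HasCompactSupport.smul_left ?_
      refine HasCompactSupport.mul_left ?_
      exact (hc.fderiv (𝕜 := ℝ)).norm
    · rcases eq_or_ne (fderiv ℝ χ ζ) 0 with h0 | h0
      · simp [h0]
      · obtain ⟨hb1, hb2⟩ := hB s hs'' ζ h0
        have hB0 : 0 ≤ B := (abs_nonneg _).trans hb1
        have n1 : |fderiv ℝ χ ζ 1| ≤ ‖fderiv ℝ χ ζ‖ := by
          have := (fderiv ℝ χ ζ).le_opNorm 1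
          simpa using this
        have n2 : |fderiv ℝ χ ζ I| ≤ ‖fderiv ℝ χ ζ‖ := by
          have := (fderiv ℝ χ ζ).le_opNorm I
          simpa using this
        rw [Real.norm_eq_abs]
        calc |fderiv ℝ χ ζ 1 * b₁ (p + s • v + ζ • e) + fderiv ℝ χ ζ I * b₂ (p + s • v + ζ • e)|
            ≤ |fderiv ℝ χ ζ 1| * |b₁ (p + s • v + ζ • e)| +
              |fderiv ℝ χ ζ I| * |b₂ (p + s • v + ζ • e)| := by
              rw [← abs_mul, ← abs_mul]; exact abs_add_le _ _
          _ ≤ ‖fderiv ℝ χ ζ‖ * B + ‖fderiv ℝ χ ζ‖ * B := by gcongr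
          _ = B * (2 * ‖fderiv ℝ χ ζ‖) := by ring

end

end Vale.Agent.P277.TD
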