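import Vale.Agent.P277.H762.CL1

/-!
# P277, task CL: the local structure of a hypersurface over the good set
-/

open scoped Manifold ContDiff Topology
open Vale.Agent.P272.K Set Filter Metric MeasureTheory
open Vale.Agent.P277.H335

noncomputable section

namespace Vale.Agent.P277.H762

section basic

variable {V : Type*} [NormedAddCommGroup V] [NormedSpace ℂ V]

/-- `h` is a local equation of the smooth hypersurface `E` at `p`. -/
def LEq (E : Set V) (p : V) (h : V → ℂ) : Prop :=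
  AnalyticAt ℂ h p ∧ fderiv ℂ h p ≠ 0 ∧ ∀ᶠ z in 𝓝 p, (z ∈ E ↔ h z = 0)

/-- `E` is smooth at `p` and transversal to the direction `v`. -/
def TrD (v : V) (E : Set V) (p : V) : Prop :=
  ∃ h : V → ℂ, AnalyticAt ℂ h p ∧ fderiv ℂ h p v ≠ 0 ∧ ∀ᶠ z in 𝓝 p, (z ∈ E ↔ h z = 0)

theorem LEq.eventually {E : Set V} {p : V} {h : V → ℂ} (hh : LEq E p h) :
    ∀ᶠ z in 𝓝 p, LEq E z h := by
  have h1 : ∀ᶠ z in 𝓝 p, AnalyticAt ℂ h z := hh.1.eventually_analyticAt
  have h2 : ∀ᶠ z in 𝓝 p, fderiv ℂ h z ≠ 0 := hh.1.fderiv.continuousAt.eventually_ne hh.2.1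
  have h3 : ∀ᶠ z in 𝓝 p, ∀ᶠ w in 𝓝 z, (w ∈ E ↔ h w = 0) := eventually_eventually_nhds.2 hh.2.2
  filter_upwards [h1, h2, h3] with z a b c using ⟨a, b, c⟩

theorem TrD.eventually {v : V} {E : Set V} {p : V} (hh : TrD v E p) :
    ∀ᶠ z in 𝓝 p, TrD v E z := by
  obtain ⟨h, hh, hd, hE⟩ := hh
  have h1 : ∀ᶠ z in 𝓝 p, AnalyticAt ℂ h z := hh.eventually_analyticAt
  have h2 : ∀ᶠ z in 𝓝 p, fderiv ℂ h z v ≠ 0 := by
    have h4 : ContinuousAt (fun z => fderiv ℂ h z v) p :=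
      hh.fderiv.continuousAt.clm_apply continuousAt_const
    exact h4.eventually_ne hd
  have h3 : ∀ᶠ z in 𝓝 p, ∀ᶠ w in 𝓝 z, (w ∈ E ↔ h w = 0) := eventually_eventually_nhds.2 hE
  filter_upwards [h1, h2, h3] with z a b c using ⟨h, a, b, c⟩

theorem TrD.leq {v : V} {E : Set V} {p : V} (hh : TrD v E p) : ∃ h, LEq E p h := by
  obtain ⟨h, hh, hd, hE⟩ := hh
  refine ⟨h, hh, fun h0 => hd ?_, hE⟩
  rw [h0]; rfl

variable [FiniteDimensional ℂ V]

theorem trD_ne {n : ℕ} (hV : Module.finrank ℂ V = n + 1) {v : V} {E : Set V} {p : V} (hp : p ∈ E)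
    (hT : TrD v E p) {h : V → ℂ} (hh : LEq E p h) : fderiv ℂ h p v ≠ 0 := by
  obtain ⟨k, hk, hkd, hkE⟩ := hT
  have hkd' : fderiv ℂ k p ≠ 0 := by
    intro h0
    apply hkd
    rw [h0]; rfl
  obtain ⟨u, hu, hu0, huv⟩ := exists_div_unit hV hk hkd' (hkE.self_of_nhds.1 hp) hh.1 hh.2.1 (by
    filter_upwards [hkE, hh.2.2] with z a b c using b.1 (a.2 c))
  have h1 : h =ᶠ[𝓝 p] fun z => k z * u z := huv
  rw [h1.fderiv_eq, fderiv_fun_mul hk.differentiableAt hu.differentiableAt]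
  show k p * fderiv ℂ u p v + u p * fderiv ℂ k p v ≠ 0
  rw [hkE.self_of_nhds.1 hp, zero_mul, zero_add]
  exact mul_ne_zero hu0 hkd

end basic

section graph

variable {Y : Type*} [NormedAddCommGroup Y] [NormedSpace ℂ Y] [FiniteDimensional ℂ Y]

theorem tr_graph {E : Set (Y × ℂ)} {p : Y × ℂ} (hp : p ∈ E) (hT : TrD (0, 1) E p) :
    ∃ g : Y → ℂ, AnalyticAt ℂ g p.1 ∧ g p.1 = p.2 ∧ ∀ᶠ z in 𝓝 p, (z ∈ E ↔ z.2 = g z.1) := by
  have : CompleteSpace Y := FiniteDimensional.complete ℂ Y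
  obtain ⟨h, hh, hd, hE⟩ := hT
  set F : Y × ℂ → Y × ℂ := fun z => (z.1, h z) with hF
  have hFa : AnalyticAt ℂ F p := analyticAt_fst.prod hh
  set L : (Y × ℂ) →L[ℂ] (Y × ℂ) := (ContinuousLinearMap.fst ℂ Y ℂ).prod (fderiv ℂ h p) with hL
  have hLF : fderiv ℂ F p = L := by
    have h1 : HasFDerivAt F ((ContinuousLinearMap.fst ℂ Y ℂ).prod (fderiv ℂ h p)) p :=
      hasFDerivAt_fst.prodMk hh.differentiableAt.hasFDerivAt
    exact h1.fderiv
  have hinj : Function.Injective (L : (Y × ℂ) →ₗ[ℂ] (Y × ℂ)) := by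
    rw [injective_iff_map_eq_zero]
    rintro ⟨a, b⟩ hab
    have h1 : a = 0 := congrArg Prod.fst hab
    have h2 : fderiv ℂ h p (a, b) = 0 := congrArg Prod.snd hab
    subst h1
    have h3 : ((0 : Y), b) = b • ((0 : Y), (1 : ℂ)) := by simp
    rw [h3, map_smul, smul_eq_mul] at h2
    rw [(mul_eq_zero.1 h2).resolve_right hd]
    rfl
  let i : (Y × ℂ) ≃L[ℂ] (Y × ℂ) := (LinearEquiv.ofInjectiveEndo _ hinj).toContinuousLinearEquiv
  have hi : (i : (Y × ℂ) →L[ℂ] (Y × ℂ)) = fderiv ℂ F p := by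
    rw [hLF]
    exact ContinuousLinearMap.ext fun v => rfl
  obtain ⟨e, he, hps, h1, h2⟩ := exists_localInvV hFa i hi
  have hh0 : h p = 0 := hE.self_of_nhds.1 hp
  have hep : e p = (p.1, 0) := by rw [he, hF]; simp [hh0]
  have hpt : (p.1, (0 : ℂ)) ∈ e.target := by rw [← hep]; exact e.map_source hps
  have hsp : e.symm (p.1, 0) = p := by rw [← hep]; exact e.left_inv hps
  have hc : ContinuousAt (fun y : Y => (y, (0 : ℂ))) p.1 := by fun_prop
  refine ⟨fun y => (e.symm (y, 0)).2, ?_, ?_, ?_⟩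
  · have h3 : AnalyticAt ℂ (fun y : Y => (y, (0 : ℂ))) p.1 := analyticAt_id.prod analyticAt_const
    exact analyticAt_snd.comp_of_eq ((h2 _ hpt).comp_of_eq h3 rfl) rfl
  · show (e.symm (p.1, 0)).2 = p.2
    rw [hsp]
  · have h3 : ∀ᶠ z in 𝓝 p, (z.1, (0 : ℂ)) ∈ e.target := by
      have h4 : ContinuousAt (fun z : Y × ℂ => (z.1, (0 : ℂ))) p := by fun_prop
      exact h4.eventually (e.open_target.mem_nhds hpt)
    filter_upwards [hE, h3, e.open_source.mem_nhds hps] with z a b c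
    have h5 : (e.symm (z.1, 0)).1 = z.1 := by
      have h6 : (e (e.symm (z.1, 0))).1 = z.1 := by rw [e.right_inv b]
      rw [he] at h6
      exact h6
    rw [a]
    constructor
    · intro h7
      have h8 : e z = (z.1, 0) := by rw [he, hF]; simp [h7]
      rw [← h8, e.left_inv c]
    · intro h7
      have h8 : e.symm (z.1, 0) = z := Prod.ext h5 h7.symm
      have h9 : e z = (z.1, 0) := by
        rw [← h8, e.right_inv b, h8]
      rw [he] at h9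
      exact congrArg Prod.snd h9

end graph

/-! ### the situation -/

section sit

variable {Y : Type*} [NormedAddCommGroup Y] [NormedSpace ℂ Y]

/-- the hypotheses of the local theorem -/
structure Sit (m : ℕ) (B : Set Y) (D : Set ℂ) (Θ E : Set (Y × ℂ)) (r : ℝ) : Prop where
  hB : IsOpen B
  hD : IsOpen D
  hr : 0 < r
  hrD : closedBall 0 r ⊆ D
  hΘ : IsOpen ((B ×ˢ D) \ Θ)
  hE : IsOpen ((B ×ˢ D) \ (E ∪ Θ))
  hdis : ∀ p ∈ B ×ˢ D, p ∈ E → p ∉ Θ
  hcirc : ∀ y ∈ B, ∀ t : ℂ, ‖t‖ = r → (y, t) ∉ E ∪ Θ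
  heq : ∀ p ∈ B ×ˢ D, p ∈ E → ∃ h, LEq E p h
  htr : ∀ p ∈ B ×ˢ D, p ∈ E → ∃ᶠ z in 𝓝 p, z ∈ E ∧ TrD (0, 1) E z
  hcv : Cv m (B ×ˢ D ∩ Θ)

/-- the bad points -/
def bad (Θ E : Set (Y × ℂ)) : Set (Y × ℂ) := Θ ∪ {p | p ∈ E ∧ ¬ TrD (0, 1) E p}

/-- the projection of the bad points -/
def bT (Θ E : Set (Y × ℂ)) (r : ℝ) : Set Y := {y | ∃ t, ‖t‖ ≤ r ∧ (y, t) ∈ bad Θ E}

/-- the fibres -/
def fib (E : Set (Y × ℂ)) (r : ℝ) (y : Y) : Set ℂ := {t | ‖t‖ ≤ r ∧ (y, t) ∈ E}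

variable {m : ℕ} {B : Set Y} {D : Set ℂ} {Θ E : Set (Y × ℂ)} {r : ℝ}

theorem Sit.open_bad (S : Sit m B D Θ E r) : IsOpen ((B ×ˢ D) \ bad Θ E) := by
  rw [isOpen_iff_mem_nhds]
  rintro p ⟨hp, hpb⟩
  have hpΘ : p ∉ Θ := fun h => hpb (Or.inl h)
  by_cases hpE : p ∈ E
  · have hT : TrD (0, 1) E p := by
      by_contra h
      exact hpb (Or.inr ⟨hpE, h⟩)
    filter_upwards [S.hΘ.mem_nhds ⟨hp, hpΘ⟩, hT.eventually] with z a b
    refine ⟨a.1, ?_⟩
    rintro (h | h)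
    · exact a.2 h
    · exact h.2 b
  · filter_upwards [S.hE.mem_nhds ⟨hp, fun h => h.elim hpE hpΘ⟩] with z a
    refine ⟨a.1, ?_⟩
    rintro (h | h)
    · exact a.2 (Or.inr h)
    · exact a.2 (Or.inl h.1)

theorem Sit.open_bT (S : Sit m B D Θ E r) : IsOpen (B \ bT Θ E r) := by
  rw [isOpen_iff_mem_nhds]
  rintro y ⟨hy, hyT⟩
  obtain ⟨U, W, hU, hW, hyU, hrW, hUW⟩ := generalized_tube_lemma (s := {y})
    (t := closedBall (0 : ℂ) r) isCompact_singleton (isCompact_closedBall 0 r) S.open_bad (by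
      rintro ⟨y', t⟩ ⟨hy', ht⟩
      simp only [mem_singleton_iff] at hy'
      subst hy'
      exact ⟨⟨hy, S.hrD ht⟩, fun hb => hyT ⟨t, by simpa using ht, hb⟩⟩)
  filter_upwards [hU.mem_nhds (hyU rfl), S.hB.mem_nhds hy] with y' a b
  refine ⟨b, ?_⟩
  rintro ⟨t, ht, hb⟩
  have h1 : (y', t) ∈ U ×ˢ W := ⟨a, hrW (by simpa using ht)⟩
  exact (hUW h1).2 hb

theorem Sit.norm_lt (S : Sit m B D Θ E r) {y : Y} (hy : y ∈ B) {t : ℂ} (ht : t ∈ fib E r y) :
    ‖t‖ < r :=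
  lt_of_le_of_ne ht.1 fun h0 => S.hcirc y hy t h0 (Or.inl ht.2)

variable [FiniteDimensional ℂ Y]

theorem Sit.fib_finite (S : Sit m B D Θ E r) {y : Y} (hy : y ∈ B \ bT Θ E r) :
    (fib E r y).Finite := by
  -- the fibre is compact
  have h1 : IsClosed (fib E r y) := by
    rw [← isOpen_compl_iff, isOpen_iff_mem_nhds]
    intro t ht
    by_cases htr : ‖t‖ ≤ r
    · have htE : (y, t) ∉ E := fun h => ht ⟨htr, h⟩
      have htΘ : (y, t) ∉ Θ := fun h => hy.2 ⟨t, htr, Or.inl h⟩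
      have h2 : (y, t) ∈ (B ×ˢ D) \ (E ∪ Θ) :=
        ⟨⟨hy.1, S.hrD (by simpa using htr)⟩, fun h => h.elim htE htΘ⟩
      have h3 : ContinuousAt (fun t : ℂ => (y, t)) t := by fun_prop
      filter_upwards [h3.eventually (S.hE.mem_nhds h2)] with t' a b
      exact a.2 (Or.inl b.2)
    · filter_upwards [(isOpen_lt continuous_const continuous_norm).mem_nhds
        (show t ∈ {t | r < ‖t‖} from not_le.1 htr)] with t' a b
      exact (not_le.2 a) b.1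
  have h2 : IsCompact (fib E r y) := by
    refine (isCompact_closedBall (0 : ℂ) r).of_isClosed_subset h1 fun t ht => ?_
    simpa using ht.1
  -- the points are isolated
  refine h2.finite ?_
  rw [isDiscrete_iff_discreteTopology, discreteTopology_subtype_iff]
  intro t ht
  have hT : TrD (0, 1) E (y, t) := by
    by_contra h
    exact hy.2 ⟨t, ht.1, Or.inr ⟨ht.2, h⟩⟩
  obtain ⟨g, hg, hgt, hE⟩ := tr_graph ht.2 hT
  have h3 : ContinuousAt (fun t : ℂ => (y, t)) t := by fun_prop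
  have h4 := h3.eventually hE
  rw [← Filter.empty_mem_iff_bot, mem_inf_iff]
  refine ⟨{t' | (y, t') ∈ E ↔ t' = g y} ∩ {t}ᶜ,
    inter_mem (mem_nhdsWithin_of_mem_nhds h4) self_mem_nhdsWithin, fib E r y,
    mem_principal_self _, ?_⟩
  ext t'
  constructor
  · intro h; exact h.elim
  · rintro ⟨⟨h5, h6⟩, h7⟩
    apply h6
    have h8 : t' = g y := h5.1 h7.2
    rw [h8]
    exact hgt

/-- the local structure over a good point -/
theorem Sit.local_str (S : Sit m B D Θ E r) {y : Y} (hy : y ∈ B \ bT Θ E r) :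
    ∃ (s : Finset ℂ) (g : ℂ → Y → ℂ), (∀ i ∈ s, AnalyticAt ℂ (g i) y) ∧
      ∀ᶠ y' in 𝓝 y, Set.InjOn (fun i => g i y') (s : Set ℂ) ∧
        fib E r y' = (fun i => g i y') '' (s : Set ℂ) := by
  classical
  set s : Finset ℂ := (S.fib_finite hy).toFinset with hs
  have hmem : ∀ t, t ∈ s ↔ t ∈ fib E r y := fun t => by simp [hs]
  have hg : ∀ t ∈ s, ∃ g : Y → ℂ, AnalyticAt ℂ g y ∧ g y = t ∧
      ∀ᶠ z : Y × ℂ in 𝓝 (y, t), (z ∈ E ↔ z.2 = g z.1) := by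
    intro t ht
    rw [hmem] at ht
    have hT : TrD (0, 1) E (y, t) := by
      by_contra h
      exact hy.2 ⟨t, ht.1, Or.inr ⟨ht.2, h⟩⟩
    exact tr_graph ht.2 hT
  choose! g hga hgt hgE using hg
  -- product neighbourhoods
  have hN : ∀ t ∈ s, ∃ (N : Set Y) (W : Set ℂ), IsOpen N ∧ y ∈ N ∧ IsOpen W ∧ t ∈ W ∧
      W ⊆ ball 0 r ∧ ∀ y' ∈ N, ∀ t' ∈ W, ((y', t') ∈ E ↔ t' = g t y') := by
    intro t ht
    have h1 : {z : Y × ℂ | z ∈ E ↔ z.2 = g t z.1} ∈ 𝓝 (y, t) := hgE t ht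
    rw [mem_nhds_prod_iff'] at h1
    obtain ⟨N, W, hN, hyN, hW, htW, hNW⟩ := h1
    refine ⟨N, W ∩ ball 0 r, hN, hyN, hW.inter isOpen_ball, ⟨htW, ?_⟩, inter_subset_right, ?_⟩
    · rw [mem_ball_zero_iff]
      exact S.norm_lt hy.1 ((hmem t).1 ht)
    · intro y' hy' t' ht'
      exact hNW (show (y', t') ∈ N ×ˢ W from ⟨hy', ht'.1⟩)
  choose! N W hNo hyN hWo htW hWr hNW using hN
  -- the complement
  set K : Set ℂ := closedBall 0 r \ ⋃ t ∈ s, W t with hK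
  have hKc : IsCompact K := (isCompact_closedBall 0 r).diff
    (isOpen_biUnion fun t ht => hWo t ht)
  obtain ⟨U0, W0, hU0, hW0, hyU0, hKW0, hUW0⟩ := generalized_tube_lemma (s := {y}) (t := K)
    isCompact_singleton hKc S.hE (by
      rintro ⟨y', t⟩ ⟨hy', ht⟩
      simp only [mem_singleton_iff] at hy'
      subst hy'
      have htr : ‖t‖ ≤ r := by simpa using ht.1
      refine ⟨⟨hy.1, S.hrD ht.1⟩, ?_⟩
      rintro (h | h)
      · have h1 : t ∈ s := (hmem t).2 ⟨htr, h⟩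
        exact ht.2 (mem_iUnion₂.2 ⟨t, h1, htW t h1⟩)
      · exact hy.2 ⟨t, htr, Or.inl h⟩)
  refine ⟨s, g, hga, ?_⟩
  have e1 : ∀ᶠ y' in 𝓝 y, y' ∈ U0 := hU0.mem_nhds (hyU0 rfl)
  have e2 : ∀ᶠ y' in 𝓝 y, ∀ t ∈ s, y' ∈ N t ∧ g t y' ∈ W t := by
    refine (Finset.eventually_all s).2 fun t ht => ?_
    have h1 : ∀ᶠ y' in 𝓝 y, g t y' ∈ W t := by
      refine (hga t ht).continuousAt.eventually ((hWo t ht).mem_nhds ?_)
      rw [hgt t ht]
      exact htW t ht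
    filter_upwards [(hNo t ht).mem_nhds (hyN t ht), h1] with y' a b using ⟨a, b⟩
  have e3 : ∀ᶠ y' in 𝓝 y, ∀ t ∈ s, ∀ t' ∈ s, t ≠ t' → g t y' ≠ g t' y' := by
    refine (Finset.eventually_all s).2 fun t ht => (Finset.eventually_all s).2 fun t' ht' => ?_
    by_cases htt : t = t'
    · exact Eventually.of_forall fun y' h => (h htt).elim
    · have h1 : ContinuousAt (fun y' => g t y' - g t' y') y :=
        (hga t ht).continuousAt.sub (hga t' ht').continuousAt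
      have h2 : g t y - g t' y ≠ 0 := by
        rw [hgt t ht, hgt t' ht']
        exact sub_ne_zero.2 htt
      filter_upwards [h1.eventually_ne h2] with y' a _
      exact sub_ne_zero.1 a
  filter_upwards [e1, e2, e3] with y' a b c
  refine ⟨?_, ?_⟩
  · intro t ht t' ht' htt
    by_contra hne
    exact c t ht t' ht' hne htt
  · ext t
    constructor
    · rintro ⟨htr, htE⟩
      by_cases htK : t ∈ K
      · exact ((hUW0 (show (y', t) ∈ U0 ×ˢ W0 from ⟨a, hKW0 htK⟩)).2 (Or.inl htE)).elim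
      · have h1 : t ∈ ⋃ t ∈ s, W t := by
          by_contra h2
          exact htK ⟨by simpa using htr, h2⟩
        obtain ⟨t0, ht0, htW0⟩ := mem_iUnion₂.1 h1
        exact ⟨t0, ht0, ((hNW t0 ht0 y' (b t0 ht0).1 t htW0).1 htE).symm⟩
    · rintro ⟨t0, ht0, rfl⟩
      have h1 := (b t0 ht0).2
      refine ⟨?_, ?_⟩
      · have h2 := hWr t0 ht0 h1
        rw [mem_ball_zero_iff] at h2
        exact h2.le
      · exact (hNW t0 ht0 y' (b t0 ht0).1 _ h1).2 rfl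

end sit

end Vale.Agent.P277.H762
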