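import Vale.Agent.P277.H762.CL2

/-!
# P277, task CL: the Weierstrass polynomial of a hypersurface
-/

open scoped Manifold ContDiff Topology
open Vale.Agent.P272.K Set Filter Metric MeasureTheory
open Vale.Agent.P277.H335

noncomputable section

namespace Vale.Agent.P277.H762

section cv

variable {Y : Type*} [NormedAddCommGroup Y] [NormedSpace ℂ Y]

theorem cv_prod {m : ℕ} {T : Set Y} (hT : Cv m T) : Cv (m + 1) (T ×ˢ (univ : Set ℂ)) := by
  obtain ⟨Ω, g, h1, h2, h3⟩ := hT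
  refine ⟨fun l => ini m ⁻¹' Ω l, fun l p => (g l (ini m p), lst m p),
    fun l => (h1 l).preimage (ini m).continuous,
    fun l p hp => ((h2 l _ hp).comp_of_eq ((ini m).analyticAt p) rfl).prod ((lst m).analyticAt p),
    ?_⟩
  rintro ⟨y, t⟩ ⟨hy, -⟩
  obtain ⟨l, q, hq, hqx⟩ := mem_iUnion.1 (h3 hy)
  refine mem_iUnion.2 ⟨l, Fin.snoc q t, ?_, ?_⟩
  · show ini m _ ∈ Ω l
    rw [ini_snoc]; exact hq
  · show (g l (ini m _), lst m _) = (y, t)
    rw [ini_snoc, lst_snoc, hqx]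

variable [FiniteDimensional ℂ Y] {m : ℕ} {B : Set Y} {D : Set ℂ} {Θ E : Set (Y × ℂ)} {r : ℝ}

/-- the critical points are thin -/
theorem Sit.cv_crit (S : Sit m B D Θ E r) (hY : Module.finrank ℂ Y = m + 1) :
    Cv m {p | p ∈ B ×ˢ D ∧ p ∈ E ∧ ¬ TrD (0, 1) E p} := by
  have hV : Module.finrank ℂ (Y × ℂ) = (m + 1) + 1 := by
    rw [Module.finrank_prod, Module.finrank_self, hY]
  have hsec : SecondCountableTopology (Y × ℂ) := by
    have : ProperSpace (Y × ℂ) := FiniteDimensional.proper ℂ (Y × ℂ)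
    exact secondCountable_of_proper
  refine cv_of_local fun p hp => ?_
  obtain ⟨h, hh⟩ := S.heq p hp.1 hp.2.1
  obtain ⟨e, hps, h1, h2, h3⟩ := exists_straight hV hh.1 hh.2.1
  have hBD : IsOpen (B ×ˢ D) := S.hB.prod S.hD
  have hN1 : ∀ᶠ z in 𝓝 p, LEq E z h ∧ z ∈ B ×ˢ D ∧ z ∈ e.source := by
    filter_upwards [hh.eventually, hBD.mem_nhds hp.1, e.open_source.mem_nhds hps] with z a b c
      using ⟨a, b, c⟩
  obtain ⟨N, hN, hNo, hpN⟩ := _root_.eventually_nhds_iff.1 hN1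
  set W : Set (Cm (m + 1)) := {q | ((0 : ℂ), q) ∈ e.target ∧ e.symm ((0 : ℂ), q) ∈ N} with hW
  have hc : Continuous fun q : Cm (m + 1) => ((0 : ℂ), q) := by fun_prop
  have hWo : IsOpen W := by
    have h4 : W = (fun q : Cm (m + 1) => ((0 : ℂ), q)) ⁻¹' (e.target ∩ e.symm ⁻¹' N) := rfl
    rw [h4]
    exact (e.isOpen_inter_preimage_symm hNo).preimage hc
  have hsa : ∀ q ∈ W, AnalyticAt ℂ (fun q : Cm (m + 1) => e.symm ((0 : ℂ), q)) q := by
    intro q hq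
    have h4 : AnalyticAt ℂ (fun q : Cm (m + 1) => ((0 : ℂ), q)) q :=
      analyticAt_const.prod analyticAt_id
    exact (h2 _ hq.1).comp_of_eq h4 rfl
  set κ : Cm (m + 1) → ℂ := fun q => fderiv ℂ h (e.symm ((0 : ℂ), q)) (0, 1) with hκ
  have hκa : ∀ q ∈ W, AnalyticAt ℂ κ q := by
    intro q hq
    have h4 : AnalyticAt ℂ (fun z => fderiv ℂ h z ((0 : Y), (1 : ℂ))) (e.symm ((0 : ℂ), q)) := by
      have h5 := (hN _ hq.2).1.1.fderiv
      exact ((ContinuousLinearMap.apply ℂ ℂ ((0 : Y), (1 : ℂ))).analyticAt _).comp h5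
    exact h4.comp_of_eq (hsa q hq) rfl
  have hh0 : ∀ q ∈ W, h (e.symm ((0 : ℂ), q)) = 0 := by
    intro q hq
    rw [← h3, e.right_inv hq.1]
  have hκ0 : ∀ q ∈ W, ¬ κ =ᶠ[𝓝 q] 0 := by
    intro q hq hzero
    set z0 := e.symm ((0 : ℂ), q) with hz0
    have hz0N := hN _ hq.2
    have hz0E : z0 ∈ E := hz0N.1.2.2.self_of_nhds.2 (hh0 q hq)
    have hez0 : (e z0).2 = q := by rw [hz0, e.right_inv hq.1]
    have h4 : ContinuousAt (fun z => (e z).2) z0 :=
      ContinuousAt.snd (h1 _ hz0N.2.2).continuousAt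
    have h5 : ∀ᶠ z in 𝓝 z0, κ (e z).2 = 0 := by
      have h6 : ∀ᶠ q' in 𝓝 ((fun z => (e z).2) z0), κ q' = 0 := by
        show ∀ᶠ q' in 𝓝 (e z0).2, κ q' = 0
        rw [hez0]; exact hzero
      exact h4.eventually h6
    have hNev : ∀ᶠ z in 𝓝 z0, z ∈ N := hNo.mem_nhds hq.2
    obtain ⟨z, ⟨hzE, hzT⟩, hzN, hzκ⟩ := ((S.htr z0 hz0N.2.1 hz0E).and_eventually
      (hNev.and h5)).exists
    have h6 := trD_ne hV hzE hzT (hN z hzN).1
    have h7 : h z = 0 := (hN z hzN).1.2.2.self_of_nhds.1 hzE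
    have h8 : ((0 : ℂ), (e z).2) = e z := Prod.ext (by rw [h3, h7]) rfl
    apply h6
    have h9 : κ (e z).2 = fderiv ℂ h (e.symm ((0 : ℂ), (e z).2)) (0, 1) := rfl
    rw [h9, h8, e.left_inv (hN z hzN).2.2] at hzκ
    exact hzκ
  obtain ⟨W', g', hW'o, hg', hcov⟩ := Vale.Agent.P277.H622.stB1 m W κ hWo hκa hκ0
  have hcv : Cv m {q | q ∈ W ∧ κ q = 0} := ⟨W', g', hW'o, fun k q hq => (hg' k q hq).1, hcov⟩
  refine ⟨N, hNo.mem_nhds hpN, (hcv.image hWo (fun q hq => hq.1) hsa).mono ?_⟩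
  rintro z ⟨hzN, hzBD, hzE, hzT⟩
  have h7 : h z = 0 := (hN z hzN).1.2.2.self_of_nhds.1 hzE
  have h8 : ((0 : ℂ), (e z).2) = e z := Prod.ext (by rw [h3, h7]) rfl
  have h9 : e.symm ((0 : ℂ), (e z).2) = z := by rw [h8, e.left_inv (hN z hzN).2.2]
  refine ⟨(e z).2, ⟨⟨?_, ?_⟩, ?_⟩, h9⟩
  · rw [h8]; exact e.map_source (hN z hzN).2.2
  · rw [h9]; exact hzN
  · show fderiv ℂ h (e.symm ((0 : ℂ), (e z).2)) (0, 1) = 0
    rw [h9]
    by_contra hne
    exact hzT ⟨h, (hN z hzN).1.1, hne, (hN z hzN).1.2.2⟩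

theorem Sit.cv_bT (S : Sit m B D Θ E r) (hY : Module.finrank ℂ Y = m + 1) :
    Cv m (B ∩ bT Θ E r) := by
  have h1 := S.hcv.union (S.cv_crit hY)
  refine (h1.image isOpen_univ (subset_univ _) (F := Prod.fst) fun z _ => analyticAt_fst).mono ?_
  rintro y ⟨hy, t, ht, hb⟩
  have hD : (y, t) ∈ B ×ˢ D := ⟨hy, S.hrD (by simpa using ht)⟩
  rcases hb with h | h
  · exact ⟨(y, t), Or.inl ⟨hD, h⟩, rfl⟩
  · exact ⟨(y, t), Or.inr ⟨hD, h.1, h.2⟩, rfl⟩

/-- the points of `E` over the bad set are thin -/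
theorem Sit.cv_over (S : Sit m B D Θ E r) (hY : Module.finrank ℂ Y = m + 1) :
    Cv m {p | p ∈ B ×ˢ D ∧ p ∈ E ∧ p.1 ∈ bT Θ E r} := by
  have hsec : SecondCountableTopology (Y × ℂ) := by
    have : ProperSpace (Y × ℂ) := FiniteDimensional.proper ℂ (Y × ℂ)
    exact secondCountable_of_proper
  have h1 : Cv m {p | p ∈ B ×ˢ D ∧ p ∈ E ∧ TrD (0, 1) E p ∧ p.1 ∈ bT Θ E r} := by
    refine cv_of_local fun p hp => ?_
    obtain ⟨g, hg, hgp, hE⟩ := tr_graph hp.2.1 hp.2.2.1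
    obtain ⟨O, hO, hOo, hpO⟩ := _root_.eventually_nhds_iff.1 hg.eventually_analyticAt
    have hN : {z : Y × ℂ | (z ∈ E ↔ z.2 = g z.1) ∧ z.1 ∈ O} ∈ 𝓝 p := by
      have h2 : ContinuousAt (fun z : Y × ℂ => z.1) p := by fun_prop
      filter_upwards [hE, h2.eventually (hOo.mem_nhds hpO)] with z a b using ⟨a, b⟩
    refine ⟨_, hN, ?_⟩
    have h2 : Cv m ((B ∩ bT Θ E r) ∩ O) := (S.cv_bT hY).mono inter_subset_left
    refine (h2.image hOo inter_subset_right (F := fun y => (y, g y))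
      fun y hy => analyticAt_id.prod (hO y hy)).mono ?_
    rintro z ⟨⟨hz1, hz2⟩, hz3, hz4, -, hz5⟩
    exact ⟨z.1, ⟨⟨hz3.1, hz5⟩, hz2⟩, Prod.ext rfl (hz1.1 hz4).symm⟩
  refine ((S.cv_crit hY).union h1).mono ?_
  rintro p ⟨hp1, hp2, hp3⟩
  by_cases hT : TrD (0, 1) E p
  · exact Or.inr ⟨hp1, hp2, hT, hp3⟩
  · exact Or.inl ⟨hp1, hp2, hT⟩

/-- the points of `E` over the good set are dense in `E` -/
theorem Sit.dense_over (S : Sit m B D Θ E r) (hY : Module.finrank ℂ Y = m + 1) {p : Y × ℂ}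
    (hp : p ∈ B ×ˢ D) (hpE : p ∈ E) : ∃ᶠ z in 𝓝 p, z ∈ E ∧ z.1 ∉ bT Θ E r := by
  have hBD : IsOpen (B ×ˢ D) := S.hB.prod S.hD
  rw [Filter.frequently_iff]
  intro U hU
  have hU' : interior U ∩ B ×ˢ D ∈ 𝓝 p := inter_mem (interior_mem_nhds.2 hU) (hBD.mem_nhds hp)
  obtain ⟨z, hzU, hzE, hzT⟩ := (Filter.frequently_iff.1 (S.htr p hp hpE)) hU'
  obtain ⟨g, hg, hgz, hE⟩ := tr_graph hzE hzT
  have h1 : ContinuousAt (fun y => (y, g y)) z.1 := continuousAt_id.prodMk hg.continuousAt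
  have h2 : (z.1, g z.1) = z := Prod.ext rfl hgz
  have h3 : ∀ᶠ y in 𝓝 z.1, (y, g y) ∈ interior U ∩ B ×ˢ D ∧ ((y, g y) ∈ E ↔ g y = g y) := by
    have h4 : ∀ᶠ w in 𝓝 ((fun y => (y, g y)) z.1), w ∈ interior U ∩ B ×ˢ D ∧
        (w ∈ E ↔ w.2 = g w.1) := by
      show ∀ᶠ w in 𝓝 (z.1, g z.1), _
      rw [h2]
      have h5 : ∀ᶠ w in 𝓝 z, w ∈ interior U ∩ B ×ˢ D := (isOpen_interior.inter hBD).mem_nhds hzU
      exact h5.and hE
    exact h1.eventually h4
  have h4 : z.1 ∈ closure (B \ bT Θ E r) := (S.cv_bT hY).mem_closure (by omega) S.hB hzU.2.1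
  obtain ⟨y, hy1, hy2⟩ := (mem_closure_iff_nhds.1 h4) _ h3
  exact ⟨(y, g y), interior_subset hy1.1.1, hy1.2.2 rfl, hy2.2⟩

/-- the number of points in the fibres is constant -/
theorem Sit.deg (S : Sit m B D Θ E r) (hY : Module.finrank ℂ Y = m + 1) (hBc : IsPreconnected B) :
    ∃ d : ℕ, ∀ y ∈ B \ bT Θ E r, (fib E r y).ncard = d := by
  classical
  rcases (B \ bT Θ E r).eq_empty_or_nonempty with hem | ⟨y0, hy0⟩
  · exact ⟨0, fun y hy => by rw [hem] at hy; exact hy.elim⟩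
  refine ⟨(fib E r y0).ncard, fun y hy => ?_⟩
  set f : Y → ℂ := fun y => if (fib E r y).ncard = (fib E r y0).ncard then 1 else -1 with hf
  have hloc : ∀ y ∈ B \ bT Θ E r, AnalyticAt ℂ f y := by
    intro y hy
    obtain ⟨s, g, hg, hev⟩ := S.local_str hy
    have h1 : ∀ᶠ y' in 𝓝 y, (fib E r y').ncard = s.card := by
      filter_upwards [hev] with y' a
      rw [a.2, a.1.ncard_image, Set.ncard_coe_finset]
    have h2 : f =ᶠ[𝓝 y] fun _ => f y := by
      filter_upwards [h1] with y' a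
      simp only [hf, a, h1.self_of_nhds]
    exact analyticAt_const.congr h2.symm
  have hfn : ∀ y, f y ^ 2 = 1 := by
    intro y
    simp only [hf]
    split_ifs <;> norm_num
  obtain ⟨F, hF, hFf⟩ := riemann_ext_cv hY S.hB S.open_bT (S.cv_bT hY) hloc fun z _ =>
    ⟨1, Eventually.of_forall fun w _ => by
      simp only [hf]
      split_ifs <;> simp⟩
  have hF2 : ∀ y ∈ B, F y ^ 2 = 1 := by
    intro y hy
    have h1 : y ∈ closure (B \ bT Θ E r) := (S.cv_bT hY).mem_closure (by omega) S.hB hy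
    have hne : (𝓝[B \ bT Θ E r] y).NeBot := mem_closure_iff_nhdsWithin_neBot.1 h1
    have h2 : Tendsto (fun w => F w ^ 2) (𝓝[B \ bT Θ E r] y) (𝓝 (F y ^ 2)) :=
      ((hF y hy).continuousAt.pow 2).mono_left nhdsWithin_le_nhds
    have h3 : Tendsto (fun w => F w ^ 2) (𝓝[B \ bT Θ E r] y) (𝓝 1) := by
      refine tendsto_const_nhds.congr' ?_
      filter_upwards [self_mem_nhdsWithin] with w hw
      rw [hFf w hw, hfn w]
    exact tendsto_nhds_unique h2 h3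
  have hFc : ContinuousOn F B := fun y hy => (hF y hy).continuousAt.continuousWithinAt
  have h1 := hBc.eq_one_or_eq_neg_one_of_sq_eq hFc (fun y hy => hF2 y hy)
  have h0 : F y0 = 1 := by
    rw [hFf y0 hy0]
    simp [hf]
  have h2 : F y = 1 := by
    rcases h1 with h1 | h1
    · exact h1 hy.1
    · have h3 : F y0 = -1 := h1 hy0.1
      rw [h0] at h3
      norm_num at h3
  rw [hFf y hy] at h2
  by_contra hne
  simp only [hf, if_neg hne] at h2
  norm_num at h2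

end cv

/-! ### the Weierstrass polynomial -/

section weier

variable {Y : Type*} [NormedAddCommGroup Y] [NormedSpace ℂ Y]
variable [FiniteDimensional ℂ Y] {m : ℕ} {B : Set Y} {D : Set ℂ} {Θ E : Set (Y × ℂ)} {r : ℝ}

/-- the Weierstrass polynomial -/
def wp (E : Set (Y × ℂ)) (r : ℝ) (z : Y × ℂ) : ℂ := ∏ᶠ s ∈ fib E r z.1, (z.2 - s)

theorem Sit.wp_eq (S : Sit m B D Θ E r) {z : Y × ℂ} (hz : z.1 ∈ B \ bT Θ E r) :
    wp E r z = ∏ s ∈ (S.fib_finite hz).toFinset, (z.2 - s) :=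
  finprod_mem_eq_finite_toFinset_prod _ _

theorem Sit.wp_loc (S : Sit m B D Θ E r) {y : Y} (hy : y ∈ B \ bT Θ E r) :
    ∃ (s : Finset ℂ) (g : ℂ → Y → ℂ), (∀ i ∈ s, AnalyticAt ℂ (g i) y) ∧
      (∀ᶠ y' in 𝓝 y, Set.InjOn (fun i => g i y') (s : Set ℂ) ∧
        fib E r y' = (fun i => g i y') '' (s : Set ℂ)) ∧
      ∀ᶠ y' in 𝓝 y, ∀ t, wp E r (y', t) = ∏ i ∈ s, (t - g i y') := by
  obtain ⟨s, g, hg, hev⟩ := S.local_str hy
  refine ⟨s, g, hg, hev, ?_⟩
  filter_upwards [hev] with y' a t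
  show ∏ᶠ s ∈ fib E r y', (t - s) = _
  rw [a.2, finprod_mem_image a.1, finprod_mem_coe_finset]

theorem Sit.wp_analytic (S : Sit m B D Θ E r) {z : Y × ℂ} (hz : z.1 ∈ B \ bT Θ E r) :
    AnalyticAt ℂ (wp E r) z := by
  obtain ⟨s, g, hg, -, hev⟩ := S.wp_loc hz
  have h1 : wp E r =ᶠ[𝓝 z] fun z => ∏ i ∈ s, (z.2 - g i z.1) := by
    have h2 : ContinuousAt (fun z : Y × ℂ => z.1) z := by fun_prop
    filter_upwards [h2.eventually hev] with z' a using a z'.2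
  refine AnalyticAt.congr ?_ h1.symm
  refine Finset.analyticAt_fun_prod _ fun i hi => ?_
  exact analyticAt_snd.sub ((hg i hi).comp_of_eq analyticAt_fst rfl)

theorem Sit.wp_le (S : Sit m B D Θ E r) {z : Y × ℂ} (hz : z.1 ∈ B \ bT Θ E r) {d : ℕ}
    (hd : (fib E r z.1).ncard = d) : ‖wp E r z‖ ≤ (‖z.2‖ + r) ^ d := by
  rw [S.wp_eq hz, norm_prod]
  have h1 : (S.fib_finite hz).toFinset.card = d := by
    rw [← hd, Set.ncard_eq_toFinset_card _ (S.fib_finite hz)]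
  rw [← h1, ← Finset.prod_const]
  refine Finset.prod_le_prod (fun _ _ => norm_nonneg _) fun s hs => ?_
  rw [Set.Finite.mem_toFinset] at hs
  exact (norm_sub_le _ _).trans (by linarith [hs.1])

theorem Sit.le_wp (S : Sit m B D Θ E r) {z : Y × ℂ} (hz : z.1 ∈ B \ bT Θ E r) {d : ℕ}
    (hd : (fib E r z.1).ncard = d) {ε : ℝ} (hε : 0 ≤ ε) (h : ∀ s ∈ fib E r z.1, ε ≤ ‖z.2 - s‖) :
    ε ^ d ≤ ‖wp E r z‖ := by
  rw [S.wp_eq hz, norm_prod]
  have h1 : (S.fib_finite hz).toFinset.card = d := by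
    rw [← hd, Set.ncard_eq_toFinset_card _ (S.fib_finite hz)]
  rw [← h1, ← Finset.prod_const]
  refine Finset.prod_le_prod (fun _ _ => hε) fun s hs => ?_
  rw [Set.Finite.mem_toFinset] at hs
  exact h s hs

theorem Sit.wp_zero (S : Sit m B D Θ E r) {z : Y × ℂ} (hz : z.1 ∈ B \ bT Θ E r)
    (h : z.2 ∈ fib E r z.1) : wp E r z = 0 := by
  rw [S.wp_eq hz]
  refine Finset.prod_eq_zero (i := z.2) ?_ (sub_self _)
  rw [Set.Finite.mem_toFinset]
  exact h

/-- the derivative of the Weierstrass polynomial at a simple root -/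
theorem Sit.wp_deriv (S : Sit m B D Θ E r) {z : Y × ℂ} (hz : z.1 ∈ B \ bT Θ E r)
    (h : z.2 ∈ fib E r z.1) : fderiv ℂ (wp E r) z ≠ 0 := by
  classical
  intro h0
  set F : Finset ℂ := (S.fib_finite hz).toFinset with hF
  have hzF : z.2 ∈ F := by rw [hF, Set.Finite.mem_toFinset]; exact h
  have h1 : HasDerivAt (fun t : ℂ => wp E r (z.1, t)) 0 z.2 := by
    have h2 : HasFDerivAt (wp E r) (fderiv ℂ (wp E r) z) (z.1, z.2) :=
      (S.wp_analytic hz).differentiableAt.hasFDerivAt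
    have h3 : HasDerivAt (fun t : ℂ => (z.1, t)) ((0 : Y), (1 : ℂ)) z.2 :=
      (hasDerivAt_const _ _).prodMk (hasDerivAt_id _)
    have h4 := h2.comp_hasDerivAt z.2 h3
    rw [h0] at h4
    exact h4
  have h2 : (fun t : ℂ => wp E r (z.1, t)) =
      fun t => (t - z.2) * ∏ s ∈ F.erase z.2, (t - s) := by
    funext t
    rw [S.wp_eq (z := (z.1, t)) hz]
    exact (Finset.mul_prod_erase _ _ hzF).symm
  rw [h2] at h1
  have h3 : HasDerivAt (fun t : ℂ => (t - z.2) * ∏ s ∈ F.erase z.2, (t - s))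
      (1 * ∏ s ∈ F.erase z.2, (z.2 - s) +
        (z.2 - z.2) * deriv (fun t : ℂ => ∏ s ∈ F.erase z.2, (t - s)) z.2) z.2 := by
    have h4 : DifferentiableAt ℂ (fun t : ℂ => ∏ s ∈ F.erase z.2, (t - s)) z.2 := by fun_prop
    exact ((hasDerivAt_id z.2).sub_const z.2).mul h4.hasDerivAt
  have h4 := h1.unique h3
  rw [sub_self, zero_mul, add_zero, one_mul] at h4
  have h5 : ∏ s ∈ F.erase z.2, (z.2 - s) ≠ 0 := by
    refine Finset.prod_ne_zero_iff.2 fun s hs => ?_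
    exact sub_ne_zero.2 (Finset.ne_of_mem_erase hs).symm
  exact h5 h4.symm

/-- **the local theorem in product coordinates** -/
theorem Sit.main (S : Sit m B D Θ E r) (hY : Module.finrank ℂ Y = m + 1)
    (hBc : IsPreconnected B) :
    ∃ G : Y × ℂ → ℂ, (∀ z, z.1 ∈ B → AnalyticAt ℂ G z) ∧
      (∀ z ∈ B ×ˢ ball (0 : ℂ) r, (z ∈ closure E ↔ G z = 0)) ∧
      ∀ z ∈ B ×ˢ ball (0 : ℂ) r, z ∈ E → fderiv ℂ G z ≠ 0 := by
  have hV : Module.finrank ℂ (Y × ℂ) = (m + 1) + 1 := by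
    rw [Module.finrank_prod, Module.finrank_self, hY]
  obtain ⟨d, hd⟩ := S.deg hY hBc
  set T := bT Θ E r with hT
  have hBo := S.hB
  have hbD : B ×ˢ ball (0 : ℂ) r ⊆ B ×ˢ D :=
    prod_mono subset_rfl (ball_subset_closedBall.trans S.hrD)
  have hBD : IsOpen (B ×ˢ D) := S.hB.prod S.hD
  have hbo : IsOpen (B ×ˢ ball (0 : ℂ) r) := S.hB.prod isOpen_ball
  -- the extension
  obtain ⟨G, hG, hGf⟩ := riemann_ext_cv (V := Y × ℂ) hV (Ω := B ×ˢ univ) (E := T ×ˢ univ)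
    (S.hB.prod isOpen_univ) (by
      have h1 : (B ×ˢ univ) \ (T ×ˢ univ) = (B \ T) ×ˢ (univ : Set ℂ) := by
        ext z
        simp
      rw [h1]
      exact S.open_bT.prod isOpen_univ) (by
      refine (cv_prod (S.cv_bT hY)).mono ?_
      rintro z ⟨h1, h2⟩
      exact ⟨⟨h1.1, h2.1⟩, mem_univ _⟩) (f := wp E r) (fun z hz =>
        S.wp_analytic ⟨hz.1.1, fun h => hz.2 ⟨h, mem_univ _⟩⟩) (fun z hz => by
      refine ⟨(‖z.2‖ + 1 + r) ^ d, ?_⟩
      have h1 : ∀ᶠ w : Y × ℂ in 𝓝 z, ‖w.2‖ < ‖z.2‖ + 1 := by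
        have h2 : ContinuousAt (fun w : Y × ℂ => ‖w.2‖) z := by fun_prop
        exact h2.eventually_lt continuousAt_const (by simp)
      filter_upwards [h1, (S.hB.prod isOpen_univ).mem_nhds hz] with w a b c
      have hw : w.1 ∈ B \ T := ⟨b.1, fun h => c ⟨h, mem_univ _⟩⟩
      refine (S.wp_le hw (hd _ hw)).trans ?_
      have h3 := norm_nonneg w.2
      have h4 := S.hr
      gcongr)
  have hGa : ∀ z, z.1 ∈ B → AnalyticAt ℂ G z := fun z hz => hG z ⟨hz, mem_univ _⟩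
  have hGw : ∀ z, z.1 ∈ B \ T → G z = wp E r z := fun z hz =>
    hGf z ⟨⟨hz.1, mem_univ _⟩, fun h => hz.2 h.1⟩
  -- `G` vanishes on `E`
  have hzero : ∀ z ∈ B ×ˢ ball (0 : ℂ) r, z ∈ closure E → G z = 0 := by
    intro z hz hzE
    have h1 : ∃ᶠ w in 𝓝 z, G w = 0 := by
      rw [Filter.frequently_iff]
      intro U hU
      have hU' : interior U ∩ B ×ˢ ball (0 : ℂ) r ∈ 𝓝 z :=
        inter_mem (interior_mem_nhds.2 hU) (hbo.mem_nhds hz)
      obtain ⟨w, hwU, hwE⟩ := (mem_closure_iff_nhds.1 hzE) _ hU'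
      have h2 := S.dense_over hY (hbD hwU.2) hwE
      obtain ⟨x, hxU, hxE, hxT⟩ := (Filter.frequently_iff.1 h2)
        ((isOpen_interior.inter hbo).mem_nhds hwU)
      refine ⟨x, interior_subset hxU.1, ?_⟩
      have hxB : x.1 ∈ B \ T := ⟨hxU.2.1, hxT⟩
      rw [hGw x hxB]
      refine S.wp_zero hxB ⟨?_, hxE⟩
      have := hxU.2.2
      rw [mem_ball_zero_iff] at this
      exact this.le
    by_contra hne
    exact h1 ((hGa z hz.1).continuousAt.eventually_ne hne)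
  have hiff : ∀ z ∈ B ×ˢ ball (0 : ℂ) r, (z ∈ closure E ↔ G z = 0) := by
    intro z hz
    refine ⟨hzero z hz, fun hGz => ?_⟩
    by_contra hcl
    obtain ⟨ε, hε, hεE⟩ := Metric.isOpen_iff.1 isClosed_closure.isOpen_compl z hcl
    -- a lower bound
    have h1 : z.1 ∈ closure (B \ T) := (S.cv_bT hY).mem_closure (by omega) S.hB hz.1
    have hne : (𝓝[B \ T] z.1).NeBot := mem_closure_iff_nhdsWithin_neBot.1 h1
    have h2 : Tendsto (fun y => ‖G (y, z.2)‖) (𝓝[B \ T] z.1) (𝓝 ‖G z‖) := by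
      have h3 : ContinuousAt (fun y : Y => (y, z.2)) z.1 := by fun_prop
      have h4 : ContinuousAt (fun y : Y => G (y, z.2)) z.1 :=
        ContinuousAt.comp (g := G) (f := fun y : Y => (y, z.2)) (x := z.1)
          (hGa (z.1, z.2) hz.1).continuousAt h3
      exact h4.norm.mono_left nhdsWithin_le_nhds
    have h3 : ε ^ d ≤ ‖G z‖ := by
      refine ge_of_tendsto h2 ?_
      filter_upwards [self_mem_nhdsWithin, mem_nhdsWithin_of_mem_nhds (ball_mem_nhds z.1 hε)]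
        with y hy hyε
      rw [hGw (y, z.2) hy]
      refine S.le_wp (z := (y, z.2)) hy (hd y hy) hε.le fun s hs => ?_
      by_contra hlt
      push Not at hlt
      have h4 : (y, s) ∈ ball z ε := by
        rw [mem_ball, Prod.dist_eq]
        refine max_lt (mem_ball.1 hyε) ?_
        show dist s z.2 < ε
        rw [dist_comm, dist_eq_norm]
        exact hlt
      exact hεE h4 (subset_closure hs.2)
    rw [hGz, norm_zero] at h3
    exact absurd h3 (not_le.2 (pow_pos hε d))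
  refine ⟨G, hGa, hiff, fun p hp hpE => ?_⟩
  -- the derivative
  obtain ⟨h, hh⟩ := S.heq p (hbD hp) hpE
  obtain ⟨u, hu, hGu⟩ := exists_div hV hh.1 hh.2.1 (hh.2.2.self_of_nhds.1 hpE) (hGa p hp.1) (by
    filter_upwards [hh.2.2, hbo.mem_nhds hp] with z a b c
    exact hzero z b (subset_closure (a.2 c)))
  have hN1 : ∀ᶠ z in 𝓝 p, LEq E z h ∧ AnalyticAt ℂ u z ∧ (∀ᶠ w in 𝓝 z, G w = h w * u w) ∧
      z ∈ B ×ˢ ball (0 : ℂ) r := by
    filter_upwards [hh.eventually, hu.eventually_analyticAt, eventually_eventually_nhds.2 hGu,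
      hbo.mem_nhds hp] with z a b c d using ⟨a, b, c, d⟩
  obtain ⟨N, hN, hNo, hpN⟩ := _root_.eventually_nhds_iff.1 hN1
  have hfd : ∀ z ∈ N, h z = 0 → ∀ v, fderiv ℂ G z v = u z * fderiv ℂ h z v := by
    intro z hz hhz v
    have h1 : G =ᶠ[𝓝 z] fun z => h z * u z := (hN z hz).2.2.1
    rw [h1.fderiv_eq, fderiv_fun_mul (hN z hz).1.1.differentiableAt
      (hN z hz).2.1.differentiableAt]
    show h z * fderiv ℂ u z v + u z * fderiv ℂ h z v = u z * fderiv ℂ h z v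
    rw [hhz, zero_mul, zero_add]
  have hcv : Cv m (N ∩ {z | u z = 0}) := by
    refine (S.cv_over hY).mono ?_
    rintro z ⟨hzN, hzu⟩
    have hzu' : u z = 0 := hzu
    obtain ⟨h1, h2, h3, h4⟩ := hN z hzN
    have hGz : G z = 0 := by rw [h3.self_of_nhds, hzu', mul_zero]
    have hcl := (hiff z h4).2 hGz
    -- `z ∈ E`
    have hzE : z ∈ E := by
      by_contra hzE
      have h5 : h z ≠ 0 := fun h0 => hzE (h1.2.2.self_of_nhds.2 h0)
      have h6 : ∀ᶠ w in 𝓝 z, w ∉ E := by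
        filter_upwards [h1.2.2, h1.1.continuousAt.eventually_ne h5] with w a b c
        exact b (a.1 c)
      obtain ⟨w, hw, hwE⟩ := (mem_closure_iff_nhds.1 hcl) _ h6
      exact hw hwE
    refine ⟨hbD h4, hzE, ?_⟩
    by_contra hzT
    have hzB : z.1 ∈ B \ T := ⟨h4.1, hzT⟩
    have h5 : z.2 ∈ fib E r z.1 := by
      refine ⟨?_, hzE⟩
      have := h4.2
      rw [mem_ball_zero_iff] at this
      exact this.le
    have h6 := S.wp_deriv hzB h5
    have h7 : G =ᶠ[𝓝 z] wp E r := by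
      have h8 : ContinuousAt (fun w : Y × ℂ => w.1) z := by fun_prop
      filter_upwards [h8.eventually (S.open_bT.mem_nhds hzB)] with w hw using hGw w hw
    apply h6
    refine ContinuousLinearMap.ext fun v => ?_
    rw [← h7.fderiv_eq, hfd z hzN (h1.2.2.self_of_nhds.1 hzE) v, hzu', zero_mul]
    rfl
  have hup : u p ≠ 0 := ne_zero_of_cv (n := m) (by rw [hV]) hNo (fun z hz => (hN z hz).2.1) hcv hpN
  intro h0
  apply hh.2.1
  refine ContinuousLinearMap.ext fun v => ?_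
  have h1 := hfd p hpN (hh.2.2.self_of_nhds.1 hpE) v
  rw [h0] at h1
  exact (mul_eq_zero.1 h1.symm).resolve_left hup

end weier

end Vale.Agent.P277.H762
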