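import Vale.Agent.P277.H762.CL3

/-!
# P277, task CL: the closure of a smooth hypersurface across a thin set, locally
-/

open scoped Manifold ContDiff Topology
open Vale.Agent.P272.K Set Filter Metric MeasureTheory
open Vale.Agent.P277.H335

noncomputable section

namespace Vale.Agent.P277.H762

section dir

/-- smooth hypersurfaces are thin -/
theorem cv_hyp {n : ℕ} {U E : Set (Cm (n + 1))} (heq : ∀ p ∈ U, p ∈ E → ∃ h, LEq E p h) :
    Cv n (U ∩ E) := by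
  refine cv_of_local fun p hp => ?_
  obtain ⟨h, hh⟩ := heq p hp.1 hp.2
  obtain ⟨N, W, g, hN, hpN, hW, hg, hcov⟩ := Vale.Agent.P277.H622.exists_patch isOpen_univ
    (mem_univ p) hh.1 hh.2.1
  refine ⟨N ∩ {z | z ∈ E ↔ h z = 0}, inter_mem (hN.mem_nhds hpN) hh.2.2,
    fun _ => W, fun _ => g, fun _ => hW, fun _ q hq => (hg q hq).1, ?_⟩
  rintro z ⟨⟨h1, h2⟩, h3, h4⟩
  exact mem_iUnion.2 ⟨0, hcov z h1 (h2.1 h4)⟩

theorem volume_ker {n : ℕ} {l : Cm n →L[ℂ] ℂ} (hl : l ≠ 0) : volume {v | l v = 0} = 0 := by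
  have h1 := Measure.addHaar_submodule (volume : Measure (Cm n))
    ((LinearMap.ker (l : Cm n →ₗ[ℂ] ℂ)).restrictScalars ℝ) (by
      intro htop
      apply hl
      ext1 v
      have h2 : v ∈ (LinearMap.ker (l : Cm n →ₗ[ℂ] ℂ)).restrictScalars ℝ := by
        rw [htop]; trivial
      exact h2)
  exact h1

/-- almost all directions are transversal to a smooth hypersurface at generic points -/
theorem exists_tr {n : ℕ} {U E : Set (Cm n)}
    (heq : ∀ p ∈ U, p ∈ E → ∃ h, LEq E p h) :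
    ∃ T : Set (Cm n), volume T = 0 ∧ ∀ v ∉ T, ∀ p ∈ U, p ∈ E →
      ∃ᶠ z in 𝓝 p, z ∈ E ∧ TrD v E z := by
  have h1 : ∀ p ∈ U ∩ E, ∃ (N : Set (Cm n)) (h : Cm n → ℂ), IsOpen N ∧ p ∈ N ∧
      ∀ z ∈ N, LEq E z h := by
    intro p hp
    obtain ⟨h, hh⟩ := heq p hp.1 hp.2
    obtain ⟨N, hN, hNo, hpN⟩ := _root_.eventually_nhds_iff.1 hh.eventually
    exact ⟨N, h, hNo, hpN, hN⟩
  choose! N h hNo hpN hN using h1
  obtain ⟨t, htT, htc, ht⟩ := TopologicalSpace.countable_cover_nhdsWithin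
    (f := N) (s := U ∩ E) fun p hp => mem_nhdsWithin_of_mem_nhds ((hNo p hp).mem_nhds (hpN p hp))
  have h2 : ∀ p, ∃ D : Set (Cm n), D ⊆ N p ∩ E ∧ D.Countable ∧ N p ∩ E ⊆ closure D := fun p =>
    (TopologicalSpace.IsSeparable.of_separableSpace (N p ∩ E)).exists_countable_dense_subset
  choose D hDs hDc hDd using h2
  refine ⟨⋃ p ∈ t, ⋃ q ∈ D p, {v | fderiv ℂ (h p) q v = 0}, ?_, ?_⟩
  · rw [measure_biUnion_null_iff htc]
    intro p hp
    rw [measure_biUnion_null_iff (hDc p)]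
    intro q hq
    exact volume_ker (hN p (htT hp) q (hDs p hq).1).2.1
  · intro v hv p hpU hpE
    obtain ⟨k, hk, hpk⟩ := mem_iUnion₂.1 (ht ⟨hpU, hpE⟩)
    have h3 : p ∈ closure (D k) := hDd k ⟨hpk, hpE⟩
    rw [Filter.frequently_iff]
    intro W hW
    obtain ⟨z, hzW, hzD⟩ := (mem_closure_iff_nhds.1 h3) W hW
    have hzN := hDs k hzD
    have h4 := hN k (htT hk) z hzN.1
    refine ⟨z, hzW, hzN.2, h k, h4.1, fun h0 => hv ?_, h4.2.2⟩
    exact mem_iUnion₂.2 ⟨k, hk, mem_iUnion₂.2 ⟨z, hzD, h0⟩⟩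

/-- linear coordinates with a given last vector -/
theorem exists_coord_cl {n : ℕ} {v : Cm (n + 1)} (hv : v ≠ 0) :
    ∃ A : (Cm n × ℂ) ≃L[ℂ] Cm (n + 1), A (0, 1) = v := by
  obtain ⟨j, hj⟩ : ∃ j, v j ≠ 0 := by
    by_contra hcon
    push Not at hcon
    exact hv (funext hcon)
  set l : Cm (n + 1) →L[ℂ] ℂ := ContinuousLinearMap.proj (R := ℂ) (φ := fun _ : Fin (n + 1) => ℂ) j
    with hl
  have hlv : l v ≠ 0 := hj
  have hl0 : l ≠ 0 := by
    intro h0
    apply hlv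
    rw [h0]; rfl
  obtain ⟨i, hi⟩ := exists_lin (V := Cm (n + 1)) (n := n) (by simp) hl0
  let f : (Cm n × ℂ) →ₗ[ℂ] Cm (n + 1) :=
    { toFun := fun w => w.2 • v + i.symm (0, w.1)
      map_add' := fun x y => by
        have h1 : ((0 : ℂ), x.1 + y.1) = (0, x.1) + (0, y.1) := by simp
        rw [Prod.fst_add, Prod.snd_add, h1, map_add, add_smul]
        abel
      map_smul' := fun a x => by
        have h1 : ((0 : ℂ), a • x.1) = a • ((0 : ℂ), x.1) := by simp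
        rw [Prod.smul_fst, Prod.smul_snd, h1, map_smul, RingHom.id_apply, smul_add, smul_smul,
          smul_eq_mul] }
  have hf : Function.Injective f := by
    rw [injective_iff_map_eq_zero]
    rintro ⟨y, s⟩ hys
    have h1 : s • v + i.symm (0, y) = 0 := hys
    have h2 : l (i.symm (0, y)) = 0 := by rw [← hi, i.apply_symm_apply]
    have h3 : s * l v = 0 := by
      have h4 := congrArg l h1
      rw [map_add, map_smul, h2, add_zero, map_zero, smul_eq_mul] at h4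
      exact h4
    have h5 : s = 0 := (mul_eq_zero.1 h3).resolve_right hlv
    subst h5
    rw [zero_smul, zero_add] at h1
    have h6 : ((0 : ℂ), y) = 0 := by
      have := congrArg i h1
      rwa [i.apply_symm_apply, map_zero] at this
    have h7 : y = 0 := congrArg Prod.snd h6
    rw [h7]; rfl
  let A : (Cm n × ℂ) ≃ₗ[ℂ] Cm (n + 1) := LinearMap.linearEquivOfInjective f hf (by simp)
  refine ⟨A.toContinuousLinearEquiv, ?_⟩
  show (1 : ℂ) • v + i.symm (0, (0 : Cm n)) = v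
  have h1 : ((0 : ℂ), (0 : Cm n)) = 0 := rfl
  rw [h1, map_zero, add_zero, one_smul]

end dir

/-! ### affine changes of coordinates -/

section aff

variable {V V' : Type*} [NormedAddCommGroup V] [NormedSpace ℂ V] [NormedAddCommGroup V']
  [NormedSpace ℂ V']

/-- an affine isomorphism as a homeomorphism -/
def aff (A : V' ≃L[ℂ] V) (y : V) : V' ≃ₜ V := A.toHomeomorph.trans (Homeomorph.addLeft y)

theorem aff_apply (A : V' ≃L[ℂ] V) (y : V) (q : V') : aff A y q = y + A q := rfl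

theorem aff_symm_apply (A : V' ≃L[ℂ] V) (y : V) (z : V) : (aff A y).symm z = A.symm (-y + z) := rfl

theorem hasFDerivAt_aff (A : V' ≃L[ℂ] V) (y : V) (q : V') :
    HasFDerivAt (aff A y) (A : V' →L[ℂ] V) q :=
  (A : V' →L[ℂ] V).hasFDerivAt.const_add y

theorem hasFDerivAt_aff_symm (A : V' ≃L[ℂ] V) (y : V) (z : V) :
    HasFDerivAt (aff A y).symm (A.symm : V →L[ℂ] V') z := by
  have h1 : HasFDerivAt (fun z : V => -y + z) (ContinuousLinearMap.id ℂ V) z :=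
    (hasFDerivAt_id z).const_add (-y)
  have h2 := ((A.symm : V →L[ℂ] V').hasFDerivAt (x := -y + z)).comp z h1
  rw [ContinuousLinearMap.comp_id] at h2
  exact h2

theorem analyticAt_aff (A : V' ≃L[ℂ] V) (y : V) (q : V') : AnalyticAt ℂ (aff A y) q :=
  analyticAt_const.add ((A : V' →L[ℂ] V).analyticAt q)

theorem analyticAt_aff_symm (A : V' ≃L[ℂ] V) (y : V) (z : V) :
    AnalyticAt ℂ (aff A y).symm z := by
  have h1 : AnalyticAt ℂ (fun z : V => -y + z) z := analyticAt_const.add analyticAt_id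
  exact ((A.symm : V →L[ℂ] V').analyticAt (-y + z)).comp_of_eq h1 rfl

theorem leq_aff {E : Set V} {A : V' ≃L[ℂ] V} {y : V} {q : V'} {h : V → ℂ}
    (hh : LEq E (aff A y q) h) : LEq (aff A y ⁻¹' E) q (fun x => h (aff A y x)) := by
  refine ⟨hh.1.comp_of_eq (analyticAt_aff A y q) rfl, fun h0 => hh.2.1 ?_,
    (aff A y).continuous.continuousAt.eventually hh.2.2⟩
  have h1 : HasFDerivAt (fun x => h (aff A y x))
      ((fderiv ℂ h (aff A y q)).comp (A : V' →L[ℂ] V)) q :=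
    hh.1.differentiableAt.hasFDerivAt.comp q (hasFDerivAt_aff A y q)
  rw [h1.fderiv] at h0
  refine ContinuousLinearMap.ext fun v => ?_
  have h2 := congrArg (fun L : V' →L[ℂ] ℂ => L (A.symm v)) h0
  simpa using h2

theorem trD_aff {E : Set V} {A : V' ≃L[ℂ] V} {y : V} {q : V'} {w : V'}
    (hh : TrD (A w) E (aff A y q)) : TrD w (aff A y ⁻¹' E) q := by
  obtain ⟨h, hh, hd, hE⟩ := hh
  refine ⟨fun x => h (aff A y x), hh.comp_of_eq (analyticAt_aff A y q) rfl, ?_,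
    (aff A y).continuous.continuousAt.eventually hE⟩
  have h1 : HasFDerivAt (fun x => h (aff A y x))
      ((fderiv ℂ h (aff A y q)).comp (A : V' →L[ℂ] V)) q :=
    hh.differentiableAt.hasFDerivAt.comp q (hasFDerivAt_aff A y q)
  rw [h1.fderiv]
  exact hd

end aff

/-- **the closure of a smooth hypersurface across a thin set**, locally -/
theorem closure_loc {m : ℕ} {U Θ E : Set (Cm (m + 2))} (hU : IsOpen U) (hΘ : IsOpen (U \ Θ))
    (hE : IsOpen (U \ (E ∪ Θ))) (hdis : ∀ p ∈ U, p ∈ E → p ∉ Θ)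
    (heq : ∀ p ∈ U, p ∈ E → ∃ h, LEq E p h) (hcv : Cv m (U ∩ Θ)) {y : Cm (m + 2)} (hy : y ∈ U) :
    ∃ (W : Set (Cm (m + 2))) (G : Cm (m + 2) → ℂ), IsOpen W ∧ y ∈ W ∧ W ⊆ U ∧
      (∀ z ∈ W, AnalyticAt ℂ G z) ∧ (∀ z ∈ W, (z ∈ closure E ↔ G z = 0)) ∧
      ∀ z ∈ W, z ∈ E → fderiv ℂ G z ≠ 0 := by
  -- the direction
  have hcv1 : Cv (m + 1) (U ∩ (E ∪ Θ)) := by
    rw [inter_union_distrib_left]
    exact (cv_hyp (n := m + 1) heq).union hcv.succ
  obtain ⟨W0, g0, -, hg0, hcov0⟩ := hcv1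
  obtain ⟨T1, hT1, hT1c⟩ := line_countable hg0 y
  obtain ⟨T2, hT2, hT2c⟩ := exists_tr heq
  have hT12 : volume (T1 ∪ T2) = 0 := measure_union_null hT1 hT2
  obtain ⟨v, hv0, hvT⟩ := (dense_compl_of_null hT12).inter_open_nonempty {v | v ≠ 0}
    isOpen_compl_singleton ⟨fun _ => 1, fun h => one_ne_zero (congrFun h 0)⟩
  have hvT1 : v ∉ T1 := fun h => hvT (Or.inl h)
  have hvT2 : v ∉ T2 := fun h => hvT (Or.inr h)
  obtain ⟨A, hA⟩ := exists_coord_cl (n := m + 1) hv0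
  set α := aff A y with hα
  have hα0 : α (0, 0) = y := by
    rw [hα, aff_apply]
    have : ((0 : Cm (m + 1)), (0 : ℂ)) = 0 := rfl
    rw [this, map_zero, add_zero]
  have hαt : ∀ t : ℂ, α (0, t) = y + t • v := by
    intro t
    rw [hα, aff_apply, ← hA, ← map_smul]
    simp
  have hUo : IsOpen (α ⁻¹' U) := hU.preimage α.continuous
  -- the circle
  obtain ⟨r1, hr1, hr1U⟩ : ∃ r1 > 0, ∀ t : ℂ, ‖t‖ < r1 → α (0, t) ∈ U := by
    have h1 : ContinuousAt (fun t : ℂ => α (0, t)) 0 := by fun_prop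
    have h2 : ∀ᶠ t in 𝓝 (0 : ℂ), α (0, t) ∈ U := by
      refine h1.eventually ?_
      show ∀ᶠ w in 𝓝 (α (0, 0)), w ∈ U
      rw [hα0]; exact hU.mem_nhds hy
    obtain ⟨r1, hr1, h3⟩ := Metric.eventually_nhds_iff_ball.1 h2
    exact ⟨r1, hr1, fun t ht => h3 t (by simpa using ht)⟩
  obtain ⟨r, ⟨hr0, hrr⟩, hrc⟩ := (((hT1c v hvT1).image fun ζ => ‖ζ‖).dense_compl
    ℝ).inter_open_nonempty (Ioo 0 r1) isOpen_Ioo ⟨r1 / 2, by constructor <;> linarith⟩
  have hcirc : ∀ t : ℂ, ‖t‖ = r → α (0, t) ∈ U \ (E ∪ Θ) := by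
    intro t ht
    have h1 : α (0, t) ∈ U := hr1U t (ht.trans_lt hrr)
    refine ⟨h1, fun h2 => hrc ⟨t, ⟨?_, ?_⟩, ht⟩⟩
    · rintro rfl
      rw [norm_zero] at ht
      exact hr0.ne ht
    · exact hcov0 ⟨by rw [← hαt]; exact h1, by rw [← hαt]; exact h2⟩
  obtain ⟨U1, D, hU1, hD, h0U1, hrD, hUD⟩ := generalized_tube_lemma
    (s := {(0 : Cm (m + 1))}) (t := closedBall (0 : ℂ) r) isCompact_singleton
    (isCompact_closedBall 0 r) hUo (by
      rintro ⟨z, ζ⟩ ⟨hz, hζ⟩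
      simp only [mem_singleton_iff] at hz
      subst hz
      exact hr1U ζ (lt_of_le_of_lt (by simpa using hζ) hrr))
  obtain ⟨U2, D2, hU2, hD2, h0U2, hrD2, hUD2⟩ := generalized_tube_lemma
    (s := {(0 : Cm (m + 1))}) (t := sphere (0 : ℂ) r) isCompact_singleton
    (isCompact_sphere 0 r) (hE.preimage α.continuous) (by
      rintro ⟨z, ζ⟩ ⟨hz, hζ⟩
      simp only [mem_singleton_iff] at hz
      subst hz
      exact hcirc ζ (by simpa using hζ))
  obtain ⟨δ, hδ, hδU⟩ := Metric.isOpen_iff.1 (hU1.inter hU2) 0 ⟨h0U1 rfl, h0U2 rfl⟩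
  set B : Set (Cm (m + 1)) := ball 0 δ with hB
  have hBDU : ∀ p ∈ B ×ˢ D, α p ∈ U := fun p hp =>
    hUD (show p ∈ U1 ×ˢ D from ⟨(hδU hp.1).1, hp.2⟩)
  have hBDo : IsOpen (B ×ˢ D) := isOpen_ball.prod hD
  have S : Sit m B D (α ⁻¹' Θ) (α ⁻¹' E) r := by
    refine ⟨isOpen_ball, hD, hr0, hrD, ?_, ?_, fun p hp hpE => hdis _ (hBDU p hp) hpE, ?_, ?_, ?_,
      ?_⟩
    · have h1 : (B ×ˢ D) \ (α ⁻¹' Θ) = (B ×ˢ D) ∩ α ⁻¹' (U \ Θ) := by
        ext p
        constructor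
        · rintro ⟨h1, h2⟩; exact ⟨h1, hBDU p h1, h2⟩
        · rintro ⟨h1, h2⟩; exact ⟨h1, h2.2⟩
      rw [h1]
      exact hBDo.inter (hΘ.preimage α.continuous)
    · have h1 : (B ×ˢ D) \ (α ⁻¹' E ∪ α ⁻¹' Θ) = (B ×ˢ D) ∩ α ⁻¹' (U \ (E ∪ Θ)) := by
        ext p
        constructor
        · rintro ⟨h1, h2⟩; exact ⟨h1, hBDU p h1, h2⟩
        · rintro ⟨h1, h2⟩; exact ⟨h1, h2.2⟩
      rw [h1]
      exact hBDo.inter (hE.preimage α.continuous)
    · intro y' hy' t ht hEΘ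
      have h1 : (y', t) ∈ U2 ×ˢ D2 := ⟨(hδU hy').2, hrD2 (by simpa using ht)⟩
      exact (hUD2 h1).2 hEΘ
    · intro p hp hpE
      obtain ⟨h, hh⟩ := heq (α p) (hBDU p hp) hpE
      exact ⟨_, leq_aff hh⟩
    · intro p hp hpE
      have h1 := hT2c v hvT2 (α p) (hBDU p hp) hpE
      have h2 : ∃ᶠ z in 𝓝 p, α z ∈ E ∧ TrD v E (α z) := by
        rw [← α.map_nhds_eq, Filter.frequently_map] at h1
        exact h1
      refine h2.mono fun z hz => ⟨hz.1, ?_⟩
      have h3 : TrD (A (0, 1)) E (aff A y z) := by rw [hA]; exact hz.2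
      exact trD_aff h3
    · refine (hcv.image isOpen_univ (subset_univ _) (F := α.symm) fun z _ =>
        analyticAt_aff_symm A y z).mono ?_
      rintro p ⟨h1, h2⟩
      exact ⟨α p, ⟨hBDU p h1, h2⟩, α.symm_apply_apply p⟩
  obtain ⟨G, hG1, hG2, hG3⟩ := S.main (by simp) (convex_ball _ _).isPreconnected
  have hbo : IsOpen (B ×ˢ ball (0 : ℂ) r) := isOpen_ball.prod isOpen_ball
  refine ⟨α.symm ⁻¹' (B ×ˢ ball (0 : ℂ) r), fun z => G (α.symm z), hbo.preimage α.symm.continuous,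
    ?_, ?_, ?_, ?_, ?_⟩
  · rw [mem_preimage, ← hα0, α.symm_apply_apply]
    exact ⟨mem_ball_self hδ, mem_ball_self hr0⟩
  · intro z hz
    have h1 : α.symm z ∈ B ×ˢ D := ⟨hz.1, hrD (ball_subset_closedBall hz.2)⟩
    have h2 := hBDU _ h1
    rwa [α.apply_symm_apply] at h2
  · intro z hz
    exact (hG1 (α.symm z) hz.1).comp_of_eq (analyticAt_aff_symm A y z) rfl
  · intro z hz
    rw [← hG2 (α.symm z) hz, ← α.preimage_closure, mem_preimage, α.apply_symm_apply]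
  · intro z hz hzE h0
    apply hG3 (α.symm z) hz (by rw [mem_preimage, α.apply_symm_apply]; exact hzE)
    have h1 : HasFDerivAt (fun z => G (α.symm z))
        ((fderiv ℂ G (α.symm z)).comp (A.symm : Cm (m + 2) →L[ℂ] Cm (m + 1) × ℂ)) z :=
      (hG1 (α.symm z) hz.1).differentiableAt.hasFDerivAt.comp z (hasFDerivAt_aff_symm A y z)
    rw [h1.fderiv] at h0
    refine ContinuousLinearMap.ext fun w => ?_
    have h2 := congrArg (fun L : Cm (m + 2) →L[ℂ] ℂ => L (A w)) h0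
    simpa using h2

end Vale.Agent.P277.H762
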