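import Vale.Agent.P277.Stmts2
import Mathlib.Topology.MetricSpace.HausdorffDimension
import Mathlib.LinearAlgebra.Complex.FiniteDimensional

/-!
# P277, task TD: thin sets in `ℂ⁴`
-/

open scoped Manifold ContDiff Topology
open Vale.Agent.P272.K Vale.Agent.P285.H281.FD Set Filter

noncomputable section

namespace Vale.Agent.P277.TD

/-- `C¹` images of subsets of `ℂ² × ℂ × ℝ` have dimension `≤ 7`. -/
theorem dimH_image_seven {F : Cm 2 × ℂ × ℝ → Cm 4} {U : Set (Cm 2 × ℂ × ℝ)}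
    (h : ∀ x ∈ U, ContDiffAt ℝ 1 F x) : dimH (F '' U) ≤ (7 : ℕ) := by
  have h1 : dimH (F '' U) ≤ dimH U := by
    refine dimH_image_le_of_locally_lipschitzOn fun x hx => ?_
    obtain ⟨C, t, ht, hC⟩ := (h x hx).exists_lipschitzOnWith
    exact ⟨C, t, mem_nhdsWithin_of_mem_nhds ht, hC⟩
  refine h1.trans ((dimH_mono (subset_univ _)).trans ?_)
  rw [Real.dimH_univ_eq_finrank]
  have : Module.finrank ℝ (Cm 2 × ℂ × ℝ) = 7 := by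
    rw [Module.finrank_prod, Module.finrank_prod]
    simp [Module.finrank_pi_fintype]
  rw [this]

theorem dimH_iUnion_seven {F : ℕ → Cm 2 × ℂ × ℝ → Cm 4} {U : ℕ → Set (Cm 2 × ℂ × ℝ)}
    (h : ∀ k, ∀ x ∈ U k, ContDiffAt ℝ 1 (F k) x) : dimH (⋃ k, F k '' U k) ≤ (7 : ℕ) := by
  rw [dimH_iUnion]
  exact iSup_le fun k => dimH_image_seven (h k)

theorem dense_compl_of_dimH_le_seven {S : Set (Cm 4)} (h : dimH S ≤ (7 : ℕ)) : Dense Sᶜ := by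
  refine dense_compl_of_dimH_lt_finrank (h.trans_lt ?_)
  have : Module.finrank ℝ (Cm 4) = 8 := by
    simp [Module.finrank_pi_fintype]
  rw [this]
  norm_num

section
variable {E₀ : Set (Cm 4)} {Ω : ℕ → Set (Cm 2)} {g : ℕ → Cm 2 → Cm 4}
  (hg : ∀ k, ∀ p ∈ Ω k, AnalyticAt ℂ (g k) p) (hE : E₀ ⊆ ⋃ k, g k '' Ω k)

include hg in
theorem contDiffAt_g (k : ℕ) {x : Cm 2 × ℂ × ℝ} (hx : x.1 ∈ Ω k) :
    ContDiffAt ℝ 1 (fun y : Cm 2 × ℂ × ℝ => g k y.1) x := by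
  have h1 : ContDiffAt ℝ 1 (g k) x.1 := ((hg k _ hx).restrictScalars (𝕜 := ℝ)).contDiffAt
  exact h1.comp x contDiffAt_fst

include hg hE

/-- bad directions -/
theorem dimH_dir (p : Cm 4) :
    dimH {e : Cm 4 | ∃ ζ : ℂ, ζ ≠ 0 ∧ p + ζ • e ∈ E₀} ≤ (7 : ℕ) := by
  refine le_trans (dimH_mono ?_) (dimH_iUnion_seven (F := fun k x => x.2.1⁻¹ • (g k x.1 - p))
    (U := fun k => {x | x.1 ∈ Ω k ∧ x.2.1 ≠ 0}) ?_)
  · rintro e ⟨ζ, hζ, he⟩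
    obtain ⟨k, u, hu, hue⟩ := mem_iUnion.1 (hE he)
    refine mem_iUnion.2 ⟨k, (u, ζ, 0), ⟨hu, hζ⟩, ?_⟩
    simp only [hue, add_sub_cancel_left]
    rw [smul_smul, inv_mul_cancel₀ hζ, one_smul]
  · rintro k x ⟨hx, hx'⟩
    have h1 : ContDiffAt ℝ 1 (fun y : Cm 2 × ℂ × ℝ => y.2.1⁻¹) x :=
      ContDiffAt.inv (contDiffAt_fst.comp x contDiffAt_snd) hx'
    exact h1.smul ((contDiffAt_g hg k hx).sub contDiffAt_const)

/-- bad centers -/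
theorem dimH_center (e : Cm 4) :
    dimH {p : Cm 4 | ∃ ζ : ℂ, p + ζ • e ∈ E₀} ≤ (7 : ℕ) := by
  refine le_trans (dimH_mono ?_) (dimH_iUnion_seven (F := fun k x => g k x.1 - x.2.1 • e)
    (U := fun k => {x | x.1 ∈ Ω k}) ?_)
  · rintro p ⟨ζ, he⟩
    obtain ⟨k, u, hu, hue⟩ := mem_iUnion.1 (hE he)
    refine mem_iUnion.2 ⟨k, (u, ζ, 0), hu, ?_⟩
    simp only [hue, add_sub_cancel_right]
  · rintro k x hx
    exact (contDiffAt_g hg k hx).sub ((contDiffAt_fst.comp x contDiffAt_snd).smul contDiffAt_const)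

/-- bad midpoints -/
theorem dimH_mid (e p : Cm 4) :
    dimH {m : Cm 4 | ∃ (s : ℝ) (ζ : ℂ), s ≠ 0 ∧ p + s • (m - p) + ζ • e ∈ E₀} ≤ (7 : ℕ) := by
  refine le_trans (dimH_mono ?_) (dimH_iUnion_seven
    (F := fun k x => p + x.2.2⁻¹ • (g k x.1 - x.2.1 • e - p))
    (U := fun k => {x | x.1 ∈ Ω k ∧ x.2.2 ≠ 0}) ?_)
  · rintro m ⟨s, ζ, hs, he⟩
    obtain ⟨k, u, hu, hue⟩ := mem_iUnion.1 (hE he)
    refine mem_iUnion.2 ⟨k, (u, ζ, s), ⟨hu, hs⟩, ?_⟩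
    simp only [hue, add_sub_cancel_right, add_sub_cancel_left]
    rw [smul_smul, inv_mul_cancel₀ hs, one_smul, add_sub_cancel]
  · rintro k x ⟨hx, hx'⟩
    have h1 : ContDiffAt ℝ 1 (fun y : Cm 2 × ℂ × ℝ => y.2.2⁻¹) x :=
      ContDiffAt.inv (contDiffAt_snd.comp x contDiffAt_snd) hx'
    exact contDiffAt_const.add (h1.smul (((contDiffAt_g hg k hx).sub
      ((contDiffAt_fst.comp x contDiffAt_snd).smul contDiffAt_const)).sub contDiffAt_const))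

/-- two points can be joined by two segments which consist of centers of discs avoiding `E₀` -/
theorem exists_mid {e p q : Cm 4} {R : ℝ} (hp : ∀ ζ : ℂ, ‖ζ‖ ≤ R → p + ζ • e ∉ E₀)
    (hq : ∀ ζ : ℂ, ‖ζ‖ ≤ R → q + ζ • e ∉ E₀) {V : Set (Cm 4)} (hV : IsOpen V) (hV' : V.Nonempty) :
    ∃ m ∈ V, (∀ (s : ℝ) (ζ : ℂ), ‖ζ‖ ≤ R → p + s • (m - p) + ζ • e ∉ E₀) ∧
      ∀ (s : ℝ) (ζ : ℂ), ‖ζ‖ ≤ R → q + s • (m - q) + ζ • e ∉ E₀ := by
  have h1 := dimH_mid hg hE e p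
  have h2 := dimH_mid hg hE e q
  have h3 := dense_compl_of_dimH_le_seven
    (S := {m : Cm 4 | ∃ (s : ℝ) (ζ : ℂ), s ≠ 0 ∧ p + s • (m - p) + ζ • e ∈ E₀} ∪
      {m : Cm 4 | ∃ (s : ℝ) (ζ : ℂ), s ≠ 0 ∧ q + s • (m - q) + ζ • e ∈ E₀})
    (by rw [dimH_union]; exact max_le h1 h2)
  obtain ⟨m, hmV, hm⟩ := h3.inter_open_nonempty V hV hV'
  refine ⟨m, hmV, fun s ζ hζ hs => ?_, fun s ζ hζ hs => ?_⟩
  · rcases eq_or_ne s 0 with h0 | h0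
    · refine hp ζ hζ ?_
      simpa [h0] using hs
    · exact hm (Or.inl ⟨s, ζ, h0, hs⟩)
  · rcases eq_or_ne s 0 with h0 | h0
    · refine hq ζ hζ ?_
      simpa [h0] using hs
    · exact hm (Or.inr ⟨s, ζ, h0, hs⟩)

end

end Vale.Agent.P277.TD
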