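import Vale.Agent.P277.H762.Herm
import Vale.Agent.P277.H762.Thin
import Mathlib.Analysis.Calculus.BumpFunction.FiniteDimension
import Mathlib.Analysis.Complex.RealDeriv

/-!
# P277, task TD: bound of the areas of discs and of quasi-plurisubharmonic functions
-/

open scoped Manifold ContDiff ComplexOrder Topology
open Complex Vale.Agent.P272.K Vale.Agent.P272 Filter Set Metric MeasureTheory

noncomputable section

namespace Vale.Agent.P277.TD

/-! ### the Green function -/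

theorem green_split {f : ℂ → ℝ} {R s M A : ℝ} (hs : 0 < s) (hsR : s ≤ R)
    (hf : ContinuousOn f (closedBall 0 R)) (hf0 : ∀ ζ ∈ ball (0 : ℂ) R, 0 ≤ f ζ)
    (hfM : ∀ ζ ∈ ball (0 : ℂ) s, f ζ ≤ M) (hA : ∫ ζ in ball (0 : ℂ) R, f ζ ≤ A) :
    ∫ ζ in ball (0 : ℂ) R, GJ.Gr R ζ * f ζ ≤ 2 / Real.pi * Real.log (R / s) * A + M * s ^ 2 := by
  have hR : 0 < R := hs.trans_le hsR
  have hM : 0 ≤ M := (hf0 0 (mem_ball_self hR)).trans (hfM 0 (mem_ball_self hs))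
  have hsub : ball (0 : ℂ) s ⊆ ball 0 R := ball_subset_ball hsR
  have hfi : IntegrableOn f (ball 0 R) :=
    (hf.integrableOn_compact (isCompact_closedBall _ _)).mono_set ball_subset_closedBall
  have hG : IntegrableOn (fun ζ => M * GJ.Gr s ζ) (ball (0 : ℂ) s) := (GJ.integrableOn_Gr hs).const_mul M
  have hl : 0 ≤ Real.log (R / s) := Real.log_nonneg ((one_le_div hs).2 hsR)
  have hc : 0 ≤ 2 / Real.pi * Real.log (R / s) := mul_nonneg (by positivity) hl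
  have hi2 : IntegrableOn (fun ζ => 2 / Real.pi * Real.log (R / s) * f ζ) (ball (0 : ℂ) R) :=
    hfi.const_mul _
  have hi3 : Integrable ((ball (0 : ℂ) s).indicator fun ζ => M * GJ.Gr s ζ)
      (volume.restrict (ball (0 : ℂ) R)) :=
    ((integrable_indicator_iff measurableSet_ball).2 hG).integrableOn
  calc ∫ ζ in ball (0 : ℂ) R, GJ.Gr R ζ * f ζ
      ≤ ∫ ζ in ball (0 : ℂ) R, (2 / Real.pi * Real.log (R / s) * f ζ +
          (ball (0 : ℂ) s).indicator (fun ζ => M * GJ.Gr s ζ) ζ) := by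
        refine setIntegral_mono_on (GJ.integrableOn_Gr_mul hR hf) (hi2.add hi3) measurableSet_ball
          fun ζ hζ => ?_
        have h0 := hf0 ζ hζ
        by_cases hζs : ζ ∈ ball (0 : ℂ) s
        · rw [indicator_of_mem hζs]
          have hM' := hfM ζ hζs
          have hGs := GJ.Gr_nonneg hζs
          rcases eq_or_ne ζ 0 with h | h
          · have : GJ.Gr R ζ = 0 := by simp [GJ.Gr, h]
            rw [this, zero_mul]
            positivity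
          · have hζ0 : 0 < ‖ζ‖ := norm_pos_iff.2 h
            have e1 : GJ.Gr R ζ = 2 / Real.pi * Real.log (R / s) + GJ.Gr s ζ := by
              unfold GJ.Gr
              rw [← mul_add, ← Real.log_mul (by positivity) (by positivity)]
              congr 2
              field_simp
            rw [e1, add_mul]
            have := mul_le_mul_of_nonneg_left hM' hGs
            linarith
        · rw [indicator_of_notMem hζs, add_zero]
          have h1 : s ≤ ‖ζ‖ := by simpa using hζs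
          have e1 : GJ.Gr R ζ ≤ 2 / Real.pi * Real.log (R / s) := by
            unfold GJ.Gr
            have h2 : 0 < ‖ζ‖ := hs.trans_le h1
            have h3 : Real.log (R / ‖ζ‖) ≤ Real.log (R / s) :=
              Real.log_le_log (by positivity) (by gcongr)
            gcongr
          gcongr
    _ = 2 / Real.pi * Real.log (R / s) * (∫ ζ in ball (0 : ℂ) R, f ζ) + M * s ^ 2 := by
        rw [integral_add hi2 hi3, integral_const_mul]
        congr 1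
        rw [setIntegral_indicator measurableSet_ball, inter_eq_self_of_subset_right hsub,
          integral_const_mul, GJ.integral_Gr hs]
    _ ≤ _ := by gcongr

/-! ### choice of the discs -/

section setup
variable {r : ℝ} {E₀ : Set (Cm 4)} {Ω : ℕ → Set (Cm 2)} {g : ℕ → Cm 2 → Cm 4}

theorem exists_setup (hopen : IsOpen (ball (0 : Cm 4) r \ E₀))
    (hg : ∀ k, ∀ p ∈ Ω k, AnalyticAt ℂ (g k) p) (hE : E₀ ⊆ ⋃ k, g k '' Ω k)
    {p₀ : Cm 4} (hp₀ : p₀ ∈ ball (0 : Cm 4) r) :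
    ∃ (e : Cm 4) (R η : ℝ) (K : Set (Cm 4)), ‖e‖ < 1 ∧ 0 < R ∧ 0 < η ∧ IsCompact K ∧
      K ⊆ ball (0 : Cm 4) r \ E₀ ∧
      (∀ p ∈ ball p₀ η, ∀ ζ : ℂ, ‖ζ‖ ≤ R → p + ζ • e ∈ ball (0 : Cm 4) r) ∧
      ∀ p ∈ ball p₀ η, ∀ ζ : ℂ, R / 2 ≤ ‖ζ‖ → ‖ζ‖ ≤ R → p + ζ • e ∈ K := by
  obtain ⟨e, he1, he⟩ := (dense_compl_of_dimH_le_seven (dimH_dir hg hE p₀)).inter_open_nonempty
    (ball 0 1) isOpen_ball ⟨0, mem_ball_self one_pos⟩
  rw [mem_ball_zero_iff] at he1 hp₀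
  set R : ℝ := (r - ‖p₀‖) / 3 with hR
  have hR0 : 0 < R := by rw [hR]; linarith
  have hz : ∀ ζ : ℂ, ‖ζ‖ ≤ R → ‖ζ • e‖ ≤ R := by
    intro ζ hζ
    rw [norm_smul]
    calc ‖ζ‖ * ‖e‖ ≤ R * 1 := by gcongr
      _ = R := mul_one R
  set K₀ : Set (Cm 4) := (fun ζ : ℂ => p₀ + ζ • e) '' {ζ | R / 2 ≤ ‖ζ‖ ∧ ‖ζ‖ ≤ R} with hK₀
  have hcK : IsCompact K₀ := by
    refine IsCompact.image ?_ (by fun_prop)
    have h1 : {ζ : ℂ | R / 2 ≤ ‖ζ‖ ∧ ‖ζ‖ ≤ R} = closedBall 0 R ∩ {ζ | R / 2 ≤ ‖ζ‖} := by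
      ext ζ; simp [and_comm]
    rw [h1]
    exact (isCompact_closedBall _ _).inter_right (isClosed_le continuous_const continuous_norm)
  have hKD : K₀ ⊆ ball (0 : Cm 4) r \ E₀ := by
    rintro _ ⟨ζ, ⟨h1, h2⟩, rfl⟩
    refine ⟨?_, fun h3 => he ⟨ζ, ?_, h3⟩⟩
    · rw [mem_ball_zero_iff]
      calc ‖p₀ + ζ • e‖ ≤ ‖p₀‖ + ‖ζ • e‖ := norm_add_le _ _
        _ ≤ ‖p₀‖ + R := by gcongr; exact hz ζ h2
        _ < r := by rw [hR]; linarith
    · rw [← norm_pos_iff]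
      linarith
  obtain ⟨δ, hδ, hδK⟩ := hcK.exists_cthickening_subset_open hopen hKD
  refine ⟨e, R, min δ R, cthickening δ K₀, he1, hR0, lt_min hδ hR0, hcK.cthickening, hδK, ?_, ?_⟩
  · intro p hp ζ hζ
    rw [mem_ball, dist_eq_norm] at hp
    rw [mem_ball_zero_iff]
    have h1 : ‖p‖ ≤ ‖p₀‖ + ‖p - p₀‖ := by
      have := norm_add_le p₀ (p - p₀)
      rwa [add_sub_cancel] at this
    have h2 := lt_of_lt_of_le hp (min_le_right δ R)
    calc ‖p + ζ • e‖ ≤ ‖p‖ + ‖ζ • e‖ := norm_add_le _ _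
      _ ≤ (‖p₀‖ + ‖p - p₀‖) + R := by gcongr; exact hz ζ hζ
      _ < r := by rw [hR] at h2 ⊢; linarith
  · intro p hp ζ h1 h2
    refine mem_cthickening_of_dist_le _ (p₀ + ζ • e) _ _ ⟨ζ, ⟨h1, h2⟩, rfl⟩ ?_
    rw [dist_add_right]
    exact (mem_ball.1 hp).le.trans (min_le_left δ R)

end setup

/-! ### bound for the areas -/

section area
variable {r : ℝ} {E₀ : Set (Cm 4)} {Ω : ℕ → Set (Cm 2)} {g : ℕ → Cm 2 → Cm 4}
  {H : Cm 4 → Matrix (Fin 4) (Fin 4) ℂ} {e p₀ : Cm 4} {R η : ℝ} {K : Set (Cm 4)}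

theorem exists_bound_entries (hKc : IsCompact K)
    (hHs : ∀ x ∈ K, ∀ i j, ContDiffAt ℝ 1 (fun y => H y i j) x) :
    ∃ M : ℝ, 0 ≤ M ∧ ∀ x ∈ K, ∀ i j, ‖H x i j‖ ≤ M := by
  have h1 : ∀ i j, ∃ M : ℝ, ∀ x ∈ K, ‖H x i j‖ ≤ M := fun i j =>
    hKc.exists_bound_of_continuousOn fun x hx =>
      (hHs x hx i j).continuousAt.continuousWithinAt
  choose M hM using h1
  refine ⟨∑ i, ∑ j, |M i j|, Finset.sum_nonneg fun i _ => Finset.sum_nonneg fun j _ => abs_nonneg _,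
    fun x hx i j => (hM i j x hx).trans ((le_abs_self _).trans ?_)⟩
  refine le_trans ?_ (Finset.single_le_sum (f := fun i => ∑ j, |M i j|)
    (fun i _ => Finset.sum_nonneg fun j _ => abs_nonneg _) (Finset.mem_univ i))
  exact Finset.single_le_sum (f := fun j => |M i j|) (fun j _ => abs_nonneg _) (Finset.mem_univ j)

theorem contDiffAt_re {n : ℕ} {f : Cm n → ℂ} {x : Cm n} {m : WithTop ℕ∞} (h : ContDiffAt ℝ m f x) :
    ContDiffAt ℝ m (fun y => (f y).re) x := Complex.reCLM.contDiff.contDiffAt.comp x h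

theorem contDiffAt_im {n : ℕ} {f : Cm n → ℂ} {x : Cm n} {m : WithTop ℕ∞} (h : ContDiffAt ℝ m f x) :
    ContDiffAt ℝ m (fun y => (f y).im) x := Complex.imCLM.contDiff.contDiffAt.comp x h

theorem area_bound (hopen : IsOpen (ball (0 : Cm 4) r \ E₀))
    (hg : ∀ k, ∀ p ∈ Ω k, AnalyticAt ℂ (g k) p) (hE : E₀ ⊆ ⋃ k, g k '' Ω k)
    (hHs : ∀ x ∈ ball (0 : Cm 4) r \ E₀, ∀ i j, ContDiffAt ℝ 1 (fun y => H y i j) x)
    (hHc : ∀ x ∈ ball (0 : Cm 4) r \ E₀, ∀ i j k,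
      dz k (fun y => H y i j) x = dz i (fun y => H y k j) x)
    (hHp : ∀ x ∈ ball (0 : Cm 4) r \ E₀, (H x).PosSemidef)
    (he : ‖e‖ < 1) (hR : 0 < R) (hη : 0 < η) (hKc : IsCompact K)
    (hKD : K ⊆ ball (0 : Cm 4) r \ E₀)
    (hin : ∀ p ∈ ball p₀ η, ∀ ζ : ℂ, ‖ζ‖ ≤ R → p + ζ • e ∈ ball (0 : Cm 4) r)
    (hK : ∀ p ∈ ball p₀ η, ∀ ζ : ℂ, R / 2 ≤ ‖ζ‖ → ‖ζ‖ ≤ R → p + ζ • e ∈ K) :
    ∃ A₀ : ℝ, 0 ≤ A₀ ∧ ∀ p ∈ ball p₀ η, (∀ ζ : ℂ, ‖ζ‖ ≤ R → p + ζ • e ∉ E₀) →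
      ∫ ζ in ball (0 : ℂ) (R / 2), (hh H e e (p + ζ • e)).re ≤ A₀ := by
  by_cases hne : ∃ p₁ ∈ ball p₀ η, ∀ ζ : ℂ, ‖ζ‖ ≤ R → p₁ + ζ • e ∉ E₀
  swap
  · push Not at hne
    exact ⟨0, le_rfl, fun p hp hp' => absurd hp' (by
      obtain ⟨ζ, hζ, h⟩ := hne p hp
      exact fun h2 => h2 ζ hζ h)⟩
  obtain ⟨p₁, hp₁, hp₁'⟩ := hne
  obtain ⟨M, hM0, hM⟩ := exists_bound_entries (H := H) hKc fun x hx => hHs x (hKD hx)
  set χ : ContDiffBump (0 : ℂ) := ⟨R / 2, R, by positivity, by linarith⟩ with hχ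
  have hts : ∀ ζ ∈ tsupport χ, ‖ζ‖ ≤ R := by
    intro ζ hζ
    rw [χ.tsupport_eq] at hζ
    simpa using hζ
  have hfd : ∀ ζ, fderiv ℝ χ ζ ≠ 0 → R / 2 ≤ ‖ζ‖ ∧ ‖ζ‖ ≤ R := by
    intro ζ hζ
    constructor
    · by_contra hlt
      push Not at hlt
      refine hζ ?_
      have h1 : χ =ᶠ[𝓝 ζ] 1 := χ.eventuallyEq_one_of_mem_ball (by simpa using hlt)
      rw [h1.fderiv_eq]
      exact fderiv_const_apply _
    · exact hts ζ (tsupport_fderiv_subset ℝ (subset_closure hζ))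
  set T : Cm 4 → ℝ := fun y => (hh H e e y).re with hT
  set A : Cm 4 → ℝ := fun p => ∫ ζ, χ ζ * T (p + ζ • e) with hA
  set c : ℝ := ∫ ζ, 2 * ‖fderiv ℝ χ ζ‖ with hc
  have hc0 : 0 ≤ c := integral_nonneg fun ζ => by positivity
  set B : ℝ := (4 : ℝ) ^ 2 * (M * (2 * η)) with hB
  -- the variation along a segment
  have hseg : ∀ p ∈ ball p₀ η, ∀ m ∈ ball p₀ η,
      (∀ (s : ℝ) (ζ : ℂ), ‖ζ‖ ≤ R → p + s • (m - p) + ζ • e ∉ E₀) → |A m - A p| ≤ B * c := by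
    intro p hp m hm hpm
    have hconv : ∀ s ∈ Icc (0 : ℝ) 1, p + s • (m - p) ∈ ball p₀ η := by
      intro s hs
      have := (convex_ball p₀ η).add_smul_sub_mem hp hm hs
      exact this
    have hvn : ‖m - p‖ ≤ 2 * η := by
      rw [← dist_eq_norm]
      have h1 := dist_triangle_right m p p₀
      rw [mem_ball] at hp hm
      linarith
    have key := area_sub_le (V := Cm 4) (D := ball (0 : Cm 4) r \ E₀) (T := T)
      (b₁ := fun y => (hh H (m - p) e y).re) (b₂ := fun y => (hh H (m - p) e y).im) (e := e)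
      (v := m - p) (p := p) (B := B) (χ := χ) hopen χ.contDiff χ.hasCompactSupport
      (fun x hx => contDiffAt_re (hh_contDiffAt (hHs x hx)))
      (fun x hx => contDiffAt_re (hh_contDiffAt (hHs x hx)))
      (fun x hx => contDiffAt_im (hh_contDiffAt (hHs x hx)))
      (fun x hx => hh_closed (fun i j => (hHs x hx i j).differentiableAt one_ne_zero)
        (hHc x hx) (by
          filter_upwards [hopen.mem_nhds hx] with y hy
          exact (hHp y hy).isHermitian) e (m - p))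
      (fun s hs ζ hζ => ⟨hin _ (hconv s hs) ζ (hts ζ hζ), hpm s ζ (hts ζ hζ)⟩)
      (fun s hs ζ hζ => by
        have hx := hK _ (hconv s hs) ζ (hfd ζ hζ).1 (hfd ζ hζ).2
        have h2 : ‖hh H (m - p) e (p + s • (m - p) + ζ • e)‖ ≤ B := by
          refine (norm_hh_le (hM _ hx)).trans ?_
          rw [hB]
          have h3 : ‖m - p‖ * ‖e‖ ≤ 2 * η := by
            calc ‖m - p‖ * ‖e‖ ≤ (2 * η) * 1 := by gcongr
              _ = 2 * η := mul_one _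
          push_cast
          gcongr
        exact ⟨(Complex.abs_re_le_norm _).trans h2, (Complex.abs_im_le_norm _).trans h2⟩)
    have e1 : p + (m - p) = m := by abel
    rw [e1] at key
    exact key
  refine ⟨max 0 (A p₁ + 2 * (B * c)), le_max_left _ _, fun p hp hp' => le_max_of_le_right ?_⟩
  obtain ⟨m, hm, hm1, hm2⟩ := exists_mid hg hE hp' hp₁' isOpen_ball ⟨p₀, mem_ball_self hη⟩
  have h1 := abs_le.1 (hseg p hp m hm hm1)
  have h2 := abs_le.1 (hseg p₁ hp₁ m hm hm2)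
  have hTc : ∀ ζ ∈ tsupport χ, ContinuousAt (fun ζ : ℂ => T (p + ζ • e)) ζ := by
    intro ζ hζ
    have h3 := (contDiffAt_re (hh_contDiffAt (a := e) (b := e)
      (hHs (p + ζ • e) ⟨hin p hp ζ (hts ζ hζ), hp' ζ (hts ζ hζ)⟩))).continuousAt
    exact ContinuousAt.comp (f := fun ζ : ℂ => p + ζ • e) h3 (by fun_prop)
  have hnn : ∀ ζ, 0 ≤ χ ζ * T (p + ζ • e) := by
    intro ζ
    by_cases hζ : ζ ∈ tsupport χ
    · exact mul_nonneg χ.nonneg (hh_re_nonneg (hHp _ ⟨hin p hp ζ (hts ζ hζ), hp' ζ (hts ζ hζ)⟩))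
    · rw [image_eq_zero_of_notMem_tsupport hζ, zero_mul]
  have h3 : ∫ ζ in ball (0 : ℂ) (R / 2), T (p + ζ • e) ≤ A p := by
    have h4 : ∫ ζ in ball (0 : ℂ) (R / 2), T (p + ζ • e) =
        ∫ ζ in ball (0 : ℂ) (R / 2), χ ζ * T (p + ζ • e) := by
      refine setIntegral_congr_fun measurableSet_ball fun ζ hζ => ?_
      have : χ ζ = 1 := χ.one_of_mem_closedBall (ball_subset_closedBall hζ)
      simp only [this, one_mul]
    rw [h4]
    exact setIntegral_le_integral (integrable_cut χ.continuous χ.hasCompactSupport hTc)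
      (ae_of_all _ hnn)
  show ∫ ζ in ball (0 : ℂ) (R / 2), T (p + ζ • e) ≤ _
  linarith

/-- upper bound for quasi-plurisubharmonic functions -/
theorem phi_upper {φ : Cm 4 → ℝ} {δ : ℝ}
    (hHs : ∀ x ∈ ball (0 : Cm 4) r \ E₀, ∀ i j, ContDiffAt ℝ 1 (fun y => H y i j) x)
    (hφ : ∀ x ∈ ball (0 : Cm 4) r \ E₀, ContDiffAt ℝ 2 φ x ∧
      (cHess φ x + (δ : ℂ) • H x).PosSemidef)
    (hR : 0 < R) (hKc : IsCompact K) (hKD : K ⊆ ball (0 : Cm 4) r \ E₀)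
    (hin : ∀ p ∈ ball p₀ η, ∀ ζ : ℂ, ‖ζ‖ ≤ R → p + ζ • e ∈ ball (0 : Cm 4) r)
    (hK : ∀ p ∈ ball p₀ η, ∀ ζ : ℂ, R / 2 ≤ ‖ζ‖ → ‖ζ‖ ≤ R → p + ζ • e ∈ K) :
    ∃ C' : ℝ, ∀ p ∈ ball p₀ η, (∀ ζ : ℂ, ‖ζ‖ ≤ R → p + ζ • e ∉ E₀) →
      φ p ≤ C' + δ * ∫ ζ in ball (0 : ℂ) (R / 2),
        GJ.Gr (R / 2) ζ * (hh H e e (p + ζ • e)).re := by
  obtain ⟨C', hC'⟩ := hKc.exists_bound_of_continuousOn
    (f := φ) fun x hx => ((hφ x (hKD hx)).1.continuousAt).continuousWithinAt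
  refine ⟨C', fun p hp hp' => ?_⟩
  have hR2 : 0 < R / 2 := by positivity
  have hD : ∀ ζ ∈ closedBall (0 : ℂ) (R / 2), p + ζ • e ∈ ball (0 : Cm 4) r \ E₀ := by
    intro ζ hζ
    have : ‖ζ‖ ≤ R := by
      rw [mem_closedBall_zero_iff] at hζ; linarith
    exact ⟨hin p hp ζ this, hp' ζ this⟩
  have hsm : ∀ ζ ∈ closedBall (0 : ℂ) (R / 2), ContDiffAt ℝ 2 (fun ζ : ℂ => φ (p + ζ • e)) ζ := by
    intro ζ hζ
    exact (hφ _ (hD ζ hζ)).1.comp ζ ((contDiff_const.add (contDiff_id.smul contDiff_const) :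
      ContDiff ℝ 2 fun ζ : ℂ => p + ζ • e).contDiffAt)
  have hGJ := GJ.green_jensen hR2 hsm
  have h0 : φ (p + (0 : ℂ) • e) = φ p := by simp
  rw [h0] at hGJ
  have hcirc : Real.circleAverage (fun ζ : ℂ => φ (p + ζ • e)) 0 (R / 2) ≤ C' := by
    refine Real.circleAverage_mono_on_of_le_circle ?_ ?_
    · refine ContinuousOn.circleIntegrable hR2.le fun ζ hζ => ?_
      exact (hsm ζ (sphere_subset_closedBall hζ)).continuousAt.continuousWithinAt
    · intro ζ hζ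
      rw [abs_of_pos hR2, mem_sphere_zero_iff_norm] at hζ
      have := hC' _ (hK p hp ζ hζ.ge (by linarith))
      exact (le_abs_self _).trans this
  have hTc : ContinuousOn (fun ζ : ℂ => (hh H e e (p + ζ • e)).re) (closedBall 0 (R / 2)) := by
    intro ζ hζ
    have h3 := (contDiffAt_re (hh_contDiffAt (a := e) (b := e) (hHs _ (hD ζ hζ)))).continuousAt
    exact (ContinuousAt.comp (f := fun ζ : ℂ => p + ζ • e) h3 (by fun_prop)).continuousWithinAt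
  have hint : ∫ ζ in ball (0 : ℂ) (R / 2), GJ.Gr (R / 2) ζ * (-δ * (hh H e e (p + ζ • e)).re) ≤
      ∫ ζ in ball (0 : ℂ) (R / 2), GJ.Gr (R / 2) ζ * GJ.ddb (fun ζ : ℂ => φ (p + ζ • e)) ζ := by
    refine setIntegral_mono_on (GJ.integrableOn_Gr_mul hR2 (continuousOn_const.mul hTc))
      (GJ.integrableOn_Gr_mul hR2 (GJ.contOn_ddb hsm)) measurableSet_ball fun ζ hζ => ?_
    refine mul_le_mul_of_nonneg_left ?_ (GJ.Gr_nonneg hζ)
    have hx := hD ζ (ball_subset_closedBall hζ)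
    rw [ddb_line (hφ _ hx).1]
    have h1 := hh_re_nonneg (H := fun _ => cHess φ (p + ζ • e) + (δ : ℂ) • H (p + ζ • e))
      (x := p + ζ • e) (e := e) (hφ _ hx).2
    rw [hh_add_smul] at h1
    have h2 : (hh (fun _ => cHess φ (p + ζ • e)) e e (p + ζ • e)).re =
      (hh (cHess φ) e e (p + ζ • e)).re := rfl
    have h3 : (hh (fun _ => H (p + ζ • e)) e e (p + ζ • e)).re =
      (hh H e e (p + ζ • e)).re := rfl
    rw [h2, h3] at h1
    linarith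
  have h5 : ∫ ζ in ball (0 : ℂ) (R / 2), GJ.Gr (R / 2) ζ * (-δ * (hh H e e (p + ζ • e)).re) =
      -(δ * ∫ ζ in ball (0 : ℂ) (R / 2), GJ.Gr (R / 2) ζ * (hh H e e (p + ζ • e)).re) := by
    rw [← integral_const_mul, ← integral_neg]
    refine setIntegral_congr_fun measurableSet_ball fun ζ _ => ?_
    ring
  rw [h5, hGJ] at hint
  linarith

end area

end Vale.Agent.P277.TD
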