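import Vale.Agent.P272.JN.Chain
import Vale.Agent.P272.GJ.Green
import Mathlib.Analysis.SpecialFunctions.SmoothTransition

/-!
# P277, task TX-CORE: Jensen inequality for functions which are bounded above near the zeros of a
holomorphic function
-/

open scoped Manifold ContDiff ComplexOrder Topology
open Metric Set Filter Complex MeasureTheory Vale.Agent.P272 Vale.Agent.P272.GJ

noncomputable section

namespace Vale.Agent.P277.TD

/-- a smooth convex function which vanishes for `t ≤ 0` and is `≥ t - 1` -/
def gc (t : ℝ) : ℝ := ∫ s in (0 : ℝ)..t, Real.smoothTransition s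

theorem hasDerivAt_gc (t : ℝ) : HasDerivAt gc (Real.smoothTransition t) t :=
  intervalIntegral.integral_hasDerivAt_right
    (Real.smoothTransition.continuous.intervalIntegrable _ _)
    (Real.smoothTransition.continuous.stronglyMeasurableAtFilter _ _)
    Real.smoothTransition.continuous.continuousAt

theorem deriv_gc : deriv gc = Real.smoothTransition := funext fun t => (hasDerivAt_gc t).deriv

theorem contDiff_gc : ContDiff ℝ 2 gc := by
  have h : (2 : WithTop ℕ∞) = 1 + 1 := by norm_num
  rw [h, contDiff_succ_iff_deriv]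
  refine ⟨fun t => (hasDerivAt_gc t).differentiableAt, by simp, ?_⟩
  rw [deriv_gc]
  exact Real.smoothTransition.contDiff (n := 1)

theorem gc_of_nonpos {t : ℝ} (h : t ≤ 0) : gc t = 0 := by
  unfold gc
  rw [intervalIntegral.integral_zero_ae]
  refine ae_of_all _ fun s hs => ?_
  rw [uIoc_of_ge h] at hs
  exact Real.smoothTransition.zero_of_nonpos hs.2

theorem gc_nonneg (t : ℝ) : 0 ≤ gc t := by
  rcases le_total t 0 with h | h
  · rw [gc_of_nonpos h]
  · exact intervalIntegral.integral_nonneg h fun s _ => Real.smoothTransition.nonneg s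

theorem sub_one_le_gc (t : ℝ) : t - 1 ≤ gc t := by
  rcases le_total t 1 with h | h
  · linarith [gc_nonneg t]
  · have h1 : gc t = gc 1 + ∫ s in (1 : ℝ)..t, Real.smoothTransition s := by
      unfold gc
      rw [intervalIntegral.integral_add_adjacent_intervals]
      · exact Real.smoothTransition.continuous.intervalIntegrable _ _
      · exact Real.smoothTransition.continuous.intervalIntegrable _ _
    have h2 : ∫ s in (1 : ℝ)..t, Real.smoothTransition s = t - 1 := by
      rw [intervalIntegral.integral_congr (g := fun _ => (1 : ℝ))]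
      · simp
      · intro s hs
        rw [uIcc_of_le h] at hs
        exact Real.smoothTransition.one_of_one_le hs.1
    have := gc_nonneg 1
    linarith

/-- the Laplacian of a convex function of a function -/
theorem ddb_gc_ge {u : ℂ → ℝ} {z : ℂ} (hu : ContDiffAt ℝ 2 u z) :
    Real.smoothTransition (u z) * ddb u z ≤ ddb (fun w => gc (u w)) z := by
  have h1 : ∀ a : ℂ, (fun w => fderiv ℝ (fun w => gc (u w)) w a) =ᶠ[𝓝 z]
      fun w => Real.smoothTransition (u w) * fderiv ℝ u w a := by
    intro a
    filter_upwards [hu.eventually (by simp)] with w hw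
    have h2 := (hasDerivAt_gc (u w)).comp_hasFDerivAt w
      (hw.differentiableAt (by norm_num)).hasFDerivAt
    have h3 : fderiv ℝ (fun w => gc (u w)) w = Real.smoothTransition (u w) • fderiv ℝ u w :=
      h2.fderiv
    rw [h3]
    rfl
  have hd := (hu.differentiableAt (by norm_num)).hasFDerivAt
  have hs : HasDerivAt Real.smoothTransition (deriv Real.smoothTransition (u z)) (u z) :=
    ((Real.smoothTransition.contDiff (n := 1)).differentiable one_ne_zero _).hasDerivAt
  have hs0 : 0 ≤ deriv Real.smoothTransition (u z) := Real.smoothTransition.monotone.deriv_nonneg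
  have h4 := hs.comp_hasFDerivAt z hd
  have hd2 : ∀ a : ℂ, DifferentiableAt ℝ (fun w => fderiv ℝ u w a) z := fun a =>
    ((hu.fderiv_right (m := 1) (by norm_num)).clm_apply contDiffAt_const).differentiableAt
      one_ne_zero
  have h5 : ∀ a : ℂ, fderiv ℝ (fun w => fderiv ℝ (fun w => gc (u w)) w a) z a =
      Real.smoothTransition (u z) * fderiv ℝ (fun w => fderiv ℝ u w a) z a +
        deriv Real.smoothTransition (u z) * (fderiv ℝ u z a) ^ 2 := by
    intro a
    rw [(h1 a).fderiv_eq]
    have h6 := h4.mul (hd2 a).hasFDerivAt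
    have h7 : fderiv ℝ (fun w => Real.smoothTransition (u w) * fderiv ℝ u w a) z = _ := h6.fderiv
    rw [h7]
    simp only [Function.comp, add_apply, smul_apply, smul_eq_mul]
    ring
  unfold ddb
  rw [h5, h5]
  have h8 : 0 ≤ deriv Real.smoothTransition (u z) * (fderiv ℝ u z 1) ^ 2 := by positivity
  have h9 : 0 ≤ deriv Real.smoothTransition (u z) * (fderiv ℝ u z I) ^ 2 := by positivity
  linarith

/-- **Jensen inequality** for a function which is bounded above near the zeros of `D`. -/
theorem jensen_punct {ρ : ℝ} (hρ : 0 < ρ) {f τ : ℂ → ℝ} {D : ℂ → ℂ}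
    (hD : ∀ z ∈ closedBall (0 : ℂ) ρ, AnalyticAt ℂ D z) (hD0 : D 0 ≠ 0)
    (hDs : ∀ z ∈ sphere (0 : ℂ) ρ, D z ≠ 0)
    (hf : ∀ z ∈ closedBall (0 : ℂ) ρ, D z ≠ 0 → ContDiffAt ℝ 2 f z)
    (hb : ∀ z ∈ closedBall (0 : ℂ) ρ, D z = 0 → ∃ C : ℝ, ∀ᶠ w in 𝓝 z, D w ≠ 0 → f w ≤ C)
    {C' : ℝ} (hC : ∀ z ∈ sphere (0 : ℂ) ρ, f z ≤ C')
    (hτ0 : ∀ z ∈ ball (0 : ℂ) ρ, 0 ≤ τ z)
    (hτ : ∀ z ∈ ball (0 : ℂ) ρ, D z ≠ 0 → -τ z ≤ ddb f z)
    (hGi : IntegrableOn (fun z => Gr ρ z * τ z) (ball (0 : ℂ) ρ)) :
    f 0 ≤ C' + 1 + ∫ z in ball (0 : ℂ) ρ, Gr ρ z * τ z := by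
  -- normalisation of `D`
  obtain ⟨S, hS⟩ := (isCompact_closedBall (0 : ℂ) ρ).exists_bound_of_continuousOn
    (f := D) fun z hz => (hD z hz).continuousAt.continuousWithinAt
  set S' : ℝ := |S| + 1 with hS'
  have hS'0 : 0 < S' := by positivity
  set Q : ℂ → ℂ := fun z => D z / S' with hQ
  have hQ0 : ∀ z, Q z = 0 ↔ D z = 0 := by
    intro z
    simp only [hQ, div_eq_zero_iff, Complex.ofReal_eq_zero]
    constructor
    · rintro (h | h)
      · exact h
      · exact absurd h hS'0.ne'
    · exact Or.inl
  have hQan : ∀ z ∈ closedBall (0 : ℂ) ρ, AnalyticAt ℂ Q z := fun z hz => (hD z hz).div_const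
  have hQ1 : ∀ z ∈ closedBall (0 : ℂ) ρ, ‖Q z‖ ≤ 1 := by
    intro z hz
    simp only [hQ, norm_div, Complex.norm_real, Real.norm_eq_abs, abs_of_pos hS'0]
    rw [div_le_one hS'0]
    linarith [hS z hz, le_abs_self S]
  have hlog : ∀ z ∈ closedBall (0 : ℂ) ρ, Real.log (‖Q z‖ ^ 2) ≤ 0 := by
    intro z hz
    refine Real.log_nonpos (by positivity) ?_
    have := hQ1 z hz
    have h0 := norm_nonneg (Q z)
    nlinarith
  set A : ℝ := ∫ z in ball (0 : ℂ) ρ, Gr ρ z * τ z with hA
  -- the inequality with `ε`
  have key : ∀ ε : ℝ, 0 < ε → f 0 + ε * Real.log (‖Q 0‖ ^ 2) ≤ C' + 1 + A := by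
    intro ε hε
    set u : ℂ → ℝ := fun z => f z + ε * Real.log (‖Q z‖ ^ 2) - C' with hu
    set v : ℂ → ℝ := fun z => if D z = 0 then 0 else gc (u z) with hv
    -- smoothness
    have hcont : ∀ z ∈ closedBall (0 : ℂ) ρ, ContinuousAt D z := fun z hz => (hD z hz).continuousAt
    have hnear : ∀ z ∈ closedBall (0 : ℂ) ρ, D z ≠ 0 → v =ᶠ[𝓝 z] fun w => gc (u w) := by
      intro z hz h0
      filter_upwards [(hcont z hz).eventually_ne h0] with w hw
      simp only [hv, if_neg hw]
    have husm : ∀ z ∈ closedBall (0 : ℂ) ρ, D z ≠ 0 → ContDiffAt ℝ 2 u z := by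
      intro z hz h0
      have h1 := (JN.ddb_log_norm_sq (hQan z hz) (by rwa [Ne, hQ0])).2
      exact ((hf z hz h0).add (contDiffAt_const.mul h1)).sub contDiffAt_const
    have hzero : ∀ z ∈ closedBall (0 : ℂ) ρ, D z = 0 → z ∈ ball (0 : ℂ) ρ := by
      intro z hz h0
      rw [mem_closedBall, dist_zero_right] at hz
      rcases hz.lt_or_eq with h | h
      · simpa using h
      · exact absurd h0 (hDs z (by simpa using h))
    have hnear0 : ∀ z ∈ closedBall (0 : ℂ) ρ, D z = 0 → v =ᶠ[𝓝 z] fun _ => 0 := by
      intro z hz h0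
      obtain ⟨C, hC1⟩ := hb z hz h0
      have h1 : Tendsto (fun w => ‖Q w‖) (𝓝 z) (𝓝 0) := by
        have h2 : ContinuousAt (fun w => ‖Q w‖) z := (hQan z hz).continuousAt.norm
        have h3 : ‖Q z‖ = 0 := by rw [norm_eq_zero, hQ0]; exact h0
        have h4 := h2.tendsto
        rwa [h3] at h4
      set B : ℝ := Real.exp (-(|C - C'| / ε)) with hB
      have hB0 : 0 < B := Real.exp_pos _
      filter_upwards [hC1, h1.eventually (gt_mem_nhds hB0), h1.eventually (gt_mem_nhds one_pos)]
        with w hw1 hw2 hw3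
      by_cases hw : D w = 0
      · simp only [hv, if_pos hw]
      · simp only [hv, if_neg hw]
        refine gc_of_nonpos ?_
        have hQw : 0 < ‖Q w‖ := by
          rw [norm_pos_iff, Ne, hQ0]; exact hw
        have h5 : Real.log (‖Q w‖ ^ 2) ≤ Real.log ‖Q w‖ := by
          refine Real.log_le_log (by positivity) ?_
          nlinarith
        have h6 : Real.log ‖Q w‖ ≤ -(|C - C'| / ε) := by
          have := Real.log_le_log hQw hw2.le
          rwa [hB, Real.log_exp] at this
        have h7 : ε * Real.log (‖Q w‖ ^ 2) ≤ -|C - C'| := by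
          calc ε * Real.log (‖Q w‖ ^ 2) ≤ ε * (-(|C - C'| / ε)) := by
                gcongr; exact h5.trans h6
            _ = -|C - C'| := by field_simp
        have h8 := hw1 hw
        have h9 := le_abs_self (C - C')
        simp only [hu]
        linarith
    have hvs : ∀ z ∈ closedBall (0 : ℂ) ρ, ContDiffAt ℝ 2 v z := by
      intro z hz
      by_cases h0 : D z = 0
      · exact contDiffAt_const.congr_of_eventuallyEq (hnear0 z hz h0)
      · exact (contDiff_gc.contDiffAt.comp z (husm z hz h0)).congr_of_eventuallyEq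
          (hnear z hz h0)
    have hGJ := green_jensen hρ hvs
    -- circle
    have hcirc : Real.circleAverage v 0 ρ = 0 := by
      have h1 : Set.EqOn v (fun _ => 0) (sphere 0 |ρ|) := by
        intro z hz
        rw [abs_of_pos hρ] at hz
        have h0 := hDs z hz
        simp only [hv, if_neg h0]
        refine gc_of_nonpos ?_
        have h2 := hC z hz
        have h3 := hlog z (sphere_subset_closedBall hz)
        have h4 : ε * Real.log (‖Q z‖ ^ 2) ≤ 0 := mul_nonpos_of_nonneg_of_nonpos hε.le h3
        simp only [hu]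
        linarith
      rw [Real.circleAverage_congr_sphere h1, Real.circleAverage_const]
    rw [hcirc, zero_sub] at hGJ
    -- the Laplacian
    have hlap : ∀ z ∈ ball (0 : ℂ) ρ, -τ z ≤ ddb v z := by
      intro z hz
      have hzc := ball_subset_closedBall hz
      by_cases h0 : D z = 0
      · have h1 : ddb v z = 0 := by
          rw [JN.ddb_congr (hnear0 z hzc h0)]
          simp [ddb]
        rw [h1]
        linarith [hτ0 z hz]
      · rw [JN.ddb_congr (hnear z hzc h0)]
        refine le_trans ?_ (ddb_gc_ge (husm z hzc h0))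
        have h1 : ddb u z = ddb f z := by
          have h2 := JN.ddb_log_norm_sq (hQan z hzc) (by rwa [Ne, hQ0])
          have h3 : ContDiffAt ℝ 2 (fun w => ε * Real.log (‖Q w‖ ^ 2) - C') z :=
            (contDiffAt_const.mul h2.2).sub contDiffAt_const
          have h4 : u = fun w => f w + (ε * Real.log (‖Q w‖ ^ 2) - C') := by
            funext w; simp only [hu]; ring
          have h5 : ddb (fun w => ε * Real.log (‖Q w‖ ^ 2) - C') z =
              ε * ddb (fun w => Real.log (‖Q w‖ ^ 2)) z := by
            have h6 : ∀ a : ℂ, fderiv ℝ (fun w => fderiv ℝ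
                (fun w => ε * Real.log (‖Q w‖ ^ 2) - C') w a) z a =
                ε * fderiv ℝ (fun w => fderiv ℝ (fun w => Real.log (‖Q w‖ ^ 2)) w a) z a := by
              intro a
              have h7 : (fun w => fderiv ℝ (fun w => ε * Real.log (‖Q w‖ ^ 2) - C') w a) =ᶠ[𝓝 z]
                  fun w => ε * fderiv ℝ (fun w => Real.log (‖Q w‖ ^ 2)) w a := by
                filter_upwards [h2.2.eventually (by simp)] with w hw
                have h8 := ((hw.differentiableAt (by norm_num)).hasFDerivAt.const_mul ε).sub_const C'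
                rw [h8.fderiv]
                rfl
              rw [h7.fderiv_eq]
              have h9 : DifferentiableAt ℝ
                  (fun w => fderiv ℝ (fun w => Real.log (‖Q w‖ ^ 2)) w a) z :=
                ((h2.2.fderiv_right (m := 1) (by norm_num)).clm_apply
                  contDiffAt_const).differentiableAt one_ne_zero
              rw [(h9.hasFDerivAt.const_mul ε).fderiv]
              rfl
            unfold ddb
            rw [h6, h6]
            ring
          rw [h4, JN.ddb_add (hf z hzc h0) h3, h5, h2.1]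
          ring
        rw [h1]
        have h2 := hτ z hz h0
        have h3 := hτ0 z hz
        have h4 := Real.smoothTransition.nonneg (u z)
        have h5 := Real.smoothTransition.le_one (u z)
        nlinarith
    have hint : -A ≤ ∫ z in ball (0 : ℂ) ρ, Gr ρ z * ddb v z := by
      rw [hA, ← integral_neg]
      refine setIntegral_mono_on hGi.neg (integrableOn_Gr_mul hρ (contOn_ddb hvs))
        measurableSet_ball fun z hz => ?_
      have h1 := mul_le_mul_of_nonneg_left (hlap z hz) (Gr_nonneg hz)
      linarith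
    rw [hGJ] at hint
    have hv0 : u 0 - 1 ≤ v 0 := by
      simp only [hv, if_neg hD0]
      exact sub_one_le_gc _
    have hu0 : u 0 = f 0 + ε * Real.log (‖Q 0‖ ^ 2) - C' := rfl
    rw [hu0] at hv0
    linarith
  -- `ε → 0`
  have hlim : Tendsto (fun ε : ℝ => f 0 + ε * Real.log (‖Q 0‖ ^ 2)) (𝓝[>] 0)
      (𝓝 (f 0 + 0 * Real.log (‖Q 0‖ ^ 2))) := by
    have h1 : ContinuousAt (fun ε : ℝ => f 0 + ε * Real.log (‖Q 0‖ ^ 2)) 0 := by fun_prop
    exact h1.tendsto.mono_left nhdsWithin_le_nhds
  have := le_of_tendsto hlim (eventually_nhdsWithin_of_forall fun ε hε => key ε hε)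
  simpa using this

end Vale.Agent.P277.TD
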