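import Vale.Agent.P277.H762.CoreX1

/-!
# P277, task TX-CORE: bound of the areas of discs
-/

open scoped Manifold ContDiff ComplexOrder Topology ENNReal
open Complex Vale.Agent.P272.K Vale.Agent.P272 Filter Set Metric MeasureTheory

noncomputable section

namespace Vale.Agent.P277.TD

section area
variable {D : Set (Cm 4)} {H : Cm 4 → Matrix (Fin 4) (Fin 4) ℂ} {e p₀ : Cm 4} {R η : ℝ}
  {K : Set (Cm 4)}

/-- area of the disc at `q`, with a cutoff function, of the mollified form -/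
def ar (χ : ContDiffBump (0 : ℂ)) (e : Cm 4) (G : Cm 4 → Matrix (Fin 4) (Fin 4) ℂ) (q : Cm 4) : ℝ :=
  ∫ ζ, χ ζ * (hh G e e (q + ζ • e)).re

/-- variation of the areas along segments, uniformly in a compact set -/
theorem seg_pack (hD : IsOpen D) (hp : ∀ z ∈ D, (H z).PosSemidef) (hi : LocInt D H)
    (hc : WeakCl D H) (he : ‖e‖ < 1) (χ : ContDiffBump (0 : ℂ)) {M δK : ℝ}
    (hM0 : 0 ≤ M) (hδK : 0 < δK)
    (hM : ∀ φ : ContDiffBump (0 : Cm 4), φ.rOut < δK → ∀ x ∈ K, ∀ i j, ‖molM φ H x i j‖ ≤ M)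
    {Q : Set (Cm 4)} (hQ : IsCompact Q) (hQD : Q ⊆ D) :
    ∃ δ : ℝ, 0 < δ ∧ ∀ φ : ContDiffBump (0 : Cm 4), φ.rOut < δ → ∀ p m : Cm 4,
      (∀ s ∈ Icc (0 : ℝ) 1, ∀ ζ ∈ tsupport χ, p + s • (m - p) + ζ • e ∈ Q) →
      (∀ s ∈ Icc (0 : ℝ) 1, ∀ ζ, fderiv ℝ χ ζ ≠ 0 → p + s • (m - p) + ζ • e ∈ K) →
      ‖m - p‖ ≤ 2 * η →
      |ar χ e (molM φ H) m - ar χ e (molM φ H) p| ≤
        (4 : ℝ) ^ 2 * (M * (2 * η)) * ∫ ζ, 2 * ‖fderiv ℝ χ ζ‖ := by
  obtain ⟨δ, C, hδ, hpack⟩ := mol_pack hD hp hi hc hQ hQD e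
  refine ⟨min δ δK, lt_min hδ hδK, fun φ hφ p m htube hshell hv => ?_⟩
  obtain ⟨G, D', hD', hQD', hGs, hGc, hGh, hG0, hGe, -, -⟩ := hpack φ (hφ.trans_le (min_le_left _ _))
  set B : ℝ := (4 : ℝ) ^ 2 * (M * (2 * η)) with hB
  have hGM : ∀ x ∈ Q, x ∈ K → ∀ i j, ‖G x i j‖ ≤ M := by
    intro x hx hxK i j
    rw [hGe x hx]
    exact hM φ (hφ.trans_le (min_le_right _ _)) x hxK i j
  have hfs : ∀ ζ, fderiv ℝ χ ζ ≠ 0 → ζ ∈ tsupport χ := fun ζ hζ =>
    tsupport_fderiv_subset ℝ (subset_closure hζ)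
  have key := area_sub_le (V := Cm 4) (D := D') (T := fun y => (hh G e e y).re)
    (b₁ := fun y => (hh G (m - p) e y).re) (b₂ := fun y => (hh G (m - p) e y).im) (e := e)
    (v := m - p) (p := p) (B := B) (χ := χ) hD' χ.contDiff χ.hasCompactSupport
    (fun x _ => contDiffAt_re (hh_contDiffAt fun i j => (hGs i j).contDiffAt))
    (fun x _ => contDiffAt_re (hh_contDiffAt fun i j => (hGs i j).contDiffAt))
    (fun x _ => contDiffAt_im (hh_contDiffAt fun i j => (hGs i j).contDiffAt))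
    (fun x hx => hh_closed (fun i j => (hGs i j).contDiffAt.differentiableAt one_ne_zero)
      (hGc x hx) (Eventually.of_forall hGh) e (m - p))
    (fun s hs ζ hζ => hQD' (htube s hs ζ hζ))
    (fun s hs ζ hζ => by
      have h2 : ‖hh G (m - p) e (p + s • (m - p) + ζ • e)‖ ≤ B := by
        refine (norm_hh_le (hGM _ (htube s hs ζ (hfs ζ hζ)) (hshell s hs ζ hζ))).trans ?_
        rw [hB]
        have h3 : ‖m - p‖ * ‖e‖ ≤ 2 * η := by
          calc ‖m - p‖ * ‖e‖ ≤ (2 * η) * 1 := by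
                gcongr
                exact (norm_nonneg _).trans hv
            _ = 2 * η := mul_one _
        push_cast
        gcongr
      exact ⟨(Complex.abs_re_le_norm _).trans h2, (Complex.abs_im_le_norm _).trans h2⟩)
  have e1 : p + (m - p) = m := by abel
  rw [e1] at key
  have har : ∀ q, (∀ ζ ∈ tsupport χ, q + ζ • e ∈ Q) → ar χ e (molM φ H) q =
      ∫ ζ, χ ζ * (hh G e e (q + ζ • e)).re := by
    intro q hq
    unfold ar
    refine integral_congr_ae (ae_of_all _ fun ζ => ?_)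
    by_cases hζ : ζ ∈ tsupport χ
    · have h5 : hh (molM φ H) e e (q + ζ • e) = hh G e e (q + ζ • e) := by
        unfold hh
        rw [hGe _ (hq ζ hζ)]
      simp only [h5]
    · simp only [image_eq_zero_of_notMem_tsupport hζ, zero_mul]
  rw [har m fun ζ hζ => by
    have := htube 1 (right_mem_Icc.2 zero_le_one) ζ hζ
    rwa [one_smul, e1] at this, har p fun ζ hζ => by
    have := htube 0 (left_mem_Icc.2 zero_le_one) ζ hζ
    rwa [zero_smul, add_zero] at this]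
  exact key

/-- compactness of tubes -/
theorem isCompact_tube {T : Type*} [TopologicalSpace T] {S : Set T} (hS : IsCompact S)
    {f : T → Cm 4} (hf : Continuous f) (χ : ContDiffBump (0 : ℂ)) (e : Cm 4) :
    IsCompact ((fun x : T × ℂ => f x.1 + x.2 • e) '' (S ×ˢ tsupport χ)) := by
  refine (hS.prod χ.hasCompactSupport).image ?_
  fun_prop

/-- the mollified areas at one good point are bounded -/
theorem base_bound (hD : IsOpen D) (hp : ∀ z ∈ D, (H z).PosSemidef) (hi : LocInt D H)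
    (hc : WeakCl D H) (he : ‖e‖ < 1) (χ : ContDiffBump (0 : ℂ)) {M δK : ℝ}
    (hM0 : 0 ≤ M) (hδK : 0 < δK)
    (hM : ∀ φ : ContDiffBump (0 : Cm 4), φ.rOut < δK → ∀ x ∈ K, ∀ i j, ‖molM φ H x i j‖ ≤ M)
    (hK : ∀ p ∈ ball p₀ η, ∀ ζ, fderiv ℝ χ ζ ≠ 0 → p + ζ • e ∈ K) {p₁ : Cm 4}
    (hp₁ : p₁ ∈ ball p₀ η) (hgood : ∀ ζ ∈ tsupport χ, p₁ + ζ • e ∈ D) :
    ∃ C₁ δ : ℝ, 0 < δ ∧ ∀ φ : ContDiffBump (0 : Cm 4), φ.rOut < δ →
      ar χ e (molM φ H) p₁ ≤ C₁ := by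
  -- a compact tube around the disc
  have hdc : IsCompact ((fun ζ : ℂ => p₁ + ζ • e) '' tsupport χ) :=
    IsCompact.image χ.hasCompactSupport (by fun_prop)
  obtain ⟨δ₁, hδ₁, hδD⟩ := hdc.exists_cthickening_subset_open hD (by
    rintro _ ⟨ζ, hζ, rfl⟩
    exact hgood ζ hζ)
  obtain ⟨η₂, hη₂, hη₂s⟩ := Metric.nhds_basis_closedBall.mem_iff.1 (isOpen_ball.mem_nhds hp₁)
  set Q := cthickening δ₁ ((fun ζ : ℂ => p₁ + ζ • e) '' tsupport χ) with hQ
  have hQc : IsCompact Q := hdc.cthickening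
  set η₁ : ℝ := min δ₁ η₂ with hη₁
  have hη₁0 : 0 < η₁ := lt_min hδ₁ hη₂
  have hin : ∀ p ∈ closedBall p₁ η₁, ∀ ζ ∈ tsupport χ, p + ζ • e ∈ Q := by
    intro p hp ζ hζ
    refine mem_cthickening_of_dist_le _ (p₁ + ζ • e) _ _ ⟨ζ, hζ, rfl⟩ ?_
    rw [dist_add_right]
    exact (mem_closedBall.1 hp).trans (min_le_left _ _)
  have hin2 : closedBall p₁ η₁ ⊆ ball p₀ η :=
    (closedBall_subset_closedBall (min_le_right _ _)).trans hη₂s
  obtain ⟨δa, hδa, hseg⟩ := seg_pack (η := η) hD hp hi hc he χ hM0 hδK hM hQc hδD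
  obtain ⟨δb, C, hδb, hpack⟩ := mol_pack hD hp hi hc hQc hδD e
  set B : ℝ := (4 : ℝ) ^ 2 * (M * (2 * η)) * ∫ ζ, 2 * ‖fderiv ℝ χ ζ‖ with hB
  set V : ℝ≥0∞ := volume (closedBall p₁ η₁) with hV
  have hV0 : V ≠ 0 := (measure_closedBall_pos volume p₁ hη₁0).ne'
  have hV1 : V ≠ ⊤ := measure_closedBall_lt_top.ne
  refine ⟨B + (∫ ζ, χ ζ) * C / V.toReal, min δa δb, lt_min hδa hδb, fun φ hφ => ?_⟩
  obtain ⟨G, D', hD', hQD', hGs, hGc, hGh, hG0, hGe, hGi, hGC⟩ :=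
    hpack φ (hφ.trans_le (min_le_right _ _))
  set T : Cm 4 → ℝ := fun x => (hh G e e x).re with hT
  have hTc : Continuous T := by
    have h1 : ContDiff ℝ 1 (hh G e e) := contDiff_iff_contDiffAt.2 fun x =>
      hh_contDiffAt fun i j => (hGs i j).contDiffAt
    exact Complex.continuous_re.comp h1.continuous
  have hC0 : 0 ≤ C := (integral_nonneg hG0).trans hGC
  -- comparison with the points of the small ball
  have hcomp : ∀ p ∈ closedBall p₁ η₁, ar χ e (molM φ H) p₁ - B ≤ ∫ ζ, χ ζ * T (p + ζ • e) := by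
    intro p hp'
    have hconv : ∀ s ∈ Icc (0 : ℝ) 1, p₁ + s • (p - p₁) ∈ closedBall p₁ η₁ := fun s hs =>
      (convex_closedBall p₁ η₁).add_smul_sub_mem (mem_closedBall_self hη₁0.le) hp' hs
    have h1 := hseg φ (hφ.trans_le (min_le_left _ _)) p₁ p
      (fun s hs ζ hζ => hin _ (hconv s hs) ζ hζ)
      (fun s hs ζ hζ => hK _ (hin2 (hconv s hs)) ζ hζ) (by
        rw [← dist_eq_norm]
        have h3 := hin2 hp'
        have h2 := dist_triangle_right p p₁ p₀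
        rw [mem_ball] at hp₁ h3
        linarith)
    have h2 : ar χ e (molM φ H) p = ∫ ζ, χ ζ * T (p + ζ • e) := by
      unfold ar
      refine integral_congr_ae (ae_of_all _ fun ζ => ?_)
      by_cases hζ : ζ ∈ tsupport χ
      · have h5 : hh (molM φ H) e e (p + ζ • e) = hh G e e (p + ζ • e) := by
          unfold hh
          rw [hGe _ (hin p hp' ζ hζ)]
        simp only [h5, hT]
      · simp only [image_eq_zero_of_notMem_tsupport hζ, zero_mul]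
    have h3 := (abs_le.1 h1).1
    rw [h2] at h3
    linarith
  -- Tonelli
  have hmeas : Measurable fun x : Cm 4 × ℂ => ENNReal.ofReal (χ x.2 * T (x.1 + x.2 • e)) := by
    refine ENNReal.measurable_ofReal.comp (Continuous.measurable ?_)
    exact (χ.continuous.comp continuous_snd).mul (hTc.comp (by fun_prop))
  have h1 : ∫⁻ p in closedBall p₁ η₁, ∫⁻ ζ, ENNReal.ofReal (χ ζ * T (p + ζ • e)) ≤
      ENNReal.ofReal (∫ ζ, χ ζ) * ENNReal.ofReal C := by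
    rw [lintegral_lintegral_swap hmeas.aemeasurable]
    have h2 : ∀ ζ : ℂ, ∫⁻ p in closedBall p₁ η₁, ENNReal.ofReal (χ ζ * T (p + ζ • e)) ≤
        ENNReal.ofReal (χ ζ) * ENNReal.ofReal C := by
      intro ζ
      calc ∫⁻ p in closedBall p₁ η₁, ENNReal.ofReal (χ ζ * T (p + ζ • e))
          ≤ ∫⁻ p, ENNReal.ofReal (χ ζ * T (p + ζ • e)) := setLIntegral_le_lintegral _ _
        _ = ∫⁻ p, ENNReal.ofReal (χ ζ) * ENNReal.ofReal (T (p + ζ • e)) := by
            refine lintegral_congr fun p => ?_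
            rw [ENNReal.ofReal_mul χ.nonneg]
        _ = ENNReal.ofReal (χ ζ) * ∫⁻ p, ENNReal.ofReal (T (p + ζ • e)) := by
            rw [lintegral_const_mul]
            exact ENNReal.measurable_ofReal.comp
              (hTc.comp (by fun_prop : Continuous fun p : Cm 4 => p + ζ • e)).measurable
        _ = ENNReal.ofReal (χ ζ) * ∫⁻ p, ENNReal.ofReal (T p) := by
            rw [lintegral_add_right_eq_self (fun p => ENNReal.ofReal (T p)) (ζ • e)]
        _ ≤ ENNReal.ofReal (χ ζ) * ENNReal.ofReal C := by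
            gcongr
            rw [← ofReal_integral_eq_lintegral_ofReal hGi (ae_of_all _ hG0)]
            exact ENNReal.ofReal_le_ofReal hGC
    calc ∫⁻ ζ, ∫⁻ p in closedBall p₁ η₁, ENNReal.ofReal (χ ζ * T (p + ζ • e))
        ≤ ∫⁻ ζ, ENNReal.ofReal (χ ζ) * ENNReal.ofReal C := lintegral_mono h2
      _ = (∫⁻ ζ, ENNReal.ofReal (χ ζ)) * ENNReal.ofReal C :=
          lintegral_mul_const _ (ENNReal.measurable_ofReal.comp χ.continuous.measurable)
      _ = ENNReal.ofReal (∫ ζ, χ ζ) * ENNReal.ofReal C := by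
          rw [ofReal_integral_eq_lintegral_ofReal
            (χ.continuous.integrable_of_hasCompactSupport χ.hasCompactSupport)
            (ae_of_all _ fun ζ => χ.nonneg)]
  have h3 : ENNReal.ofReal (ar χ e (molM φ H) p₁ - B) * V ≤
      ∫⁻ p in closedBall p₁ η₁, ∫⁻ ζ, ENNReal.ofReal (χ ζ * T (p + ζ • e)) := by
    rw [← setLIntegral_const]
    refine setLIntegral_mono' measurableSet_closedBall fun p hp' => ?_
    rw [← ofReal_integral_eq_lintegral_ofReal]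
    · exact ENNReal.ofReal_le_ofReal (hcomp p hp')
    · exact integrable_cut χ.continuous χ.hasCompactSupport fun ζ _ =>
        (hTc.comp (by fun_prop : Continuous fun ζ : ℂ => p + ζ • e)).continuousAt
    · exact ae_of_all _ fun ζ => mul_nonneg χ.nonneg (hG0 _)
  have h4 := h3.trans h1
  have hVr : 0 < V.toReal := ENNReal.toReal_pos hV0 hV1
  have h5 : (ar χ e (molM φ H) p₁ - B) * V.toReal ≤ (∫ ζ, χ ζ) * C := by
    have hχ0 : 0 ≤ ∫ ζ, χ ζ := integral_nonneg fun ζ => χ.nonneg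
    rw [← ENNReal.ofReal_mul hχ0, ← ENNReal.ofReal_toReal hV1] at h4
    rcases le_total (ar χ e (molM φ H) p₁ - B) 0 with h | h
    · exact (mul_nonpos_of_nonpos_of_nonneg h hVr.le).trans (mul_nonneg hχ0 hC0)
    · rw [← ENNReal.ofReal_mul h] at h4
      exact (ENNReal.ofReal_le_ofReal_iff (mul_nonneg hχ0 hC0)).1 h4
  have h6 := (le_div_iff₀ hVr).2 h5
  linarith

/-- **bound of the areas** of good discs -/
theorem area_boundX {c : Cm 4} {r : ℝ} {θ : Cm 4 → ℂ} {E : Set (Cm 4)} {Ω : ℕ → Set (Cm 2)}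
    {g : ℕ → Cm 2 → Cm 4} (hopen : IsOpen (ball c r \ E))
    (hg : ∀ k, ∀ p ∈ Ω k, AnalyticAt ℂ (g k) p) (hE : ball c r ∩ E ⊆ ⋃ k, g k '' Ω k)
    (hθ : ∀ z ∈ ball c r, AnalyticAt ℂ θ z) (hp : ∀ z ∈ ball c r \ E, (H z).PosSemidef)
    (hi : LocInt (ball c r \ E) H) (hc : WeakCl (ball c r \ E) H)
    (hs : ∀ z ∈ ball c r \ E, θ z ≠ 0 → ∀ i j, ContinuousAt (fun w => H w i j) z)
    (he : ‖e‖ < 1) (hR : 0 < R) (hη : 0 < η) (hKc : IsCompact K)
    (hKD : K ⊆ {x | x ∈ ball c r \ E ∧ θ x ≠ 0})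
    (hin : ∀ p ∈ ball p₀ η, ∀ ζ : ℂ, ‖ζ‖ ≤ R → p + ζ • e ∈ ball c r)
    (hK : ∀ p ∈ ball p₀ η, ∀ ζ : ℂ, R / 2 ≤ ‖ζ‖ → ‖ζ‖ ≤ R → p + ζ • e ∈ K) :
    ∃ A₀ : ℝ, 0 ≤ A₀ ∧ ∀ p ∈ ball p₀ η, (∀ ζ : ℂ, ‖ζ‖ ≤ R → p + ζ • e ∉ E) → θ p ≠ 0 →
      IntegrableOn (fun ζ : ℂ => (hh H e e (p + ζ • e)).re) (ball (0 : ℂ) (R / 2)) ∧
      ∫ ζ in ball (0 : ℂ) (R / 2), (hh H e e (p + ζ • e)).re ≤ A₀ := by
  by_cases hne : ∃ p₁ ∈ ball p₀ η, ∀ ζ : ℂ, ‖ζ‖ ≤ R → p₁ + ζ • e ∉ E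
  swap
  · push Not at hne
    exact ⟨0, le_rfl, fun p hp hp' => absurd hp' (by
      obtain ⟨ζ, hζ, h⟩ := hne p hp
      exact fun h2 => h2 ζ hζ h)⟩
  obtain ⟨p₁, hp₁, hp₁'⟩ := hne
  -- bound on the shell
  have hopen' := isOpen_nz hopen hθ
  obtain ⟨δK, hδK, hδKD⟩ := hKc.exists_cthickening_subset_open hopen' hKD
  have hKK : IsCompact (cthickening δK K) := hKc.cthickening
  have hM : ∃ M : ℝ, 0 ≤ M ∧ ∀ x ∈ cthickening δK K, ∀ i j, ‖H x i j‖ ≤ M := by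
    have h1 : ∀ i j, ∃ M : ℝ, ∀ x ∈ cthickening δK K, ‖H x i j‖ ≤ M := fun i j =>
      hKK.exists_bound_of_continuousOn fun x hx =>
        (hs x (hδKD hx).1 (hδKD hx).2 i j).continuousWithinAt
    choose M hM using h1
    refine ⟨∑ i, ∑ j, |M i j|, Finset.sum_nonneg fun i _ => Finset.sum_nonneg fun j _ =>
      abs_nonneg _, fun x hx i j => (hM i j x hx).trans ((le_abs_self _).trans ?_)⟩
    refine le_trans ?_ (Finset.single_le_sum (f := fun i => ∑ j, |M i j|)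
      (fun i _ => Finset.sum_nonneg fun j _ => abs_nonneg _) (Finset.mem_univ i))
    exact Finset.single_le_sum (f := fun j => |M i j|) (fun j _ => abs_nonneg _) (Finset.mem_univ j)
  obtain ⟨M, hM0, hM⟩ := hM
  have hMφ : ∀ φ : ContDiffBump (0 : Cm 4), φ.rOut < δK → ∀ x ∈ K, ∀ i j,
      ‖molM φ H x i j‖ ≤ M := by
    intro φ hφ x hx i j
    refine norm_molF_le fun z hz => hM z ?_ i j
    exact mem_cthickening_of_dist_le z x _ _ hx ((mem_ball.1 hz).le.trans hφ.le)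
  set χ : ContDiffBump (0 : ℂ) := ⟨R / 2, R, by positivity, by linarith⟩ with hχ
  have hts : ∀ ζ ∈ tsupport χ, ‖ζ‖ ≤ R := by
    intro ζ hζ
    rw [χ.tsupport_eq] at hζ
    simpa using hζ
  have hfd : ∀ ζ, fderiv ℝ χ ζ ≠ 0 → R / 2 ≤ ‖ζ‖ ∧ ‖ζ‖ ≤ R := by
    intro ζ hζ
    constructor
    · by_contra hlt
      push Not at hlt
      refine hζ ?_
      have h1 : χ =ᶠ[𝓝 ζ] 1 := χ.eventuallyEq_one_of_mem_ball (by simpa using hlt)
      rw [h1.fderiv_eq]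
      exact fderiv_const_apply _
    · exact hts ζ (tsupport_fderiv_subset ℝ (subset_closure hζ))
  have hK' : ∀ p ∈ ball p₀ η, ∀ ζ, fderiv ℝ χ ζ ≠ 0 → p + ζ • e ∈ K := fun p hp ζ hζ =>
    hK p hp ζ (hfd ζ hζ).1 (hfd ζ hζ).2
  obtain ⟨C₁, δ₁, hδ₁, hbase⟩ := base_bound (p₀ := p₀) (η := η) hopen hp hi hc he χ hM0 hδK hMφ hK'
    hp₁ fun ζ hζ => ⟨hin p₁ hp₁ ζ (hts ζ hζ), hp₁' ζ (hts ζ hζ)⟩
  set B : ℝ := (4 : ℝ) ^ 2 * (M * (2 * η)) * ∫ ζ, 2 * ‖fderiv ℝ χ ζ‖ with hB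
  refine ⟨max 0 (C₁ + 2 * B), le_max_left _ _, fun p hpb hpg hpθ => ?_⟩
  -- the path
  have hE' : ∀ q ∈ ball p₀ η, (∀ ζ : ℂ, ‖ζ‖ ≤ R → q + ζ • e ∉ E) →
      ∀ ζ : ℂ, ‖ζ‖ ≤ R → q + ζ • e ∉ ball c r ∩ E := fun q _ hq ζ hζ h => hq ζ hζ h.2
  obtain ⟨m, hm, hm1, hm2⟩ := exists_mid hg hE (hE' p hpb hpg) (hE' p₁ hp₁ hp₁') isOpen_ball
    ⟨p₀, mem_ball_self hη⟩
  have htube : ∀ q ∈ ball p₀ η, (∀ (s : ℝ) (ζ : ℂ), ‖ζ‖ ≤ R →
      q + s • (m - q) + ζ • e ∉ ball c r ∩ E) → ∃ δ : ℝ, 0 < δ ∧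
      ∀ φ : ContDiffBump (0 : Cm 4), φ.rOut < δ →
        |ar χ e (molM φ H) m - ar χ e (molM φ H) q| ≤ B := by
    intro q hq hqm
    have hconv : ∀ s ∈ Icc (0 : ℝ) 1, q + s • (m - q) ∈ ball p₀ η := fun s hs =>
      (convex_ball p₀ η).add_smul_sub_mem hq hm hs
    have hQc := isCompact_tube (isCompact_Icc (a := (0 : ℝ)) (b := 1))
      (f := fun s : ℝ => q + s • (m - q)) (by fun_prop) χ e
    obtain ⟨δ, hδ, h⟩ := seg_pack (η := η) hopen hp hi hc he χ hM0 hδK hMφ hQc (by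
      rintro _ ⟨⟨s, ζ⟩, ⟨hs, hζ⟩, rfl⟩
      have h1 := hin _ (hconv s hs) ζ (hts ζ hζ)
      exact ⟨h1, fun h2 => hqm s ζ (hts ζ hζ) ⟨h1, h2⟩⟩)
    refine ⟨δ, hδ, fun φ hφ => h φ hφ q m ?_ ?_ ?_⟩
    · intro s hs ζ hζ
      exact ⟨(s, ζ), ⟨hs, hζ⟩, rfl⟩
    · intro s hs ζ hζ
      exact hK' _ (hconv s hs) ζ hζ
    · rw [← dist_eq_norm]
      have h1 := dist_triangle_right m q p₀
      rw [mem_ball] at hq hm
      linarith
  obtain ⟨δ₂, hδ₂, hseg⟩ := htube p hpb hm1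
  obtain ⟨δ₃, hδ₃, hseg'⟩ := htube p₁ hp₁ hm2
  -- the tube of `p`
  have hQc : IsCompact ((fun ζ : ℂ => p + ζ • e) '' tsupport χ) :=
    IsCompact.image χ.hasCompactSupport (by fun_prop)
  have hQD : (fun ζ : ℂ => p + ζ • e) '' tsupport χ ⊆ ball c r \ E := by
    rintro _ ⟨ζ, hζ, rfl⟩
    exact ⟨hin p hpb ζ (hts ζ hζ), hpg ζ (hts ζ hζ)⟩
  obtain ⟨δ₄, C₄, hδ₄, hpack⟩ := mol_pack hopen hp hi hc hQc hQD e
  obtain ⟨φ, hφδ, hφ0⟩ := exists_bumps (lt_min (lt_min hδ₁ hδ₂) (lt_min hδ₃ hδ₄))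
  have hφ1 : ∀ n, (φ n).rOut < δ₁ := fun n =>
    (hφδ n).trans_le ((min_le_left _ _).trans (min_le_left _ _))
  have hφ2 : ∀ n, (φ n).rOut < δ₂ := fun n =>
    (hφδ n).trans_le ((min_le_left _ _).trans (min_le_right _ _))
  have hφ3 : ∀ n, (φ n).rOut < δ₃ := fun n =>
    (hφδ n).trans_le ((min_le_right _ _).trans (min_le_left _ _))
  have hφ4 : ∀ n, (φ n).rOut < δ₄ := fun n =>
    (hφδ n).trans_le ((min_le_right _ _).trans (min_le_right _ _))
  have har : ∀ n, ar χ e (molM (φ n) H) p ≤ C₁ + 2 * B := by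
    intro n
    have h1 := abs_le.1 (hseg (φ n) (hφ2 n))
    have h2 := abs_le.1 (hseg' (φ n) (hφ3 n))
    have h3 := hbase (φ n) (hφ1 n)
    linarith
  -- the mollified densities on the disc
  set Tn : ℕ → ℂ → ℝ := fun n ζ => (hh (molM (φ n) H) e e (p + ζ • e)).re with hTn
  have hG : ∀ n, ∃ T : ℂ → ℝ, Continuous T ∧ (∀ ζ, 0 ≤ T ζ) ∧ ∀ ζ ∈ tsupport χ, Tn n ζ = T ζ := by
    intro n
    obtain ⟨G, D', hD', hQD', hGs, hGc, hGh, hG0, hGe, hGi, hGC⟩ := hpack (φ n) (hφ4 n)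
    have h1 : ContDiff ℝ 1 (hh G e e) := contDiff_iff_contDiffAt.2 fun x =>
      hh_contDiffAt fun i j => (hGs i j).contDiffAt
    refine ⟨fun ζ => (hh G e e (p + ζ • e)).re, ?_, fun ζ => hG0 _, fun ζ hζ => ?_⟩
    · exact Complex.continuous_re.comp (h1.continuous.comp (by fun_prop))
    · simp only [hTn]
      unfold hh
      rw [hGe _ ⟨ζ, hζ, rfl⟩]
  choose T hTc hT0 hTe using hG
  have hsub : ball (0 : ℂ) (R / 2) ⊆ tsupport χ := by
    rw [χ.tsupport_eq]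
    exact (ball_subset_ball (by linarith : R / 2 ≤ R)).trans ball_subset_closedBall
  have hR2 : 0 < R / 2 := half_pos hR
  -- convergence
  have hconvg : ∀ᵐ ζ ∂(volume.restrict (ball (0 : ℂ) (R / 2))),
      Tendsto (fun n => T n ζ) atTop (𝓝 ((hh H e e (p + ζ • e)).re)) := by
    filter_upwards [ae_ne_line hθ hR2 (fun ζ hζ => hin p hpb ζ (by linarith)) hpθ,
      ae_restrict_mem measurableSet_ball] with ζ hζ hζb
    have hx := hQD ⟨ζ, hsub hζb, rfl⟩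
    have h1 := tendsto_hh_molM hopen hi hφ0 hx (hs _ hx hζ) e e
    refine h1.congr fun n => ?_
    exact hTe n ζ (hsub hζb)
  have hmeas : AEStronglyMeasurable (fun ζ : ℂ => (hh H e e (p + ζ • e)).re)
      (volume.restrict (ball (0 : ℂ) (R / 2))) :=
    aestronglyMeasurable_of_tendsto_ae atTop (fun n => (hTc n).aestronglyMeasurable) hconvg
  have hnn : 0 ≤ᵐ[volume.restrict (ball (0 : ℂ) (R / 2))] fun ζ : ℂ =>
      (hh H e e (p + ζ • e)).re := by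
    filter_upwards [ae_restrict_mem measurableSet_ball] with ζ hζb
    exact hh_re_nonneg (hp _ (hQD ⟨ζ, hsub hζb, rfl⟩))
  have hFatou : ∫⁻ ζ in ball (0 : ℂ) (R / 2), ENNReal.ofReal ((hh H e e (p + ζ • e)).re) ≤
      ENNReal.ofReal (max 0 (C₁ + 2 * B)) := by
    calc ∫⁻ ζ in ball (0 : ℂ) (R / 2), ENNReal.ofReal ((hh H e e (p + ζ • e)).re)
        = ∫⁻ ζ in ball (0 : ℂ) (R / 2), liminf (fun n => ENNReal.ofReal (T n ζ)) atTop := by
          refine lintegral_congr_ae ?_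
          filter_upwards [hconvg] with ζ hζ
          exact ((ENNReal.continuous_ofReal.tendsto _).comp hζ).liminf_eq.symm
      _ ≤ liminf (fun n => ∫⁻ ζ in ball (0 : ℂ) (R / 2), ENNReal.ofReal (T n ζ)) atTop :=
          lintegral_liminf_le fun n => ENNReal.measurable_ofReal.comp (hTc n).measurable
      _ ≤ liminf (fun _ : ℕ => ENNReal.ofReal (max 0 (C₁ + 2 * B))) atTop := by
          refine liminf_le_liminf (Eventually.of_forall fun n => ?_)
          have h1 : ∫⁻ ζ in ball (0 : ℂ) (R / 2), ENNReal.ofReal (T n ζ) ≤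
              ∫⁻ ζ, ENNReal.ofReal (χ ζ * T n ζ) := by
            calc ∫⁻ ζ in ball (0 : ℂ) (R / 2), ENNReal.ofReal (T n ζ)
                = ∫⁻ ζ in ball (0 : ℂ) (R / 2), ENNReal.ofReal (χ ζ * T n ζ) := by
                  refine setLIntegral_congr_fun measurableSet_ball fun ζ hζ => ?_
                  have : χ ζ = 1 := χ.one_of_mem_closedBall (ball_subset_closedBall hζ)
                  simp only [this, one_mul]
              _ ≤ _ := setLIntegral_le_lintegral _ _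
          refine h1.trans ?_
          have h2 : ar χ e (molM (φ n) H) p = ∫ ζ, χ ζ * T n ζ := by
            unfold ar
            refine integral_congr_ae (ae_of_all _ fun ζ => ?_)
            by_cases hζ : ζ ∈ tsupport χ
            · simp only [← hTe n ζ hζ, hTn]
            · simp only [image_eq_zero_of_notMem_tsupport hζ, zero_mul]
          rw [← ofReal_integral_eq_lintegral_ofReal
            (integrable_cut χ.continuous χ.hasCompactSupport fun ζ _ => (hTc n).continuousAt)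
            (ae_of_all _ fun ζ => mul_nonneg χ.nonneg (hT0 n ζ)), ← h2]
          exact ENNReal.ofReal_le_ofReal ((har n).trans (le_max_right _ _))
      _ = ENNReal.ofReal (max 0 (C₁ + 2 * B)) := liminf_const _
  have hint : IntegrableOn (fun ζ : ℂ => (hh H e e (p + ζ • e)).re) (ball (0 : ℂ) (R / 2)) := by
    refine ⟨hmeas, ?_⟩
    rw [hasFiniteIntegral_iff_ofReal hnn]
    exact hFatou.trans_lt ENNReal.ofReal_lt_top
  refine ⟨hint, ?_⟩
  rw [← ofReal_integral_eq_lintegral_ofReal hint hnn] at hFatou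
  exact (ENNReal.ofReal_le_ofReal_iff (le_max_left _ _)).1 hFatou

end area

end Vale.Agent.P277.TD
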