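import Vale.Agent.P277.H762.D56
import Vale.Agent.P277.H29.PM

/-!
# P277, Theorem R2: the geometry of a flip, for proper modifications
-/

open scoped Manifold ContDiff Topology
open Vale.Agent.P272.K Vale.Agent.P285.H281.FD Set Filter

noncomputable section

namespace Vale.Agent.P277.H762

open Vale.Agent.P277 H619

/-- (D'') -/
theorem stD2 : StD2 := by
  intro Y _ _ _ _ _ X Z X' f f' A L L' F W v τ₀ hW O hOW hv hB hF
  obtain ⟨t, H⟩ := Pr.of_flip F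
  have hAA := amin_eq H F.ample F.ample'
  have hAcl : IsClosed (Amin f) := isClosed_of_isAn (isAn_amin H F.ample F.ample')
  have hninj := F.ninj
  rw [Function.Injective] at hninj
  push Not at hninj
  obtain ⟨x₁, x₂, hx₁₂, hne⟩ := hninj
  set z₀ := f x₁ with hz₀
  have hz₀A : z₀ ∈ Amin f := ⟨x₁, x₂, rfl, hx₁₂.symm, hne⟩
  obtain ⟨N, Vc, ψ, hzc, hψc⟩ := exists_isCoord Z z₀
  obtain ⟨V₁, k, N₁, N₂, s, σ, hV₁, hz₁, hk, hs₁, hσ₁⟩ := exists_VA F.ample F.ample' z₀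
  set V₀ := V₁ ∩ Vc with hV₀
  have hV₀o : IsOpen V₀ := hV₁.inter hψc.isOpen
  have hz₀V : z₀ ∈ V₀ := ⟨hz₁, hzc⟩
  have hψ : IsCoord Z V₀ ψ := hψc.mono hV₀o inter_subset_right
  have hs := hs₁.mono (V' := V₀) inter_subset_left
  have hσ := hσ₁.mono (V' := V₀) inter_subset_left
  obtain ⟨τ, g, hτ, hcomp, hg, hg', hAmin, hnz⟩ := amin_equations H hV₀o hs hσ
  obtain ⟨i₀, hi₀⟩ := H.lb.cover x₁
  -- a dense sequence
  have hdO : Dense (v '' O) := by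
    have := dense_compl_of_dimLe (by norm_num) H.nX.dense hB
    rwa [compl_compl] at this
  have hdA := dense_off H.nX H.sm
  have hfV : ∀ {V : Set Z.pt}, IsOpen V → IsOpen (f ⁻¹' V) := fun h => h.preimage H.sm.cont
  set W₀ : Set X.pt := v '' O ∩ (L.U i₀ ∩ f ⁻¹' V₀ ∩ (f ⁻¹' A)ᶜ) with hW₀
  have hAo : IsOpen ((f ⁻¹' A)ᶜ) := (H.sm.isClosed.preimage H.sm.cont).isOpen_compl
  have hmeet : ∀ W : Set X.pt, IsOpen W → W ⊆ L.U i₀ ∩ f ⁻¹' V₀ → W.Nonempty →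
      (W ∩ W₀).Nonempty := by
    intro W hW hWs hWn
    have h1 : (W ∩ v '' O).Nonempty := hdO.inter_open_nonempty W hW hWn
    obtain ⟨x, ⟨hx1, hx2⟩, hx3⟩ := hdA.inter_open_nonempty _ (hW.inter hv.isOpen_image) h1
    exact ⟨x, hx1, hx2, hWs hx1, hx3⟩
  have hW₀n : W₀.Nonempty := by
    obtain ⟨x, -, hx⟩ := hmeet (L.U i₀ ∩ f ⁻¹' V₀) ((H.lb.isOpen i₀).inter (hfV hV₀o)) Subset.rfl
      ⟨x₁, hi₀, hz₀V⟩
    exact ⟨x, hx⟩
  have : Nonempty W₀ := hW₀n.to_subtype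
  obtain ⟨q, hq⟩ := TopologicalSpace.exists_dense_seq W₀
  choose D hDO hDq using fun n => (q n).2.1
  have hDW : ∀ n, v (D n) ∈ L.U i₀ ∧ f (v (D n)) ∈ V₀ ∧ f (v (D n)) ∉ A := by
    intro n
    rw [hDq]
    exact ⟨(q n).2.2.1.1, (q n).2.2.1.2, (q n).2.2.2⟩
  have hdense : ∀ W : Set X.pt, IsOpen W → W ⊆ L.U i₀ ∩ f ⁻¹' V₀ → W.Nonempty →
      ∃ n, v (D n) ∈ W := by
    intro W hW hWs hWn
    obtain ⟨x, hxW, hxW₀⟩ := hmeet W hW hWs hWn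
    obtain ⟨_, hy, ⟨n, rfl⟩⟩ := hq.inter_open_nonempty (Subtype.val ⁻¹' W : Set W₀)
      (hW.preimage continuous_subtype_val) ⟨⟨x, hxW₀⟩, hxW⟩
    exact ⟨n, by rw [hDq]; exact hy⟩
  let e : ℕ → Chart 4 Y := fun n => chartAt (Cm 4) (D n)
  have he : ∀ n, At (e n) (D n) := fun n => ⟨chart_mem_atlas _ _, mem_chart_source _ _⟩
  -- generic sections
  let E := (Fintype.equivFin (Option (Fin N) × (Fin (N₂ + 1) × Fin (N₂ + 1)))).symm
  set M := Fintype.card (Option (Fin N) × (Fin (N₂ + 1) × Fin (N₂ + 1))) with hM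
  set u : Fin M → L.ι → X.pt → ℂ := fun m => fam (L := L) f ψ τ (E m) with hu
  set u' : Fin M → L'.ι → X'.pt → ℂ := fun m => fam (L := L') f' ψ σ (E m) with hu'
  have hus : ∀ m, IsSecx X (f ⁻¹' V₀) (L.pow k) (u m) := fun m =>
    secx_fam hψ H.sm.holo hτ (E m)
  have hu's : ∀ m, IsSecx X' (f' ⁻¹' V₀) (L'.pow k) (u' m) := fun m =>
    secx_fam hψ H.sm'.holo hσ.sec (E m)
  have hz₀A' : z₀ ∈ A := amin_subset H.sm hz₀A
  have hS1 : DimLe X' 1 (f' ⁻¹' V₀ ∩ f' ⁻¹' A) := hF.mono inter_subset_right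
  have hbp : ∀ x ∈ f' ⁻¹' V₀, ∀ j, x ∈ (L'.pow k).U j → ∃ m, u' m j x ≠ 0 := by
    intro x hx j hj
    obtain ⟨l, hl⟩ := hσ.gen x j hx hj
    refine ⟨E.symm (none, l), ?_⟩
    simp only [hu', Equiv.apply_symm_apply, fam, hf, one_mul]
    exact hl
  obtain ⟨w, w', hcount, hempty, hind⟩ := exists_generic hv (L := L) (L' := L'.pow k)
    (lb_pow H.lb' k) (u := u) (u' := u') (hV₀o.preimage H.sm'.cont) hu's inter_subset_left hS1 hbp
    (by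
      obtain ⟨x', hx'⟩ := H.sm'.surj z₀
      exact ⟨x', by rw [mem_preimage, hx']; exact hz₀V, by rw [mem_preimage, hx']; exact hz₀A'⟩)
    (i₀ := i₀) he hDO (fun n m => (hus m).holo i₀ _ (hDW n).2.1 (hDW n).1) (by
      intro n
      have h1 := fam_span hv H.sm hψ hτ (hDO n) (he n) (hDW n).2.1 (hDW n).2.2 (hDW n).1 (by
        obtain ⟨x', hx'⟩ := H.sm'.surj (f (v (D n)))
        obtain ⟨j, hj⟩ := H.lb'.cover x'
        obtain ⟨l, hl⟩ := hσ.gen x' j (by rw [hx']; exact (hDW n).2.1) hj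
        refine ⟨l, ?_⟩
        have h2 := hcomp l (v (D n)) x' i₀ j (hDW n).2.1 (hDW n).2.2 hx' (hDW n).1 hj
        rw [← h2] at hl
        exact left_ne_zero_of_mul hl)
      have h2 : range (fun m => dfr v (e n) (D n) (u m i₀)) =
          range (fun p => dfr v (e n) (D n) (fam (L := L) f ψ τ p i₀)) := by
        have h3 := E.surjective.range_comp (fun p => dfr v (e n) (D n) (fam (L := L) f ψ τ p i₀))
        exact h3
      rw [h2, h1])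
  set σ₁ := lin w u' with hσ₁'
  set σ₂ := lin w' u' with hσ₂'
  set τ₁ := lin w u with hτ₁'
  set τ₂ := lin w' u with hτ₂'
  have hσ₁s : IsSecx X' (f' ⁻¹' V₀) (L'.pow k) σ₁ := secx_lin hu's w
  have hσ₂s : IsSecx X' (f' ⁻¹' V₀) (L'.pow k) σ₂ := secx_lin hu's w'
  have hτ₁s : IsSecx X (f ⁻¹' V₀) (L.pow k) τ₁ := secx_lin hus w
  have hτ₂s : IsSecx X (f ⁻¹' V₀) (L.pow k) τ₂ := secx_lin hus w'
  have hc₁ := lin_compat (ψ := ψ) hcomp E w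
  have hc₂ := lin_compat (ψ := ψ) hcomp E w'
  -- no common zeros over a neighbourhood of `z₀`
  have hU'o : IsOpen {x' | f' x' ∈ V₀ ∧ ∃ j, x' ∈ L'.U j ∧ (σ₁ j x' ≠ 0 ∨ σ₂ j x' ≠ 0)} := by
    rw [isOpen_iff_eventually]
    rintro x' ⟨hx, j, hj, h0⟩
    have h1 : ∀ᶠ y in 𝓝 x', σ₁ j y ≠ 0 ∨ σ₂ j y ≠ 0 := by
      rcases h0 with h0 | h0
      · exact ((hol_continuousAt (hσ₁s.holo j x' hx hj)).eventually_ne h0).mono fun _ h => Or.inl h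
      · exact ((hol_continuousAt (hσ₂s.holo j x' hx hj)).eventually_ne h0).mono fun _ h => Or.inr h
    filter_upwards [H.sm'.cont.continuousAt.eventually_mem (hV₀o.mem_nhds hx),
      (H.lb'.isOpen j).eventually_mem hj, h1] with y h2 h3 h4
    exact ⟨h2, j, h3, h4⟩
  obtain ⟨V₂, hV₂, hz₂, hV₂s⟩ := exists_nhds_preimage_subset H.sm'.cont (z := z₀) hU'o (by
    intro x' hx'
    have hx'' : f' x' = z₀ := hx'
    obtain ⟨j, hj⟩ := H.lb'.cover x'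
    refine ⟨by rw [hx'']; exact hz₀V, j, hj, ?_⟩
    by_contra hcon
    push Not at hcon
    have h1 : x' ∈ f' ⁻¹' V₀ ∩ f' ⁻¹' A ∩ Zs (L'.pow k) σ₁ ∩ Zs (L'.pow k) σ₂ :=
      ⟨⟨⟨by rw [mem_preimage, hx'']; exact hz₀V, by rw [mem_preimage, hx'']; exact hz₀A'⟩,
        j, hj, hcon.1⟩, j, hj, hcon.2⟩
    exact Set.eq_empty_iff_forall_notMem.1 hempty x' h1)
  have hAcount : (Amin f ∩ V₀).Countable := by
    refine (hcount.image f').mono ?_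
    rintro z ⟨hzA, hz⟩
    obtain ⟨x', j, hx', hj, h0⟩ := exists_zero H.nX' H.nZ H.sm' H.lb' hV₀o hσ hσ₁s hz (hAA ▸ hzA)
    exact ⟨x', ⟨⟨by rw [mem_preimage, hx']; exact hz,
      by rw [mem_preimage, hx']; exact amin_subset H.sm hzA⟩, j, hj, h0⟩, hx'⟩
  obtain ⟨V, hV, hz₀V', hVcl, hVfr⟩ := exists_nhd_frontier hAcount (hV₂.inter hV₀o) ⟨hz₂, hz₀V⟩
  have hVV₀ : V ⊆ V₀ := fun z hz => (hVcl (subset_closure hz)).2
  have hVV₂ : V ⊆ V₂ := fun z hz => (hVcl (subset_closure hz)).1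
  -- the common zeros
  have hK : f ⁻¹' V ∩ Zs (L.pow k) τ₁ ∩ Zs (L.pow k) τ₂ = f ⁻¹' (V ∩ Amin f) := by
    ext x
    constructor
    · rintro ⟨⟨hxV, h1⟩, h2⟩
      refine ⟨hxV, ?_⟩
      by_contra hxA
      obtain ⟨x', hx'⟩ := H.sm'.surj (f x)
      obtain ⟨i, hi⟩ := H.lb.cover x
      have h1' : τ₁ i x = 0 := (zs_iff hτ₁s (lb_pow H.lb k) (hVV₀ hxV) hi).1 h1
      have h2' : τ₂ i x = 0 := (zs_iff hτ₂s (lb_pow H.lb k) (hVV₀ hxV) hi).1 h2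
      have h3 : x' ∈ f' ⁻¹' V₂ := by rw [mem_preimage, hx']; exact hVV₂ hxV
      obtain ⟨-, j, hj, h0⟩ := hV₂s h3
      rcases h0 with h0 | h0
      · exact nz_transport H hAA hV₀o hσ₁s hτ₁s hc₁ (hVV₀ hxV) hxA hx' hi hj h0 h1'
      · exact nz_transport H hAA hV₀o hσ₂s hτ₂s hc₂ (hVV₀ hxV) hxA hx' hi hj h0 h2'
    · rintro ⟨hxV, hxA⟩
      obtain ⟨a, b, ha, hb, hab⟩ := hxA
      obtain ⟨i, hi⟩ := H.lb.cover x
      have h3 : ∃ y, f y = f x ∧ y ≠ x := by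
        by_cases h : a = x
        · exact ⟨b, hb, fun h' => hab (h.trans h'.symm)⟩
        · exact ⟨a, ha, h⟩
      obtain ⟨y, hy, hyx⟩ := h3
      exact ⟨⟨hxV, i, hi, vanish H.nX H.nZ H.sm H.lb hV₀o hs hτ₁s (hVV₀ hxV) hy hyx hi⟩,
        i, hi, vanish H.nX H.nZ H.sm H.lb hV₀o hs hτ₂s (hVV₀ hxV) hy hyx hi⟩
  have hKcl : IsClosed (f ⁻¹' (V ∩ Amin f)) := by
    have h1 : V ∩ Amin f = closure V ∩ Amin f := by
      refine Subset.antisymm (inter_subset_inter_left _ subset_closure) ?_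
      rintro z ⟨hz, hzA⟩
      refine ⟨?_, hzA⟩
      by_contra hzV
      have h2 : z ∈ frontier V := by
        rw [frontier, hV.interior_eq]
        exact ⟨hz, hzV⟩
      exact Set.disjoint_left.1 hVfr h2 ⟨hzA, (hVcl hz).2⟩
    rw [h1]
    exact (isClosed_closure.inter hAcl).preimage H.sm.cont
  -- restriction of the dense sequence to `U`
  set U : Set X.pt := L.U i₀ ∩ f ⁻¹' V with hU
  have hUo : IsOpen U := (H.lb.isOpen i₀).inter (hfV hV)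
  have hUs : U ⊆ L.U i₀ ∩ f ⁻¹' V₀ := fun x hx => ⟨hx.1, hVV₀ hx.2⟩
  have hx₁U : x₁ ∈ U := ⟨hi₀, hz₀V'⟩
  obtain ⟨n₀, hn₀⟩ := hdense U hUo hUs ⟨x₁, hx₁U⟩
  classical
  let r : ℕ → ℕ := fun n => if v (D n) ∈ U then n else n₀
  have hr : ∀ n, v (D (r n)) ∈ U := by
    intro n
    by_cases h : v (D n) ∈ U
    · simp only [r, if_pos h]; exact h
    · simp only [r, if_neg h]; exact hn₀
  have hdense' : ∀ W : Set X.pt, IsOpen W → W ⊆ U → W.Nonempty → ∃ n, v (D (r n)) ∈ W := by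
    intro W hW hWs hWn
    obtain ⟨n, hn⟩ := hdense W hW (hWs.trans hUs) hWn
    refine ⟨n, ?_⟩
    simp only [r, if_pos (hWs hn)]
    exact hn
  have hτx : ∀ {τ' : L.ι → X.pt → ℂ}, IsSecx X (f ⁻¹' V₀) (L.pow k) τ' → τ' i₀ x₁ = 0 := by
    intro τ' hτ'
    exact vanish H.nX H.nZ H.sm H.lb hV₀o hs hτ' hz₀V hx₁₂.symm (Ne.symm hne) hi₀
  have hnot := d5' Y X O v hv hdO hB τ₀ hW.dim U hUo x₁ hx₁U (τ₁ i₀) (τ₂ i₀)
    (fun y hy => ⟨hτ₁s.holo i₀ y (hUs hy).2 (hUs hy).1, hτ₂s.holo i₀ y (hUs hy).2 (hUs hy).1⟩)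
    (hτx hτ₁s) (hτx hτ₂s) (fun n => D (r n)) (fun n => e (r n)) (fun n => he _)
    (fun n => ⟨hDO _, hr n⟩) (fun n => hind _) hdense'
  rw [Set.not_subset] at hnot
  obtain ⟨x₀, ⟨hx₀U, h01, h02⟩, hx₀O⟩ := hnot
  have hx₀K : x₀ ∈ f ⁻¹' V ∩ Zs (L.pow k) τ₁ ∩ Zs (L.pow k) τ₂ :=
    ⟨⟨hx₀U.2, i₀, hx₀U.1, h01⟩, i₀, hx₀U.1, h02⟩
  have hx₀A : f x₀ ∈ A := by
    have h1 := hx₀K
    rw [hK] at h1
    exact amin_subset H.sm h1.2
  -- sections of `L^{-k}`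
  obtain ⟨s₁, s₂, hs₁s, hs₂s, hs₁0, hs₂0, hs3, hs4, hs5⟩ := stD6T Y X Z f A L H.sm H.lb V hV
    N ψ (hψ.mono hV hVV₀) k _ s (hs.mono hVV₀) O v hv τ₀ hW.dim (f ⁻¹' (V ∩ Amin f))
    (preimage_mono inter_subset_left)
    (H.sm.dim.mono (preimage_mono (inter_subset_right.trans (amin_subset H.sm)))) x₀
    ⟨hx₀U.2, hx₀A⟩ hx₀O i₀ hx₀U.1 (τ₁ i₀) (τ₂ i₀) (fun n => D (r n)) (fun n => e (r n))
    (fun n => he _) (fun n => ⟨hDO _, (hr n).1, (hr n).2, (hDW _).2.2⟩) (fun n => hind _)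
  refine ⟨(Bd.inv L).pow k, L.pow k, f ⁻¹' V, s₁, s₂, τ₁, τ₂, x₀, ?_, ?_⟩
  · exact
      { isOpen := hfV hV
        lbP := lb_pow (lb_inv H.lb) k
        lbQ := lb_pow H.lb k
        sec := hs₁s
        sec' := hs₂s
        secσ := secx_mono (preimage_mono hVV₀) hτ₁s
        secσ' := secx_mono (preimage_mono hVV₀) hτ₂s
        closed := by rw [hK]; exact hKcl
        mem := hx₀K
        zero := ⟨⟨i₀, hx₀U.1, hs₁0⟩, i₀, hx₀U.1, hs₂0⟩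
        nocommon := hs3
        count := by rw [hK]; exact hs4
        jac := by
          refine ⟨i₀, i₀, hx₀U.1, hx₀U.1, fun W' hW' hx₀W => ?_⟩
          obtain ⟨n, hn⟩ := hdense' (W' ∩ U) (hW'.inter hUo) inter_subset_right ⟨x₀, hx₀W, hx₀U⟩
          refine ⟨D (r n), hOW (hDO _), ⟨⟨hn.1, hn.2.2⟩, hn.2.1, hn.2.1⟩, fun e' he' => ?_⟩
          have hhol : ∀ i, X.Hol (![s₁ i₀, s₂ i₀, τ₁ i₀, τ₂ i₀] i) (v (D (r n))) := by
            intro i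
            fin_cases i
            · exact hs₁s.holo i₀ _ hn.2.2 hn.2.1
            · exact hs₂s.holo i₀ _ hn.2.2 hn.2.1
            · exact hτ₁s.holo i₀ _ (hVV₀ hn.2.2) hn.2.1
            · exact hτ₂s.holo i₀ _ (hVV₀ hn.2.2) hn.2.1
          exact (Jac_ne_zero_iff hv (hDO _) (he _) he' hhol).1 (hs5 n) }
  · rw [hK]
    exact preimage_mono (inter_subset_right.trans (amin_subset H.sm))

end Vale.Agent.P277.H762
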