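import Vale.Agent.P277.H29.D5
import Vale.Agent.P277.H619.Dnc

/-!
# P277, Theorem R2 (arbitrary singular spaces): D5, D6 relative to a thin set
-/

open scoped Manifold ContDiff Topology
open Vale.Agent.P272.K Vale.Agent.P285.H281.FD Set Filter

noncomputable section

namespace Vale.Agent.P277.H762

open H619 H29

/-- (D5), relative to a set `T` of dimension `≤ 1` -/
theorem d5' (Y : Type) [TopologicalSpace Y] [ChartedSpace (Cm 4) Y]
    [IsManifold 𝓘(ℂ, Cm 4) ω Y] (X : CSp) (O : Set Y) (v : Y → X.pt) (hv : IsOpenEmb X O v)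
    (hdense : Dense (v '' O)) (hdim : DimLe X 2 (v '' O)ᶜ) (T : Set X.pt) (hT : DimLe X 1 T)
    (U : Set X.pt) (hU : IsOpen U) (x : X.pt)
    (hxU : x ∈ U) (h₁ h₂ : X.pt → ℂ) (hol : ∀ y ∈ U, X.Hol h₁ y ∧ X.Hol h₂ y) (hx1 : h₁ x = 0)
    (hx2 : h₂ x = 0) (D : ℕ → Y) (e : ℕ → Chart 4 Y) (heD : ∀ n, At (e n) (D n))
    (hDO : ∀ n, D n ∈ O ∧ v (D n) ∈ U)
    (hind : ∀ n, LinearIndependent ℂ ![dfr v (e n) (D n) h₁, dfr v (e n) (D n) h₂])
    (hDd : ∀ W : Set X.pt, IsOpen W → W ⊆ U → W.Nonempty → ∃ n, v (D n) ∈ W) :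
    ¬ {y | y ∈ U ∧ h₁ y = 0 ∧ h₂ y = 0} ⊆ T := by
  classical
  intro hsub
  obtain ⟨N, V₀, u, hxV₀, hu₀⟩ := exists_isCoord X x
  set V := V₀ ∩ U
  have hVo : IsOpen V := hu₀.isOpen.inter hU
  have hu : IsCoord X V u := hu₀.mono hVo inter_subset_left
  have hxV : x ∈ V := ⟨hxV₀, hxU⟩
  -- the indices in `V`
  let I : Type := {n : ℕ // v (D n) ∈ V}
  let Λ : ∀ n : I, (Fin N → ℂ) →ₗ[ℂ] (Cm 4 →L[ℂ] ℂ) := fun n =>
    { toFun := fun w => ∑ a, w a • dfr v (e n) (D n) (u a)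
      map_add' := fun w w' => by
        simp only [Pi.add_apply]
        rw [← Finset.sum_add_distrib]
        refine Finset.sum_congr rfl fun a _ => ContinuousLinearMap.ext fun z => ?_
        exact add_mul (w a) (w' a) (dfr v (e n) (D n) (u a) z)
      map_smul' := fun c w => by simp [mul_smul, Finset.smul_sum] }
  have hΛ : ∀ n : I, Function.Surjective (Λ n) := fun n ℓ =>
    exists_dfr_eq hv (hDO n).1 (heD n) hu n.2 ℓ
  have hfr : Module.finrank ℂ (Cm 4 →L[ℂ] ℂ) = 4 := by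
    have h1 : Module.finrank ℂ (Cm 4 →L[ℂ] ℂ) = Module.finrank ℂ (Cm 4 →ₗ[ℂ] ℂ) :=
      (LinearMap.toContinuousLinearMap (E := Cm 4) (F' := ℂ) (𝕜 := ℂ)).finrank_eq.symm
    rw [h1, Module.finrank_linearMap]
    simp
  have hspan : ∀ {k : ℕ} (hk : k < 4) (b : Fin k → (Cm 4 →L[ℂ] ℂ)),
      Submodule.span ℂ (range b) ≠ ⊤ := by
    intro k hk b htop
    have h1 : Module.finrank ℂ (Submodule.span ℂ (range b)) ≤ k := by
      have := finrank_range_le_card (R := ℂ) b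
      simpa [Set.finrank] using this
    rw [htop, finrank_top, hfr] at h1
    omega
  have hcomap : ∀ (n : I) (p : Submodule ℂ (Cm 4 →L[ℂ] ℂ)), p ≠ ⊤ → p.comap (Λ n) ≠ ⊤ := by
    intro n p hp h
    apply hp
    rw [Submodule.eq_top_iff']
    intro ℓ
    obtain ⟨w, rfl⟩ := hΛ n ℓ
    have : w ∈ p.comap (Λ n) := by rw [h]; trivial
    exact this
  obtain ⟨n₀, hn₀⟩ := hDd V hVo inter_subset_right ⟨x, hxV⟩
  have hN : N ≠ 0 := by
    rintro rfl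
    obtain ⟨w, hw⟩ := hΛ ⟨n₀, hn₀⟩ (ContinuousLinearMap.proj (R := ℂ) (φ := fun _ : Fin 4 => ℂ) 0)
    have h1 : (Λ ⟨n₀, hn₀⟩) w = 0 := by simp [Λ]
    rw [h1] at hw
    have := congrArg (fun L : Cm 4 →L[ℂ] ℂ => L (Pi.single 0 1)) hw
    simp at this
  -- C1
  set S : Set X.pt := {y | y ∈ V ∧ h₁ y = 0 ∧ h₂ y = 0}
  have hS1 : DimLe X (0 + 1) S := hT.mono fun y hy => hsub ⟨hy.1.2, hy.2⟩
  obtain ⟨H, hH1, hH2⟩ := H73.stC1_final X (triv X.pt) (isLBx_triv X) V hVo N hN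
    (fun a _ y => u a y - u a x)
    (fun a => ⟨fun _ y hy _ => hol_sub (hu.hol a y hy) (hol_const _ _), fun _ _ y _ _ _ => by
      simp [triv]⟩) 0 S (fun y hy => hy.1) hS1 x (by
      intro y hy hyx
      by_contra hcon
      push Not at hcon
      apply hyx
      refine hu.injOn hy.1 hxV ?_
      ext a
      have := hcon a () (mem_univ _)
      exact sub_eq_zero.1 this)
  -- choice of the first coordinate
  obtain ⟨w, hw⟩ := exists_notMem (I := ℕ ⊕ I) (Sum.elim H fun n => (Submodule.span ℂ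
    (range ![dfr v (e n) (D n) h₁, dfr v (e n) (D n) h₂])).comap (Λ n)) (by
      rintro (k | n)
      · exact hH1 k
      · exact hcomap n _ (hspan (by norm_num) _))
  obtain ⟨w', hw'⟩ := exists_notMem (I := I) (fun n => (Submodule.span ℂ
    (range ![dfr v (e n) (D n) h₁, dfr v (e n) (D n) h₂, Λ n w])).comap (Λ n))
      (fun n => hcomap n _ (hspan (by norm_num) _))
  have hcount : (S ∩ Zs (triv X.pt) (lin w fun a _ y => u a y - u a x)).Countable :=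
    (hH2 w fun k => hw (Sum.inl k)).countable
  set l₁ : X.pt → ℂ := fun y => ∑ a, w a * (u a y - u a x)
  set l₂ : X.pt → ℂ := fun y => ∑ a, w' a * (u a y - u a x)
  have hl : ∀ (w : Fin N → ℂ), ∀ y ∈ V, X.Hol (fun y => ∑ a, w a * (u a y - u a x)) y :=
    fun w y hy => hol_sum _ fun a _ => hol_mul (hol_const _ _) (hol_sub (hu.hol a y hy) (hol_const _ _))
  have hG : ∀ i, ∀ y ∈ V, X.Hol ((![h₁, h₂, l₁, l₂] : Fin 4 → X.pt → ℂ) i) y := by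
    intro i y hy
    fin_cases i
    · exact (hol y hy.2).1
    · exact (hol y hy.2).2
    · exact hl w y hy
    · exact hl w' y hy
  refine b3 Y X O v hv hdense hdim ![h₁, h₂, l₁, l₂] x V hVo hxV hG ?_ ?_ ?_
  · intro i
    fin_cases i
    · exact hx1
    · exact hx2
    · simp [l₁]
    · simp [l₂]
  · intro W hW hWV hWn
    obtain ⟨n, hn⟩ := hDd W hW (hWV.trans inter_subset_right) hWn
    have hnV : v (D n) ∈ V := hWV hn
    refine ⟨D n, (hDO n).1, hn, fun e' he' => ?_⟩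
    rw [← Jac_ne_zero_iff hv (hDO n).1 (heD n) he' fun i => hG i _ hnV]
    refine jac_ne_zero v _ (e n) (D n) ?_
    have e1 : ∀ w : Fin N → ℂ, dfr v (e n) (D n) (fun y => ∑ a, w a * (u a y - u a x)) =
        Λ ⟨n, hnV⟩ w := fun w =>
      dfr_lin hv (hDO n).1 (heD n) (fun a => hu.hol a _ hnV) w _
    have e2 : (fun i => dfr v (e n) (D n) ((![h₁, h₂, l₁, l₂] : Fin 4 → X.pt → ℂ) i)) =
        Fin.snoc ![dfr v (e n) (D n) h₁, dfr v (e n) (D n) h₂, Λ ⟨n, hnV⟩ w] (Λ ⟨n, hnV⟩ w') := by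
      ext1 i
      fin_cases i
      · rfl
      · rfl
      · exact e1 w
      · exact e1 w'
    have e3 : (![dfr v (e n) (D n) h₁, dfr v (e n) (D n) h₂, Λ ⟨n, hnV⟩ w] :
        Fin 3 → (Cm 4 →L[ℂ] ℂ)) =
        Fin.snoc ![dfr v (e n) (D n) h₁, dfr v (e n) (D n) h₂] (Λ ⟨n, hnV⟩ w) := by
      ext1 i
      fin_cases i <;> rfl
    rw [e2, linearIndependent_finSnoc]
    refine ⟨?_, hw' ⟨n, hnV⟩⟩
    rw [e3, linearIndependent_finSnoc]
    exact ⟨hind n, hw (Sum.inr ⟨n, hnV⟩)⟩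
  · refine hcount.mono ?_
    rintro y ⟨hyV, hy0, hy1, hy2⟩
    exact ⟨⟨hyV, hy0, hy1⟩, (), mem_univ _, hy2⟩


section D6

open H615

/-- (D6), relative to a set `T` of dimension `≤ 1` -/
def StD6T : Prop :=
  ∀ (Y : Type) [TopologicalSpace Y] [ChartedSpace (Cm 4) Y]
    (X Z : CSp) (f : X.pt → Z.pt) (A : Set Z.pt) (L : Bd X.pt)
    (_ : IsSmall X Z f A) (_ : IsLBx X L)
    (V : Set Z.pt) (_ : IsOpen V) (N : ℕ) (ψ : Fin N → Z.pt → ℂ) (_ : IsCoord Z V ψ)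
    (k : ℕ) (κ : Type) [Fintype κ] (s : κ → L.ι → X.pt → ℂ)
    (_ : VA X Z f V ((Bd.inv L).pow k) s)
    (O : Set Y) (v : Y → X.pt) (_ : IsOpenEmb X O v) (T : Set X.pt) (_ : DimLe X 1 T)
    (K : Set X.pt) (_ : K ⊆ f ⁻¹' V) (_ : DimLe X 2 K) (x₀ : X.pt) (_ : x₀ ∈ f ⁻¹' (V ∩ A))
    (_ : x₀ ∉ T) (i₀ : L.ι) (_ : x₀ ∈ L.U i₀) (σ σ' : X.pt → ℂ)
    (D : ℕ → Y) (e : ℕ → Chart 4 Y) (_ : ∀ n, At (e n) (D n))
    (_ : ∀ n, D n ∈ O ∧ v (D n) ∈ L.U i₀ ∧ f (v (D n)) ∈ V ∧ f (v (D n)) ∉ A)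
    (_ : ∀ n, LinearIndependent ℂ ![dfr v (e n) (D n) σ, dfr v (e n) (D n) σ']),
    ∃ s₁ s₂ : L.ι → X.pt → ℂ, IsSecx X (f ⁻¹' V) ((Bd.inv L).pow k) s₁ ∧
      IsSecx X (f ⁻¹' V) ((Bd.inv L).pow k) s₂ ∧ s₁ i₀ x₀ = 0 ∧ s₂ i₀ x₀ = 0 ∧
      f ⁻¹' V ∩ Zs ((Bd.inv L).pow k) s₁ ∩ Zs ((Bd.inv L).pow k) s₂ ⊆ Tᶜ ∧
      (K ∩ (Zs ((Bd.inv L).pow k) s₁ ∩ Zs ((Bd.inv L).pow k) s₂)).Countable ∧
      ∀ n, Jac v ![s₁ i₀, s₂ i₀, σ, σ'] (e n) (e n (D n)) ≠ 0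

/-- (D6) -/
theorem stD6T : StD6T := by
  classical
  intro Y _ _ X Z f A L sm hL V hV N ψ hψ k κ _ s hs O v hv T hd K hK hKd x₀ hx₀ hx₀O
    i₀ hi₀ σ σ' D e he hD hσ
  have hx₀V : f x₀ ∈ V := hx₀.1
  have hx₀A : f x₀ ∈ A := hx₀.2
  have hLi : IsLBx X (Bd.inv L) :=
    ⟨hL.isOpen, hL.cover, fun i j x hx hx' => hol_inv (hL.holo i j x hx hx') (hL.ne_zero i j x hx hx'),
      fun i j x hx hx' => inv_ne_zero (hL.ne_zero i j x hx hx'), fun i j k x hx hx' hx'' => by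
        show (L.g i j x)⁻¹ * (L.g j k x)⁻¹ = (L.g i k x)⁻¹
        rw [← mul_inv, hL.cocycle i j k x hx hx' hx'']⟩
  have hP : IsLBx X ((Bd.inv L).pow k) :=
    ⟨hLi.isOpen, hLi.cover, fun i j x hx hx' => hol_pow (hLi.holo i j x hx hx') k,
      fun i j x hx hx' => pow_ne_zero k (hLi.ne_zero i j x hx hx'), fun i j l x hx hx' hx'' => by
        show ((Bd.inv L).g i j x) ^ k * ((Bd.inv L).g j l x) ^ k = ((Bd.inv L).g i l x) ^ k
        rw [← mul_pow, hLi.cocycle i j l x hx hx' hx'']⟩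
  have hVo : IsOpen (f ⁻¹' V) := hV.preimage sm.cont
  have hψf : ∀ a, ∀ x ∈ f ⁻¹' V, X.Hol (fun y => ψ a (f y)) x := fun a x hx =>
    sm.holo x _ (hψ.hol a _ hx)
  have hψc : ∀ a, ∀ x ∈ f ⁻¹' V, X.Hol (fun y => ψ a (f y) - ψ a (f x₀)) x := fun a x hx =>
    hol_sub (hψf a x hx) (hol_const _ x)
  -- the family
  have hfam : ∀ c, IsSecx X (f ⁻¹' V) ((Bd.inv L).pow k) (fam f ψ s i₀ x₀ c) := by
    rintro (⟨l, m⟩ | ⟨_ | a, b, l⟩)
    · exact secx_sub (secx_mul_fun (hs.sec l) fun x _ => hol_const (s m i₀ x₀) x)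
        (secx_mul_fun (hs.sec m) fun x _ => hol_const (s l i₀ x₀) x)
    · exact secx_mul_fun (hs.sec l) (hψc b)
    · exact secx_mul_fun (hs.sec l) fun x hx => hol_mul (hψf a x hx) (hψc b x hx)
  have hfam0 : ∀ c, fam f ψ s i₀ x₀ c i₀ x₀ = 0 := by
    rintro (⟨l, m⟩ | ⟨_ | a, b, l⟩)
    · show s m i₀ x₀ * s l i₀ x₀ - s l i₀ x₀ * s m i₀ x₀ = 0
      ring
    · show (ψ b (f x₀) - ψ b (f x₀)) * s l i₀ x₀ = 0
      ring
    · show (ψ a (f x₀) * (ψ b (f x₀) - ψ b (f x₀))) * s l i₀ x₀ = 0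
      ring
  have hinj : InjOn (fun y a => ψ a y) V := hψ.injOn
  have hne : ∀ z ∈ V, z ≠ f x₀ → ∃ b, ψ b z ≠ ψ b (f x₀) := by
    intro z hz hne
    by_contra hcon
    push Not at hcon
    exact hne (hinj hz hx₀V (funext hcon))
  have hfamne : ∀ x ∈ f ⁻¹' V, x ≠ x₀ →
      ∃ c i, x ∈ ((Bd.inv L).pow k).U i ∧ fam f ψ s i₀ x₀ c i x ≠ 0 := by
    intro x hx hxx₀
    obtain ⟨i, hi⟩ := hL.cover x
    by_cases hfx : f x = f x₀
    · obtain ⟨l, m, hlm⟩ := hs.sep x₀ x i₀ i hx₀V hfx hxx₀ hi₀ hi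
      exact ⟨Sum.inl (m, l), i, hi, sub_ne_zero.2 hlm⟩
    · obtain ⟨b, hb⟩ := hne (f x) hx hfx
      obtain ⟨l, hl⟩ := hs.gen x i hx hi
      exact ⟨Sum.inr (none, b, l), i, hi, mul_ne_zero (sub_ne_zero.2 hb) hl⟩
  have hfamspan : ∀ n, Submodule.span ℂ (range fun c =>
      dfr v (e n) (D n) (fam f ψ s i₀ x₀ c i₀)) = ⊤ := by
    intro n
    obtain ⟨hDO, hDi, hDV, hDA⟩ := hD n
    refine span_coord hv sm hψ hDO (he n) hDV hDA ?_
    intro a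
    obtain ⟨b, hb⟩ := hne (f (v (D n))) hDV (fun h => hDA (h ▸ hx₀A))
    obtain ⟨l, hl⟩ := hs.gen (v (D n)) i₀ hDV hDi
    have hsl : X.Hol (s l i₀) (v (D n)) := (hs.sec l).holo i₀ _ hDV hDi
    -- the product rule
    have h1 : dfr v (e n) (D n) (fun x => (ψ a (f x) - ψ a (f (v (D n)))) *
        ((ψ b (f x) - ψ b (f x₀)) * s l i₀ x)) =
        ((ψ b (f (v (D n))) - ψ b (f x₀)) * s l i₀ (v (D n))) •
          dfr v (e n) (D n) (fun x => ψ a (f x) - ψ a (f (v (D n)))) :=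
      dfr_mul_zero hv hDO (he n) (hol_sub (hψf a _ hDV) (hol_const _ _))
        (hol_mul (hψc b _ hDV) hsl) (sub_self _)
    have h2 : dfr v (e n) (D n) (fun x => ψ a (f x) - ψ a (f (v (D n)))) =
        dfr v (e n) (D n) (fun x => ψ a (f x)) := by
      rw [dfr_sub hv hDO (he n) (hψf a _ hDV) (hol_const _ _)]
      have h3 : dfr v (e n) (D n) (fun _ : X.pt => ψ a (f (v (D n)))) = 0 :=
        (hasFDerivAt_const (𝕜 := ℂ) (ψ a (f (v (D n)))) (e n (D n))).fderiv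
      rw [h3, sub_zero]
    have h4 : dfr v (e n) (D n) (fun x => (ψ a (f x) - ψ a (f (v (D n)))) *
        ((ψ b (f x) - ψ b (f x₀)) * s l i₀ x)) =
        dfr v (e n) (D n) (fam f ψ s i₀ x₀ (Sum.inr (some a, b, l)) i₀) -
          ψ a (f (v (D n))) • dfr v (e n) (D n) (fam f ψ s i₀ x₀ (Sum.inr (none, b, l)) i₀) := by
      have k1 : X.Hol (fam f ψ s i₀ x₀ (Sum.inr (none, b, l)) i₀) (v (D n)) :=
        (hfam (Sum.inr (none, b, l))).holo i₀ _ hDV hDi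
      have k2 : X.Hol (fam f ψ s i₀ x₀ (Sum.inr (some a, b, l)) i₀) (v (D n)) :=
        (hfam (Sum.inr (some a, b, l))).holo i₀ _ hDV hDi
      rw [← dfr_const_mul hv hDO (he n) k1, ← dfr_sub hv hDO (he n) k2
        (hol_mul (hol_const _ _) k1)]
      congr 1
      funext x
      show (ψ a (f x) - ψ a (f (v (D n)))) * ((ψ b (f x) - ψ b (f x₀)) * s l i₀ x) =
        (ψ a (f x) * (ψ b (f x) - ψ b (f x₀))) * s l i₀ x -
          ψ a (f (v (D n))) * ((ψ b (f x) - ψ b (f x₀)) * s l i₀ x)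
      ring
    have h5 : ((ψ b (f (v (D n))) - ψ b (f x₀)) * s l i₀ (v (D n))) •
        dfr v (e n) (D n) (fun x => ψ a (f x)) ∈ Submodule.span ℂ (range fun c =>
          dfr v (e n) (D n) (fam f ψ s i₀ x₀ c i₀)) := by
      rw [← h2, ← h1, h4]
      exact Submodule.sub_mem _ (Submodule.subset_span ⟨_, rfl⟩)
        (Submodule.smul_mem _ _ (Submodule.subset_span ⟨_, rfl⟩))
    exact (Submodule.smul_mem_iff _ (mul_ne_zero (sub_ne_zero.2 hb) hl)).1 h5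
  -- reindexing
  set κ' := (κ × κ) ⊕ (Option (Fin N) × Fin N × κ) with hκ'
  set M := Fintype.card κ' with hMdef
  let E : Fin M ≃ κ' := (Fintype.equivFin κ').symm
  let U : Fin M → L.ι → X.pt → ℂ := fun m => fam f ψ s i₀ x₀ (E m)
  have hM : M ≠ 0 := by
    obtain ⟨l, hl⟩ := hs.gen x₀ i₀ hx₀V hi₀
    have : Nonempty κ' := ⟨Sum.inl (l, l)⟩
    exact Fintype.card_ne_zero
  have hU : ∀ m, IsSecx X (f ⁻¹' V) ((Bd.inv L).pow k) (U m) := fun m => hfam (E m)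
  have hU0 : ∀ w : Fin M → ℂ, lin w U i₀ x₀ = 0 := fun w =>
    Finset.sum_eq_zero fun m _ => by
      show w m * fam f ψ s i₀ x₀ (E m) i₀ x₀ = 0
      rw [hfam0, mul_zero]
  have hUne : ∀ x ∈ f ⁻¹' V, x ≠ x₀ → ∃ m i, x ∈ ((Bd.inv L).pow k).U i ∧ U m i x ≠ 0 := by
    intro x hx hxx₀
    obtain ⟨c, i, hi, hc⟩ := hfamne x hx hxx₀
    refine ⟨E.symm c, i, hi, ?_⟩
    show fam f ψ s i₀ x₀ (E (E.symm c)) i x ≠ 0
    rw [E.apply_symm_apply]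
    exact hc
  have hUspan : ∀ n, Submodule.span ℂ (range fun m => dfr v (e n) (D n) (U m i₀)) = ⊤ := by
    intro n
    rw [← hfamspan n]
    congr 1
    exact E.surjective.range_comp (fun c => dfr v (e n) (D n) (fam f ψ s i₀ x₀ c i₀))
  have hUhol : ∀ n m, X.Hol (U m i₀) (v (D n)) := fun n m =>
    (hU m).holo i₀ _ (hD n).2.2.1 (hD n).2.1
  -- the bad sets
  set B : Set X.pt := T ∩ f ⁻¹' V with hB
  have hBd : DimLe X (0 + 1) B := hd.mono inter_subset_left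
  have hBx₀ : x₀ ∉ B := fun h => hx₀O h.1
  obtain ⟨H₁, hH₁, hH₁'⟩ := H73.stC1_final X _ hP (f ⁻¹' V) hVo M hM U hU 0 B inter_subset_right
    hBd x₀ fun x hx hxx => hUne x hx.2 hxx
  obtain ⟨H₂, hH₂, hH₂'⟩ := H73.stC1_final X _ hP (f ⁻¹' V) hVo M hM U hU 1 K hK
    hKd x₀ fun x hx hxx => hUne x (hK hx) hxx
  have hJ2 : ∀ n, badF (fun m => dfr v (e n) (D n) (U m i₀))
      (Submodule.span ℂ (range ![dfr v (e n) (D n) σ, dfr v (e n) (D n) σ'])) ≠ ⊤ := fun n =>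
    badF_ne_top (hUspan n) (H615.span_ne_top (by norm_num) _)
  obtain ⟨w₂, hw₂⟩ := exists_generic (M := M)
    (H := range H₁ ∪ range H₂ ∪ range fun n => badF (fun m => dfr v (e n) (D n) (U m i₀))
      (Submodule.span ℂ (range ![dfr v (e n) (D n) σ, dfr v (e n) (D n) σ'])))
    (((countable_range _).union (countable_range _)).union (countable_range _)) (by
      rintro _ ((⟨n, rfl⟩ | ⟨n, rfl⟩) | ⟨n, rfl⟩)
      · exact hH₁ n
      · exact hH₂ n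
      · exact hJ2 n)
  have hs₂B : DimLe X 0 (B ∩ Zs ((Bd.inv L).pow k) (lin w₂ U)) :=
    hH₁' w₂ fun n => hw₂ _ (Or.inl (Or.inl ⟨n, rfl⟩))
  have hs₂K : DimLe X (0 + 1) (K ∩ Zs ((Bd.inv L).pow k) (lin w₂ U)) :=
    hH₂' w₂ fun n => hw₂ _ (Or.inl (Or.inr ⟨n, rfl⟩))
  have hs₂J : ∀ n, dfr v (e n) (D n) (lin w₂ U i₀) ∉
      Submodule.span ℂ (range ![dfr v (e n) (D n) σ, dfr v (e n) (D n) σ']) := by
    intro n hn
    refine hw₂ _ (Or.inr ⟨n, rfl⟩) ?_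
    rw [mem_badF, ← dfr_lin hv (hD n).1 (he n) U i₀ (hUhol n) w₂]
    exact hn
  -- the second choice
  obtain ⟨H₃, hH₃, hH₃'⟩ := H73.stC1_final X _ hP (f ⁻¹' V) hVo M hM U hU 0
    (K ∩ Zs ((Bd.inv L).pow k) (lin w₂ U)) (inter_subset_left.trans hK)
    hs₂K x₀ fun x hx hxx => hUne x (hK hx.1) hxx
  have hcount : (B ∩ Zs ((Bd.inv L).pow k) (lin w₂ U)).Countable := hs₂B.countable
  have hprop : ∀ x : (B ∩ Zs ((Bd.inv L).pow k) (lin w₂ U) : Set X.pt),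
      ∃ H : Submodule ℂ (Fin M → ℂ), H ≠ ⊤ ∧
        ∀ w, w ∉ H → x.1 ∉ Zs ((Bd.inv L).pow k) (lin w U) := by
    rintro ⟨x, hxB, hxZ⟩
    exact exists_proper hU hxB.2 (hUne x hxB.2 fun h => hBx₀ (h ▸ hxB))
  choose H₄ hH₄ hH₄' using hprop
  have hJ1 : ∀ n, badF (fun m => dfr v (e n) (D n) (U m i₀))
      (Submodule.span ℂ (range ![dfr v (e n) (D n) (lin w₂ U i₀), dfr v (e n) (D n) σ,
        dfr v (e n) (D n) σ'])) ≠ ⊤ := fun n =>
    badF_ne_top (hUspan n) (H615.span_ne_top (by norm_num) _)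
  have : Countable (B ∩ Zs ((Bd.inv L).pow k) (lin w₂ U) : Set X.pt) := hcount.to_subtype
  obtain ⟨w₁, hw₁⟩ := exists_generic (M := M)
    (H := range H₃ ∪ range H₄ ∪ range fun n => badF (fun m => dfr v (e n) (D n) (U m i₀))
      (Submodule.span ℂ (range ![dfr v (e n) (D n) (lin w₂ U i₀), dfr v (e n) (D n) σ,
        dfr v (e n) (D n) σ'])))
    (((countable_range _).union (countable_range _)).union (countable_range _)) (by
      rintro _ ((⟨n, rfl⟩ | ⟨n, rfl⟩) | ⟨n, rfl⟩)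
      · exact hH₃ n
      · exact hH₄ n
      · exact hJ1 n)
  have hs₁K : DimLe X 0 (K ∩ Zs ((Bd.inv L).pow k) (lin w₂ U) ∩
      Zs ((Bd.inv L).pow k) (lin w₁ U)) :=
    hH₃' w₁ fun n => hw₁ _ (Or.inl (Or.inl ⟨n, rfl⟩))
  refine ⟨lin w₁ U, lin w₂ U, H615.secx_lin hU w₁, H615.secx_lin hU w₂, hU0 w₁, hU0 w₂, ?_, ?_, ?_⟩
  · rintro x ⟨⟨hxV, hx1⟩, hx2⟩
    intro hxO
    have hxB : x ∈ B ∩ Zs ((Bd.inv L).pow k) (lin w₂ U) := ⟨⟨hxO, hxV⟩, hx2⟩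
    exact hH₄' ⟨x, hxB⟩ w₁ (hw₁ _ (Or.inl (Or.inr ⟨⟨x, hxB⟩, rfl⟩))) hx1
  · refine hs₁K.countable.mono ?_
    rintro x ⟨hxK, hx1, hx2⟩
    exact ⟨⟨hxK, hx2⟩, hx1⟩
  · intro n
    have h1 : dfr v (e n) (D n) (lin w₁ U i₀) ∉
        Submodule.span ℂ (range ![dfr v (e n) (D n) (lin w₂ U i₀), dfr v (e n) (D n) σ,
          dfr v (e n) (D n) σ']) := by
      intro hn
      refine hw₁ _ (Or.inr ⟨n, rfl⟩) ?_
      rw [mem_badF, ← dfr_lin hv (hD n).1 (he n) U i₀ (hUhol n) w₁]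
      exact hn
    have h2 : LinearIndependent ℂ ![dfr v (e n) (D n) (lin w₂ U i₀), dfr v (e n) (D n) σ,
        dfr v (e n) (D n) σ'] := linearIndependent_finCons.2 ⟨hσ n, hs₂J n⟩
    have h3 : LinearIndependent ℂ ![dfr v (e n) (D n) (lin w₁ U i₀),
        dfr v (e n) (D n) (lin w₂ U i₀), dfr v (e n) (D n) σ, dfr v (e n) (D n) σ'] :=
      linearIndependent_finCons.2 ⟨h2, h1⟩
    have h4 := det_ne_zero_of_indep h3
    have h5 : Jac v ![lin w₁ U i₀, lin w₂ U i₀, σ, σ'] (e n) (e n (D n)) =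
        (Matrix.of fun i j => ![dfr v (e n) (D n) (lin w₁ U i₀),
          dfr v (e n) (D n) (lin w₂ U i₀), dfr v (e n) (D n) σ, dfr v (e n) (D n) σ'] i
            (Pi.single j 1)).det := by
      unfold Jac
      congr 1
      ext i j
      fin_cases i <;> rfl
    rw [h5]
    exact h4

end D6

end Vale.Agent.P277.H762
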