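import Vale.Agent.P277.H762.Area
import Vale.Agent.P272.K.Inv.Hess
import Vale.Agent.P272.GJ.Green

/-!
# P277, task TD: closed semipositive `(1,1)`-forms along affine discs
-/

open scoped Manifold ContDiff ComplexOrder Topology
open Complex Vale.Agent.P272.K Vale.Agent.P272 Filter

noncomputable section

namespace Vale.Agent.P277.TD

variable {n : ℕ}

/-- `Σ H_{i j̄} a_i b̄_j` -/
def hh (H : Cm n → Matrix (Fin n) (Fin n) ℂ) (a b x : Cm n) : ℂ :=
  ∑ i, ∑ j, H x i j * (a i * cj (b j))

variable {H : Cm n → Matrix (Fin n) (Fin n) ℂ} {x : Cm n} {a b e v : Cm n}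

theorem hh_contDiffAt {m : WithTop ℕ∞} (h : ∀ i j, ContDiffAt ℝ m (fun y => H y i j) x) :
    ContDiffAt ℝ m (hh H a b) x :=
  ContDiffAt.sum fun i _ => ContDiffAt.sum fun j _ => (h i j).mul contDiffAt_const

theorem dz_hh (h : ∀ i j, DifferentiableAt ℝ (fun y => H y i j) x) (k : Fin n) :
    dz k (hh H a b) x = ∑ i, ∑ j, dz k (fun y => H y i j) x * (a i * cj (b j)) := by
  have h1 : ∀ i, DifferentiableAt ℝ (fun y => ∑ j, H y i j * (a i * cj (b j))) x := fun i =>
    DifferentiableAt.fun_sum fun j _ => (h i j).mul_const _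
  unfold hh
  rw [dz_sum Finset.univ fun i _ => h1 i]
  refine Finset.sum_congr rfl fun i _ => ?_
  rw [dz_sum Finset.univ fun j _ => (h i j).mul_const _]
  refine Finset.sum_congr rfl fun j _ => ?_
  rw [dz_mul (h i j) (differentiableAt_const _), dz_const]
  ring

theorem hh_cj (h : (H x).IsHermitian) : cj (hh H a b x) = hh H b a x := by
  unfold hh cj
  simp only [map_sum, map_mul, Complex.conj_conj]
  rw [Finset.sum_comm]
  refine Finset.sum_congr rfl fun j _ => Finset.sum_congr rfl fun i _ => ?_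
  have := h.apply j i
  rw [← this]
  simp only [RCLike.star_def]
  ring

/-- **closedness**: the derivative in the direction `v` is a divergence along the disc -/
theorem hh_closed (hs : ∀ i j, DifferentiableAt ℝ (fun y => H y i j) x)
    (hc : ∀ i j k, dz k (fun y => H y i j) x = dz i (fun y => H y k j) x)
    (hH : ∀ᶠ y in 𝓝 x, (H y).IsHermitian) (e v : Cm n) :
    fderiv ℝ (fun y => (hh H e e y).re) x v =
      fderiv ℝ (fun y => (hh H v e y).re) x e + fderiv ℝ (fun y => (hh H v e y).im) x (I • e) := by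
  have hd : ∀ a b, DifferentiableAt ℝ (hh H a b) x := fun a b =>
    DifferentiableAt.fun_sum fun i _ => DifferentiableAt.fun_sum fun j _ => (hs i j).mul_const _
  have hre : ∀ a b w, fderiv ℝ (fun y => (hh H a b y).re) x w = (fderiv ℝ (hh H a b) x w).re := by
    intro a b w
    have := (Complex.reCLM.hasFDerivAt (x := hh H a b x)).comp x (hd a b).hasFDerivAt
    have h2 : fderiv ℝ (fun y => (hh H a b y).re) x = Complex.reCLM.comp (fderiv ℝ (hh H a b) x) :=
      this.fderiv
    rw [h2]; rfl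
  have him : ∀ a b w, fderiv ℝ (fun y => (hh H a b y).im) x w = (fderiv ℝ (hh H a b) x w).im := by
    intro a b w
    have := (Complex.imCLM.hasFDerivAt (x := hh H a b x)).comp x (hd a b).hasFDerivAt
    have h2 : fderiv ℝ (fun y => (hh H a b y).im) x = Complex.imCLM.comp (fderiv ℝ (hh H a b) x) :=
      this.fderiv
    rw [h2]; rfl
  rw [hre, hre, him, fderiv_eq (hh H e e) x v, fderiv_eq (hh H v e) x e,
    fderiv_eq (hh H v e) x (I • e)]
  -- `hh H e e` is real
  have hb : ∀ k, dzb k (hh H e e) x = cj (dz k (hh H e e) x) := by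
    intro k
    rw [← dzb_cj (hd e e)]
    refine dzb_congr ?_
    filter_upwards [hH] with y hy
    exact (hh_cj hy).symm
  have h1 : ∑ k, (dz k (hh H e e) x * v k + dzb k (hh H e e) x * cj (v k)) =
      (∑ k, dz k (hh H e e) x * v k) + cj (∑ k, dz k (hh H e e) x * v k) := by
    rw [Finset.sum_add_distrib]
    congr 1
    simp only [cj, map_sum, map_mul]
    refine Finset.sum_congr rfl fun k _ => ?_
    rw [hb k]
  have h2 : ∑ k, dz k (hh H e e) x * v k = ∑ k, dz k (hh H v e) x * e k := by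
    simp only [dz_hh hs, Finset.sum_mul]
    rw [Finset.sum_comm]
    refine Finset.sum_congr rfl fun i _ => ?_
    refine Finset.sum_congr rfl fun k _ => ?_
    refine Finset.sum_congr rfl fun j _ => ?_
    rw [hc i j k]
    ring
  set P := ∑ k, dz k (hh H v e) x * e k with hP
  set Q := ∑ k, dzb k (hh H v e) x * cj (e k) with hQ
  have h3 : ∑ k, (dz k (hh H v e) x * e k + dzb k (hh H v e) x * cj (e k)) = P + Q := by
    rw [Finset.sum_add_distrib]
  have h4 : ∑ k, (dz k (hh H v e) x * (I • e) k + dzb k (hh H v e) x * cj ((I • e) k)) =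
      I * (P - Q) := by
    rw [hP, hQ, ← Finset.sum_sub_distrib, Finset.mul_sum]
    refine Finset.sum_congr rfl fun k _ => ?_
    simp only [Pi.smul_apply, smul_eq_mul, cj, map_mul, Complex.conj_I]
    ring
  rw [h1, h2, h3, h4]
  simp only [cj, Complex.add_re, Complex.mul_im, Complex.I_re, Complex.I_im, Complex.sub_re,
    Complex.sub_im, Complex.conj_re, zero_mul, one_mul, zero_add]
  ring

theorem hh_re_nonneg (h : (H x).PosSemidef) : 0 ≤ (hh H e e x).re := by
  have h1 := h.dotProduct_mulVec_nonneg (star e)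
  have h2 : star (star e) ⬝ᵥ (H x).mulVec (star e) = hh H e e x := by
    unfold hh
    simp only [dotProduct, Matrix.mulVec, Finset.mul_sum, star_star, Pi.star_apply]
    refine Finset.sum_congr rfl fun i _ => Finset.sum_congr rfl fun j _ => ?_
    simp only [RCLike.star_def, cj]
    ring
  rw [h2] at h1
  exact (Complex.le_def.1 h1).1

theorem norm_hh_le {M : ℝ} (h : ∀ i j, ‖H x i j‖ ≤ M) :
    ‖hh H a b x‖ ≤ (n : ℝ) ^ 2 * (M * (‖a‖ * ‖b‖)) := by
  unfold hh
  refine (norm_sum_le _ _).trans ?_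
  have h1 : ∀ i ∈ Finset.univ, ‖∑ j, H x i j * (a i * cj (b j))‖ ≤ (n : ℝ) * (M * (‖a‖ * ‖b‖)) := by
    intro i _
    refine (norm_sum_le _ _).trans ?_
    have h2 : ∀ j ∈ Finset.univ, ‖H x i j * (a i * cj (b j))‖ ≤ M * (‖a‖ * ‖b‖) := by
      intro j _
      rw [norm_mul, norm_mul]
      have h3 : ‖cj (b j)‖ = ‖b j‖ := by simp [cj]
      rw [h3]
      have h4 := norm_le_pi_norm a i
      have h5 := norm_le_pi_norm b j
      have h6 := (norm_nonneg _).trans (h i j)
      exact mul_le_mul (h i j) (mul_le_mul h4 h5 (norm_nonneg _) (norm_nonneg _))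
        (by positivity) h6
    refine (Finset.sum_le_sum h2).trans ?_
    simp
  refine (Finset.sum_le_sum h1).trans ?_
  simp
  exact le_of_eq (by ring)

theorem hh_add_smul (A B : Matrix (Fin n) (Fin n) ℂ) (δ : ℝ) :
    (hh (fun _ => A + (δ : ℂ) • B) e e x).re =
      (hh (fun _ => A) e e x).re + δ * (hh (fun _ => B) e e x).re := by
  have : hh (fun _ => A + (δ : ℂ) • B) e e x =
      hh (fun _ => A) e e x + (δ : ℂ) * hh (fun _ => B) e e x := by
    unfold hh
    simp only [Finset.mul_sum, ← Finset.sum_add_distrib]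
    refine Finset.sum_congr rfl fun i _ => Finset.sum_congr rfl fun j _ => ?_
    simp only [Matrix.add_apply, Matrix.smul_apply, smul_eq_mul]
    ring
  rw [this, Complex.add_re, Complex.re_ofReal_mul]

/-- `∂∂̄` of a function along an affine disc -/
theorem ddb_line {q : Cm n → ℝ} {p e : Cm n} {z : ℂ} (hq : ContDiffAt ℝ 2 q (p + z • e)) :
    GJ.ddb (fun w : ℂ => q (p + w • e)) z = (hh (cHess q) e e (p + z • e)).re := by
  set x := p + z • e with hx
  -- second derivatives
  have hq1 : ∀ᶠ y in 𝓝 x, DifferentiableAt ℝ q y := by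
    filter_upwards [hq.eventually (by simp)] with y hy
    exact hy.differentiableAt (by norm_num)
  have hcont : ContinuousAt (fun w : ℂ => p + w • e) z := by fun_prop
  have hd2 : ∀ w : Cm n, DifferentiableAt ℝ (fun y => fderiv ℝ q y w) x := fun w =>
    ((hq.fderiv_right (m := 1) (by norm_num)).clm_apply contDiffAt_const).differentiableAt
      one_ne_zero
  have hl : ∀ c : ℂ, fderiv ℝ (fun w => fderiv ℝ (fun w : ℂ => q (p + w • e)) w c) z c =
      fderiv ℝ (fun y => fderiv ℝ q y (c • e)) x (c • e) := by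
    intro c
    have h1 : (fun w => fderiv ℝ (fun w : ℂ => q (p + w • e)) w c) =ᶠ[𝓝 z]
        fun w => fderiv ℝ q (p + w • e) (c • e) := by
      filter_upwards [hcont.eventually hq1] with w hw
      exact fderiv_line hw c
    rw [h1.fderiv_eq]
    exact fderiv_line (b := fun y => fderiv ℝ q y (c • e)) (hd2 (c • e)) c
  rw [GJ.ddb, hl, hl, one_smul]
  -- the complex Hessian
  set Q : Cm n → ℂ := fun y => (q y : ℂ) with hQ
  have hQ2 : ContDiffAt ℝ 2 Q x := ofReal_contDiffAt hq
  set F : Cm n → ℂ := fun y => ∑ j, dzb j Q y * cj (e j) with hF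
  have hFd : ∀ j, DifferentiableAt ℝ (dzb j Q) x := fun j => differentiableAt_dzb hQ2
  have h1 : hh (cHess q) e e x = ∑ i, dz i F x * e i := by
    unfold hh
    refine Finset.sum_congr rfl fun i _ => ?_
    rw [hF, dz_sum Finset.univ fun j _ => (hFd j).mul_const _, Finset.sum_mul]
    refine Finset.sum_congr rfl fun j _ => ?_
    rw [dz_mul (hFd j) (differentiableAt_const _), dz_const, cHess_apply]
    ring
  have hPQ : ∀ (G : Cm n → ℂ) (y : Cm n), ∑ i, dz i G y * e i =
      (fderiv ℝ G y e - I * fderiv ℝ G y (I • e)) / 2 ∧ ∑ i, dzb i G y * cj (e i) =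
      (fderiv ℝ G y e + I * fderiv ℝ G y (I • e)) / 2 := by
    intro G y
    have h3 : fderiv ℝ G y e = (∑ i, dz i G y * e i) + ∑ i, dzb i G y * cj (e i) := by
      rw [fderiv_eq, Finset.sum_add_distrib]
    have h4 : fderiv ℝ G y (I • e) = I * ((∑ i, dz i G y * e i) - ∑ i, dzb i G y * cj (e i)) := by
      rw [fderiv_eq, ← Finset.sum_sub_distrib, Finset.mul_sum]
      refine Finset.sum_congr rfl fun k _ => ?_
      simp only [Pi.smul_apply, smul_eq_mul, cj, map_mul, Complex.conj_I]
      ring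
    rw [h3, h4]
    have hI : I * I = -1 := Complex.I_mul_I
    constructor
    · linear_combination (((∑ i, dz i G y * e i) - ∑ i, dzb i G y * cj (e i)) / 2) * hI
    · linear_combination (-((∑ i, dz i G y * e i) - ∑ i, dzb i G y * cj (e i)) / 2) * hI
  have hFe : F =ᶠ[𝓝 x] fun y => (((fderiv ℝ q y e : ℝ) : ℂ) +
      I * ((fderiv ℝ q y (I • e) : ℝ) : ℂ)) / 2 := by
    filter_upwards [hq1] with y hy
    have h5 : ∀ w, fderiv ℝ Q y w = ((fderiv ℝ q y w : ℝ) : ℂ) := by
      intro w
      have h6 := (Complex.ofRealCLM.hasFDerivAt (x := q y)).comp y hy.hasFDerivAt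
      have h7 : fderiv ℝ Q y = Complex.ofRealCLM.comp (fderiv ℝ q y) := h6.fderiv
      rw [h7]; rfl
    rw [hF]
    simp only []
    rw [(hPQ Q y).2, h5, h5]
  have hFd' : ∀ u, fderiv ℝ F x u = (((fderiv ℝ (fun y => fderiv ℝ q y e) x u : ℝ) : ℂ) +
      I * ((fderiv ℝ (fun y => fderiv ℝ q y (I • e)) x u : ℝ) : ℂ)) / 2 := by
    intro u
    rw [hFe.fderiv_eq]
    have a1 := (Complex.ofRealCLM.hasFDerivAt (x := fderiv ℝ q x e)).comp x (hd2 e).hasFDerivAt
    have a2 := (Complex.ofRealCLM.hasFDerivAt (x := fderiv ℝ q x (I • e))).comp x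
      (hd2 (I • e)).hasFDerivAt
    have a3 := ((a1.add (a2.const_smul I)).const_smul (2 : ℂ)⁻¹)
    have a4 : HasFDerivAt (fun y => (((fderiv ℝ q y e : ℝ) : ℂ) +
      I * ((fderiv ℝ q y (I • e) : ℝ) : ℂ)) / 2) _ x :=
      a3.congr_of_eventuallyEq (Eventually.of_forall fun y => by
        simp [div_eq_inv_mul])
    rw [a4.fderiv]
    simp [div_eq_inv_mul, mul_add]
  rw [h1, (hPQ F x).1, hFd', hFd']
  simp only [Complex.div_re, Complex.div_im, Complex.sub_re, Complex.sub_im, Complex.add_re, Complex.add_im, Complex.mul_re,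
    Complex.mul_im, Complex.I_re, Complex.I_im, Complex.ofReal_re, Complex.ofReal_im, Complex.re_ofNat,
    Complex.im_ofNat, Complex.normSq_ofNat]
  ring

end Vale.Agent.P277.TD
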