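import Vale.Agent.P277.Stmts2

/-!
# P277, TX-POT: moving discs in the presence of a branch divisor (abstract statement)
-/

open scoped Manifold ContDiff ComplexOrder Topology
open Vale.Agent.P272.K Vale.Agent.P285.H281.FD Set Metric

noncomputable section

namespace Vale.Agent.P277.TD

/-- `H` is a closed semipositive form on `B \ (E₀ ∪ {θ = 0})`, `E₀` of codimension two, with bounded
majorants near the points of `{θ = 0} \ E₀` (`H` is the push-forward of the Kähler form by the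
branched covering, `P` the sum over the sheets of `C |y|²`), and polynomial growth at the wedge
`bl`, `w → w₀`. If for all `δ > 0` there is a `δ H`-plurisubharmonic function on the same set, locally
bounded above near the points of `{θ = 0} \ E₀`, which tends to infinity at the wedge at least
as `κ log (1/|w 0|)`, `κ > 0` independent of `δ`, we have a contradiction. -/
def StPot : Prop :=
  ∀ (c : Cm 4) (r : ℝ) (E₀ : Set (Cm 4)) (_ : IsOpen (ball c r \ E₀))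
    (Ω : ℕ → Set (Cm 2)) (g : ℕ → Cm 2 → Cm 4) (_ : ∀ k, ∀ p ∈ Ω k, AnalyticAt ℂ (g k) p)
    (_ : E₀ ⊆ ⋃ k, g k '' Ω k)
    (θ : Cm 4 → ℂ) (_ : ∀ z ∈ ball c r, AnalyticAt ℂ θ z) (_ : ∀ z ∈ ball c r, ¬ θ =ᶠ[𝓝 z] 0)
    (H : Cm 4 → Matrix (Fin 4) (Fin 4) ℂ)
    (_ : ∀ x ∈ ball c r \ E₀, θ x ≠ 0 → ∀ i j, ContDiffAt ℝ 1 (fun y => H y i j) x)
    (_ : ∀ x ∈ ball c r \ E₀, θ x ≠ 0 → ∀ i j k,
      dz k (fun y => H y i j) x = dz i (fun y => H y k j) x)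
    (_ : ∀ x ∈ ball c r \ E₀, θ x ≠ 0 → (H x).PosSemidef)
    (_ : ∀ x ∈ ball c r \ E₀, ∃ (P : Cm 4 → ℝ) (C : ℝ), ∀ᶠ y in 𝓝 x, θ y ≠ 0 →
      |P y| ≤ C ∧ ContDiffAt ℝ 2 P y ∧ (cHess P y - H y).PosSemidef)
    (w₀ : Cm 4) (_ : w₀ 0 = 0) (_ : bl w₀ ∈ ball c r)
    (_ : ∀ᶠ w in 𝓝 w₀, w 0 ≠ 0 → θ (bl w) ≠ 0)
    (_ : ∃ (C : ℝ) (A : ℕ), ∀ᶠ w in 𝓝 w₀, w 0 ≠ 0 → bl w ∉ E₀ →
      ∀ i j, ‖H (bl w) i j‖ ≤ C / ‖w 0‖ ^ A)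
    (κ : ℝ) (_ : 0 < κ)
    (_ : ∀ δ : ℝ, 0 < δ → ∃ φ : Cm 4 → ℝ,
      (∀ x ∈ ball c r \ E₀, θ x ≠ 0 → ContDiffAt ℝ 2 φ x ∧
        (cHess φ x + (δ : ℂ) • H x).PosSemidef) ∧
      (∀ x ∈ ball c r \ E₀, ∃ C : ℝ, ∀ᶠ y in 𝓝 x, θ y ≠ 0 → φ y ≤ C) ∧
      ∃ C' : ℝ, ∀ᶠ w in 𝓝 w₀, w 0 ≠ 0 → bl w ∉ E₀ →
        κ * Real.log (1 / ‖w 0‖) - C' ≤ φ (bl w)), False

end Vale.Agent.P277.TD
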