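import Vale.Agent.P277.H762.L1
import Vale.Agent.P277.H884.Min4
import Vale.Agent.P277.H884.Conn

/-!
# P277, task L3: patches of a surface, thin subsets of balls of `ℂ²`
-/

open scoped Manifold ContDiff Topology
open Vale.Agent.P272.K Vale.Agent.P285.H281.FD Set Filter Metric

noncomputable section

namespace Vale.Agent.P277.H762

/-- `StB2` in dimension two. -/
theorem b2_two {c : Cm 2} {r : ℝ} {W : ℕ → Set (Cm 1)} {g : ℕ → Cm 1 → Cm 2} (hr : 0 < r)
    (hW : ∀ k, IsOpen (W k)) (hg : ∀ k, ContDiffOn ℝ 1 (g k) (W k)) :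
    IsPreconnected (ball c r \ ⋃ k, g k '' W k) ∧
      ball c r ⊆ closure (ball c r \ ⋃ k, g k '' W k) := by
  set E := ⋃ k, g k '' W k with hE
  let W' : ℕ → Set (Cm 2) := fun k => {u | Fin.tail u ∈ W k}
  let g' : ℕ → Cm 2 → Cm 3 := fun k u => Fin.cons (u 0) (g k (Fin.tail u))
  have hW' : ∀ k, IsOpen (W' k) := fun k => (hW k).preimage H884.continuous_tail
  have hg' : ∀ k, ContDiffOn ℝ 1 (g' k) (W' k) := by
    intro k
    have h1 : ContDiffOn ℝ 1 (fun u : Cm 2 => g k (Fin.tail u)) (W' k) := by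
      refine (hg k).comp ?_ fun u hu => hu
      exact (contDiff_pi.2 fun i : Fin 1 => contDiff_apply ℝ ℂ i.succ).contDiffOn
    refine contDiffOn_pi.2 fun i => ?_
    refine Fin.cases ?_ (fun j => ?_) i
    · exact (contDiff_apply ℝ ℂ 0).contDiffOn
    · exact (contDiffOn_pi.1 h1) j
  obtain ⟨h1, h2⟩ := H884.b2_three (c := Fin.cons 0 c) hr hW' hg'
  have hE' : ∀ z : Cm 3, z ∈ (⋃ k, g' k '' W' k) ↔ Fin.tail z ∈ E := by
    intro z
    constructor
    · intro hz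
      obtain ⟨k, u, hu, rfl⟩ := mem_iUnion.1 hz
      exact mem_iUnion.2 ⟨k, Fin.tail u, hu, rfl⟩
    · intro hz
      obtain ⟨k, p, hp, hpz⟩ := mem_iUnion.1 hz
      refine mem_iUnion.2 ⟨k, Fin.cons (z 0) p, hp, ?_⟩
      show Fin.cons (z 0) (g k p) = z
      rw [hpz, Fin.cons_self_tail]
  have himg : Fin.tail '' (ball (Fin.cons 0 c : Cm 3) r \ ⋃ k, g' k '' W' k) = ball c r \ E := by
    ext x
    constructor
    · rintro ⟨z, ⟨hz1, hz2⟩, rfl⟩
      rw [← Fin.cons_self_tail z, H884.ball_cons hr] at hz1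
      exact ⟨hz1.2, fun h => hz2 ((hE' z).2 h)⟩
    · rintro ⟨hx1, hx2⟩
      refine ⟨Fin.cons 0 x, ⟨(H884.ball_cons hr).2 ⟨by simpa using hr, hx1⟩, fun h => hx2 ?_⟩, rfl⟩
      exact (hE' _).1 h
  constructor
  · rw [← himg]
    exact h1.image _ H884.continuous_tail.continuousOn
  · intro x hx
    have h3 : (Fin.cons 0 x : Cm 3) ∈ closure (ball (Fin.cons 0 c : Cm 3) r \ ⋃ k, g' k '' W' k) :=
      h2 ((H884.ball_cons hr).2 ⟨by simpa using hr, hx⟩)
    have h4 := image_closure_subset_closure_image H884.continuous_tail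
      (mem_image_of_mem Fin.tail h3)
    rw [himg] at h4
    exact h4

/-- complements of thin subsets of balls of `ℂ²` -/
theorem cv_one_compl {c : Cm 2} {r : ℝ} (hr : 0 < r) {B : Set (Cm 2)} (hB : Cv 1 B) :
    IsPreconnected (ball c r \ B) ∧ ball c r ⊆ closure (ball c r \ B) := by
  obtain ⟨W, g, hW, hg, hcov⟩ := hB
  obtain ⟨h1, h2⟩ := b2_two (c := c) hr hW fun k p hp =>
    (((hg k p hp).restrictScalars (𝕜 := ℝ)).contDiffAt (n := 1)).contDiffWithinAt
  have h3 : ball c r \ ⋃ k, g k '' W k ⊆ ball c r \ B := fun z hz =>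
    ⟨hz.1, fun hzE => hz.2 (hcov hzE)⟩
  exact ⟨h1.subset_closure h3 fun z hz => h2 hz.1, h2.trans (closure_mono h3)⟩

variable {X : CSp} {S T V : Set X.pt} {c : Cm 2} {ρ : ℝ} {g : Cm 2 → X.pt} {u' : X.pt → Cm 2}

/-- a parametrised piece of the surface `S \ T` -/
structure Patch (X : CSp) (S T V : Set X.pt) (u' : X.pt → Cm 2) (c : Cm 2) (ρ : ℝ)
    (g : Cm 2 → X.pt) : Prop where
  pos : 0 < ρ
  hol : ∀ p ∈ ball c ρ, HolAt X g p
  mem : ∀ p ∈ ball c ρ, g p ∈ S ∧ g p ∉ T ∧ g p ∈ V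
  inv : ∀ p ∈ ball c ρ, (∀ i, X.Hol (fun y => u' y i) (g p)) ∧ u' (g p) = p
  nhd : ∀ p ∈ ball c ρ, ∀ O ∈ 𝓝 p, ∀ᶠ y in 𝓝 (g p), y ∈ S → y ∈ g '' O

theorem exists_patchS (hT : IsClosed T) (hV : IsOpen V) {x : X.pt} (hxT : x ∉ T)
    (hxV : x ∈ V) (hs : IsSurfX X S x) : ∃ u' c ρ g, Patch X S T V u' c ρ g ∧ g c = x := by
  obtain ⟨Ω, g, u', hΩ, hg, ⟨c, hc, rfl⟩, hu, hug, hiff⟩ := hs
  have h1 : ∀ᶠ y in 𝓝 (g c), (∀ᶠ z in 𝓝 y, z ∈ S ↔ (u' z ∈ Ω ∧ g (u' z) = z)) ∧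
      (∀ i, X.Hol (fun y => u' y i) y) ∧ y ∉ T ∧ y ∈ V :=
    (eventually_eventually_nhds.2 hiff).and ((eventually_all.2 hu).and
      ((hT.isOpen_compl.eventually_mem hxT).and (hV.eventually_mem hxV)))
  have h2 : ∀ᶠ p in 𝓝 c, p ∈ Ω ∧ ((∀ᶠ z in 𝓝 (g p), z ∈ S ↔ (u' z ∈ Ω ∧ g (u' z) = z)) ∧
      (∀ i, X.Hol (fun y => u' y i) (g p)) ∧ g p ∉ T ∧ g p ∈ V) :=
    (hΩ.eventually_mem hc).and ((hg c hc).1.eventually h1)
  obtain ⟨ρ, hρ, hball⟩ := Metric.eventually_nhds_iff_ball.1 h2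
  refine ⟨u', c, ρ, g, ⟨hρ, fun p hp => hg p (hball p hp).1, fun p hp => ?_, fun p hp => ?_,
    fun p hp O hO => ?_⟩, rfl⟩
  · obtain ⟨h3, h4, h5, h6, h7⟩ := hball p hp
    refine ⟨h4.self_of_nhds.2 ⟨?_, ?_⟩, h6, h7⟩
    · rw [hug p h3]; exact h3
    · rw [hug p h3]
  · obtain ⟨h3, h4, h5, h6, h7⟩ := hball p hp
    exact ⟨h5, hug p h3⟩
  · obtain ⟨h3, h4, h5, h6, h7⟩ := hball p hp
    have h8 : ContinuousAt u' (g p) := continuousAt_pi.2 fun i => hol_continuousAt (h5 i)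
    have h9 : ∀ᶠ y in 𝓝 (g p), u' y ∈ O := by
      refine h8.eventually ?_
      rw [hug p h3]
      exact hO
    filter_upwards [h4, h9] with y hy hy' hyS
    exact ⟨u' y, hy', (hy.1 hyS).2⟩

theorem Patch.shrink (h : Patch X S T V u' c ρ g) {p : Cm 2} {ρ' : ℝ} (hρ' : 0 < ρ')
    (hs : ball p ρ' ⊆ ball c ρ) : Patch X S T V u' p ρ' g where
  pos := hρ'
  hol q hq := h.hol q (hs hq)
  mem q hq := h.mem q (hs hq)
  inv q hq := h.inv q (hs hq)
  nhd q hq := h.nhd q (hs hq)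

theorem Patch.imm (h : Patch X S T V u' c ρ g) {N : ℕ} {u : Fin N → X.pt → ℂ} (hu : IsCoord X V u)
    {p : Cm 2} (hp : p ∈ ball c ρ) : Function.Injective (fderiv ℂ (fun q a => u a (g q)) p) := by
  obtain ⟨h1, h2⟩ := h.inv p hp
  have hV := (h.mem p hp).2.2
  have h3 : ∀ i, ∃ G : Cm N → ℂ, AnalyticAt ℂ G (fun a => u a (g p)) ∧
      (fun y => u' y i) =ᶠ[𝓝 (g p)] fun y => G fun a => u a y := fun i => (hu.iff _ hV _).1 (h1 i)
  choose G hG hGe using h3
  have hΓ : AnalyticAt ℂ (fun q a => u a (g q)) p :=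
    AnalyticAt.pi fun a => (h.hol p hp).analyticAt (hu.hol a _ hV)
  have hGa : AnalyticAt ℂ (fun z i => G i z) (fun a => u a (g p)) := AnalyticAt.pi hG
  have h4 : (fun q : Cm 2 => (fun z i => G i z) (fun a => u a (g q))) =ᶠ[𝓝 p] fun q => q := by
    have h5 : ∀ᶠ q in 𝓝 p, ∀ i, u' (g q) i = G i fun a => u a (g q) :=
      (h.hol p hp).1.eventually (eventually_all.2 hGe)
    filter_upwards [h5, isOpen_ball.mem_nhds hp] with q hq hqb
    funext i
    rw [← hq i, (h.inv q hqb).2]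
  have h6 := (hGa.differentiableAt.hasFDerivAt.comp p hΓ.differentiableAt.hasFDerivAt)
  have h7 : HasFDerivAt (fun q : Cm 2 => q)
      ((fderiv ℂ (fun z i => G i z) (fun a => u a (g p))).comp
        (fderiv ℂ (fun q a => u a (g q)) p)) p := h6.congr_of_eventuallyEq h4.symm
  have h8 := h7.unique (hasFDerivAt_id p)
  rw [injective_iff_map_eq_zero]
  intro v hv
  have h9 := congrArg (fun L : Cm 2 →L[ℂ] Cm 2 => L v) h8
  simp only [ContinuousLinearMap.comp_apply, hv, map_zero, ContinuousLinearMap.id_apply] at h9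
  exact h9.symm

/-- patches are not one-dimensional -/
theorem Patch.not_dimLe (h : Patch X S T V u' c ρ g) : ¬ DimLe X 1 (g '' ball c ρ) := by
  rintro ⟨Ω, G, h1, h2, h3⟩
  have h4 : Cv 1 (ball c ρ) := by
    refine ⟨fun l => {p | p ∈ Ω l ∧ ∀ i, X.Hol (fun y => u' y i) (G l p)}, fun l p => u' (G l p),
      fun l => ?_, fun l p hp => ?_, fun p hp => ?_⟩
    · rw [isOpen_iff_eventually]
      intro p hp
      exact ((h1 l).eventually_mem hp.1).and
        ((h2 l p hp.1).1.eventually (eventually_all.2 fun i => hol_eventually (hp.2 i)))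
    · exact AnalyticAt.pi fun i => (h2 l p hp.1).analyticAt (hp.2 i)
    · obtain ⟨l, q, hq, hqp⟩ := mem_iUnion.1 (h3 (mem_image_of_mem g hp))
      refine mem_iUnion.2 ⟨l, q, ⟨hq, ?_⟩, ?_⟩
      · rw [hqp]; exact (h.inv p hp).1
      · simp only [hqp]; exact (h.inv p hp).2
  exact not_cv_nhds (by rw [Module.finrank_fin_fun]; norm_num) (ball_mem_nhds c h.pos) h4

/-! ### good points -/

variable {F : X.pt → Cm 2}

/-- `F` is a local biholomorphism of `S` at `y` -/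
def GoodAt (X : CSp) (S T V : Set X.pt) (F : X.pt → Cm 2) (y : X.pt) : Prop :=
  ∃ u' c ρ g, Patch X S T V u' c ρ g ∧ g c = y ∧ Function.Injective (fderiv ℂ (fun q => F (g q)) c)

theorem Patch.analyticAt (h : Patch X S T V u' c ρ g) (hF : ∀ i, ∀ y ∈ V, X.Hol (fun y => F y i) y)
    {p : Cm 2} (hp : p ∈ ball c ρ) : AnalyticAt ℂ (fun q => F (g q)) p :=
  AnalyticAt.pi fun i => (h.hol p hp).analyticAt (hF i _ (h.mem p hp).2.2)

theorem Patch.isOpen_map (h : Patch X S T V u' c ρ g)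
    (hF : ∀ i, ∀ y ∈ V, X.Hol (fun y => F y i) y)
    {p : Cm 2} (hp : p ∈ ball c ρ) (hi : Function.Injective (fderiv ℂ (fun q => F (g q)) p))
    {O : Set (Cm 2)} (hO : O ∈ 𝓝 p) : F '' (g '' O) ∈ 𝓝 (F (g p)) := by
  obtain ⟨e, he, hpe, -, -⟩ := H73.exists_localInv (h.analyticAt hF hp) hi
  have h1 : e '' O ∈ 𝓝 (e p) := by
    rw [← e.map_nhds_eq hpe]
    exact image_mem_map hO
  rw [he] at h1
  rwa [image_image]

theorem good_of_patch (h : Patch X S T V u' c ρ g) {p : Cm 2} (hp : p ∈ ball c ρ)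
    (hi : Function.Injective (fderiv ℂ (fun q => F (g q)) p)) : GoodAt X S T V F (g p) := by
  obtain ⟨ρ', hρ', hs⟩ := Metric.isOpen_iff.1 isOpen_ball p hp
  exact ⟨u', p, ρ', g, h.shrink hρ' hs, rfl, hi⟩

theorem GoodAt.mem {y : X.pt} (h : GoodAt X S T V F y) : y ∈ S ∧ y ∉ T ∧ y ∈ V := by
  obtain ⟨u', c, ρ, g, hP, rfl, -⟩ := h
  exact hP.mem c (mem_ball_self hP.pos)

/-- determinant of an endomorphism of `ℂ²` -/
def dt (L : Cm 2 →L[ℂ] Cm 2) : ℂ :=
  L (Pi.single 0 1) 0 * L (Pi.single 1 1) 1 - L (Pi.single 0 1) 1 * L (Pi.single 1 1) 0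

theorem injective_iff_dt (L : Cm 2 →L[ℂ] Cm 2) : Function.Injective L ↔ dt L ≠ 0 := by
  have hL : ∀ v : Cm 2, L v = v 0 • L (Pi.single 0 1) + v 1 • L (Pi.single 1 1) := by
    intro v
    have : v = v 0 • (Pi.single 0 1 : Cm 2) + v 1 • (Pi.single 1 1 : Cm 2) := by
      ext i; fin_cases i <;> simp
    conv_lhs => rw [this]
    rw [map_add, map_smul, map_smul]
  rw [dt]
  set x := L (Pi.single 0 1) with hx
  set y := L (Pi.single 1 1) with hy
  constructor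
  · intro hLi hdet
    have h2 : ∀ v : Cm 2, L v = 0 → v = 0 := fun v hv => hLi (by rw [hv, map_zero])
    by_cases hxy : x = 0
    · have := h2 (Pi.single 0 1) (by rw [← hx, hxy])
      have := congrFun this 0
      simp at this
    · by_cases hx0 : x 0 = 0
      · have hx1 : x 1 ≠ 0 := by
          intro hx1
          exact hxy (by ext i; fin_cases i <;> assumption)
        have h3 := h2 ![y 1, -x 1] (by
          rw [hL]
          ext i
          fin_cases i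
          · simp; linear_combination hdet
          · simp; ring)
        have := congrFun h3 1
        simp at this
        exact hx1 this
      · have h3 := h2 ![y 0, -x 0] (by
          rw [hL]
          ext i
          fin_cases i
          · simp; ring
          · simp; linear_combination -hdet)
        have := congrFun h3 1
        simp at this
        exact hx0 this
  · intro hdet
    rw [injective_iff_map_eq_zero]
    intro v hv
    rw [hL] at hv
    have h3 := congrFun hv 0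
    have h4 := congrFun hv 1
    simp only [Pi.add_apply, Pi.smul_apply, smul_eq_mul, Pi.zero_apply] at h3 h4
    have h6 : v 0 * (x 0 * y 1 - x 1 * y 0) = 0 := by linear_combination y 1 * h3 - y 0 * h4
    have h7 : v 1 * (x 0 * y 1 - x 1 * y 0) = 0 := by linear_combination x 0 * h4 - x 1 * h3
    ext i
    fin_cases i
    · exact (mul_eq_zero.1 h6).resolve_right hdet
    · exact (mul_eq_zero.1 h7).resolve_right hdet

theorem analyticAt_dt {f : Cm 2 → Cm 2} {p : Cm 2} (hf : AnalyticAt ℂ f p) :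
    AnalyticAt ℂ (fun q => dt (fderiv ℂ f q)) p := by
  have h1 : ∀ (v : Cm 2) (i : Fin 2), AnalyticAt ℂ (fun q => fderiv ℂ f q v i) p := by
    intro v i
    have h2 := ((ContinuousLinearMap.apply ℂ (Cm 2) v).analyticAt _).comp hf.fderiv
    exact ((ContinuousLinearMap.proj (R := ℂ) (φ := fun _ : Fin 2 => ℂ) i).analyticAt _).comp h2
  exact ((h1 _ _).mul (h1 _ _)).sub ((h1 _ _).mul (h1 _ _))

theorem eventually_injective {f : Cm 2 → Cm 2} {p : Cm 2} (hf : AnalyticAt ℂ f p)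
    (hi : Function.Injective (fderiv ℂ f p)) : ∀ᶠ q in 𝓝 p, Function.Injective (fderiv ℂ f q) := by
  filter_upwards [(analyticAt_dt hf).continuousAt.eventually_ne ((injective_iff_dt _).1 hi)]
    with q hq using (injective_iff_dt _).2 hq

theorem GoodAt.eventually (hF : ∀ i, ∀ y ∈ V, X.Hol (fun y => F y i) y) {y : X.pt}
    (h : GoodAt X S T V F y) : ∀ᶠ z in 𝓝 y, z ∈ S → GoodAt X S T V F z := by
  obtain ⟨u', c, ρ, g, hP, rfl, hi⟩ := h
  have hc := mem_ball_self (x := c) hP.pos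
  have h1 := eventually_injective (hP.analyticAt hF hc) hi
  filter_upwards [hP.nhd c hc _ (inter_mem h1 (isOpen_ball.mem_nhds hc))] with z hz hzS
  obtain ⟨p, ⟨hp1, hp2⟩, rfl⟩ := hz hzS
  exact good_of_patch hP hp2 hp1

theorem GoodAt.image_mem (hF : ∀ i, ∀ y ∈ V, X.Hol (fun y => F y i) y) {y : X.pt}
    (h : GoodAt X S T V F y) {N : Set X.pt} (hN : N ∈ 𝓝 y) : F '' (S ∩ N) ∈ 𝓝 (F y) := by
  obtain ⟨u', c, ρ, g, hP, rfl, hi⟩ := h
  have hc := mem_ball_self (x := c) hP.pos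
  have hO : g ⁻¹' N ∩ ball c ρ ∈ 𝓝 c := inter_mem ((hP.hol c hc).1 hN) (isOpen_ball.mem_nhds hc)
  refine mem_of_superset (hP.isOpen_map hF hc hi hO) ?_
  rintro _ ⟨_, ⟨p, ⟨hpN, hp⟩, rfl⟩, rfl⟩
  exact ⟨g p, ⟨(hP.mem p hp).1, hpN⟩, rfl⟩

theorem GoodAt.isolated (hF : ∀ i, ∀ y ∈ V, X.Hol (fun y => F y i) y) {y : X.pt}
    (h : GoodAt X S T V F y) : ∀ᶠ z in 𝓝 y, z ∈ S → F z = F y → z = y := by
  obtain ⟨u', c, ρ, g, hP, rfl, hi⟩ := h
  have hc := mem_ball_self (x := c) hP.pos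
  obtain ⟨e, he, hpe, -, -⟩ := H73.exists_localInv (hP.analyticAt hF hc) hi
  filter_upwards [hP.nhd c hc _ (e.open_source.mem_nhds hpe)] with z hz hzS hzF
  obtain ⟨p, hp, rfl⟩ := hz hzS
  have h1 : e p = e c := by rw [he]; exact hzF
  rw [e.injOn hp hpe h1]

end Vale.Agent.P277.H762
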