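import Vale.Agent.P277.H762.L3a

/-!
# P277, task L3: generic projections
-/

open scoped Manifold ContDiff Topology
open Vale.Agent.P272.K Vale.Agent.P285.H281.FD Set Filter Metric

noncomputable section

namespace Vale.Agent.P277.H762

variable {X : CSp} {S T V : Set X.pt} {N : ℕ} {u : Fin N → X.pt → ℂ} {x₀ : X.pt}

/-- the linear projection -/
def prj {X : CSp} (x₀ : X.pt) {N : ℕ} (u : Fin N → X.pt → ℂ) (w₁ w₂ : Fin N → ℂ) (y : X.pt) :
    Cm 2 :=
  ![∑ a, w₁ a * (u a y - u a x₀), ∑ a, w₂ a * (u a y - u a x₀)]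

theorem prj_hol (hu : IsCoord X V u) (w₁ w₂ : Fin N → ℂ) (i : Fin 2) {y : X.pt} (hy : y ∈ V) :
    X.Hol (fun y => prj x₀ u w₁ w₂ y i) y := by
  have h : ∀ w : Fin N → ℂ, X.Hol (fun y => ∑ a, w a * (u a y - u a x₀)) y := fun w =>
    hol_sum _ fun a _ => hol_mul (hol_const _ _) (hol_sub (hu.hol a y hy) (hol_const _ _))
  fin_cases i
  · exact h w₁
  · exact h w₂

/-- the components of the derivative of the coordinates -/
def frm {N : ℕ} (D : Cm 2 →L[ℂ] Cm N) (a : Fin N) : Cm 2 →L[ℂ] ℂ :=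
  (ContinuousLinearMap.proj (R := ℂ) (φ := fun _ : Fin N => ℂ) a).comp D

theorem fderiv_prj {w₁ w₂ : Fin N → ℂ} {g : Cm 2 → X.pt} {p : Cm 2}
    (hg : AnalyticAt ℂ (fun q a => u a (g q)) p) (z : Cm 2) :
    fderiv ℂ (fun q => prj x₀ u w₁ w₂ (g q)) p z =
      ![(∑ a, w₁ a • frm (fderiv ℂ (fun q a => u a (g q)) p) a) z,
        (∑ a, w₂ a • frm (fderiv ℂ (fun q a => u a (g q)) p) a) z] := by
  have hd := hg.differentiableAt.hasFDerivAt
  have h1 : ∀ w : Fin N → ℂ, HasFDerivAt (fun q => ∑ a, w a * (u a (g q) - u a x₀))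
      (∑ a, w a • frm (fderiv ℂ (fun q a => u a (g q)) p) a) p := by
    intro w
    refine HasFDerivAt.fun_sum fun a _ => ?_
    exact (((hasFDerivAt_pi'.1 hd) a).sub_const _).const_mul _
  have h2 : HasFDerivAt (fun q => prj x₀ u w₁ w₂ (g q))
      (ContinuousLinearMap.pi ![∑ a, w₁ a • frm (fderiv ℂ (fun q a => u a (g q)) p) a,
        ∑ a, w₂ a • frm (fderiv ℂ (fun q a => u a (g q)) p) a]) p := by
    rw [hasFDerivAt_pi']
    intro i
    fin_cases i
    · exact h1 w₁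
    · exact h1 w₂
  rw [h2.fderiv]
  ext i
  fin_cases i <;> rfl

theorem exists_prj (hT : IsClosed T) (hT1 : DimLe X 1 T) (hST : ∀ x ∈ S \ T, IsSurfX X S x)
    (hS2 : DimLe X 2 S) (hu : IsCoord X V u) (hN : N ≠ 0) (hx₀ : x₀ ∈ V) :
    ∃ w₁ w₂ : Fin N → ℂ, {y | y ∈ S ∧ y ∈ V ∧ prj x₀ u w₁ w₂ y = 0}.Countable ∧
      DimLe X 1 {y | y ∈ S ∧ y ∈ V ∧ ¬ GoodAt X S T V (prj x₀ u w₁ w₂) y} := by
  have hB1 : StB1 := H622.stB1
  -- the countable family of patches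
  have key : ∀ x : {x : X.pt // x ∈ V ∧ x ∈ S \ T}, ∃ u' c ρ g, Patch X S T V u' c ρ g ∧ g c = x :=
    fun x => exists_patchS hT hu.isOpen x.2.2.2 x.2.1 (hST x x.2.2)
  choose u' c ρ g hP hgc using key
  have hnb : ∀ x : {x : X.pt // x ∈ V ∧ x ∈ S \ T}, ∃ O : Set X.pt, IsOpen O ∧ x.1 ∈ O ∧
      S ∩ O ⊆ g x '' ball (c x) (ρ x) := by
    intro x
    have hc := mem_ball_self (x := c x) (hP x).pos
    have h1 := (hP x).nhd (c x) hc _ (isOpen_ball.mem_nhds hc)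
    rw [hgc x] at h1
    obtain ⟨O, hO, hOo, hxO⟩ := eventually_nhds_iff.1 h1
    exact ⟨O, hOo, hxO, fun y hy => hO y hy.2 hy.1⟩
  choose O hO hxO hOS using hnb
  obtain ⟨t, htc, htU⟩ := TopologicalSpace.isOpen_iUnion_countable O hO
  have hcov : ∀ y ∈ S \ T, y ∈ V → ∃ x ∈ t, y ∈ g x '' ball (c x) (ρ x) := by
    intro y hy hyV
    have h1 : y ∈ ⋃ x, O x := mem_iUnion.2 ⟨⟨y, hyV, hy⟩, hxO _⟩
    rw [← htU] at h1
    obtain ⟨x, hx, hyx⟩ := mem_iUnion₂.1 h1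
    exact ⟨x, hx, hOS x ⟨hy.1, hyx⟩⟩
  have : Countable t := htc.to_subtype
  let D : {x : X.pt // x ∈ V ∧ x ∈ S \ T} → Cm 2 →L[ℂ] Cm N := fun x =>
    fderiv ℂ (fun q a => u a (g x q)) (c x)
  have hD : ∀ x, Function.Injective (D x) := fun x => (hP x).imm hu (mem_ball_self (hP x).pos)
  have hfr : 1 < Module.finrank ℂ (Cm 2 →L[ℂ] ℂ) := by rw [TX.finrank_dual]; norm_num
  -- the first form
  have hF : ∀ m, ∀ y ∈ V, X.Hol (fun y => u m y - u m x₀) y := fun m y hy =>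
    hol_sub (hu.hol m y hy) (hol_const _ _)
  have hne : ∀ y ∈ V, y ≠ x₀ → ∃ m, u m y - u m x₀ ≠ 0 := by
    intro y hy hyx
    by_contra hcon
    push Not at hcon
    exact hyx (hu.injOn hy hx₀ (funext fun m => sub_eq_zero.1 (hcon m)))
  have hSV : DimLe X (1 + 1) (S ∩ V) := hS2.mono inter_subset_left
  obtain ⟨w₁, hw11, -, hw1⟩ := TX.choose_step hu.isOpen hN hF (T₁ := S ∩ V) (T₂ := S ∩ V)
    inter_subset_right hSV inter_subset_right hSV (p := x₀) (fun x hx hx0 => hne x hx.2 hx0)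
    (fun x hx hx0 => hne x hx.2 hx0) (ι := ULift.{0} t)
    (fun x => (⊥ : Submodule ℂ (Cm 2 →L[ℂ] ℂ)).comap (Fintype.linearCombination ℂ (frm (D x.down))))
    (fun x => H619.comap_ne_top (TX.span_components (hD _)) (by
      intro h
      rw [← finrank_top ℂ (Cm 2 →L[ℂ] ℂ), ← h, finrank_bot] at hfr
      omega))
  -- the second form
  obtain ⟨w₂, hw21, -, hw2⟩ := TX.choose_step hu.isOpen hN hF
    (T₁ := {x | x ∈ S ∩ V ∧ ∑ m, w₁ m * (u m x - u m x₀) = 0})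
    (T₂ := {x | x ∈ S ∩ V ∧ ∑ m, w₁ m * (u m x - u m x₀) = 0})
    (fun x hx => hx.1.2) hw11 (fun x hx => hx.1.2) hw11 (p := x₀)
    (fun x hx hx0 => hne x hx.1.2 hx0)
    (fun x hx hx0 => hne x hx.1.2 hx0) (ι := ULift.{0} t)
    (fun x => (Submodule.span ℂ {∑ a, w₁ a • frm (D x.down) a}).comap
      (Fintype.linearCombination ℂ (frm (D x.down))))
    (fun x => H619.comap_ne_top (TX.span_components (hD _)) (by
      intro h
      have h0 := hw1 x
      simp only [Submodule.mem_comap, Fintype.linearCombination_apply, Submodule.mem_bot] at h0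
      have h1 := finrank_span_singleton (K := ℂ) h0
      rw [h, finrank_top] at h1
      omega))
  refine ⟨w₁, w₂, ?_, ?_⟩
  · refine hw21.countable.mono ?_
    rintro y ⟨hyS, hyV, hy⟩
    exact ⟨⟨⟨hyS, hyV⟩, congrFun hy 0⟩, congrFun hy 1⟩
  · -- injectivity at the centres
    have hinj : ∀ x ∈ t, Function.Injective
        (fderiv ℂ (fun q => prj x₀ u w₁ w₂ (g x q)) (c x)) := by
      intro x hx
      have hc := mem_ball_self (x := c x) (hP x).pos
      have hg : AnalyticAt ℂ (fun q a => u a (g x q)) (c x) :=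
        AnalyticAt.pi fun a => ((hP x).hol _ hc).analyticAt (hu.hol a _ ((hP x).mem _ hc).2.2)
      rw [injective_iff_map_eq_zero]
      intro z hz
      rw [fderiv_prj hg] at hz
      have h1 := hw1 ⟨⟨x, hx⟩⟩
      have h2 := hw2 ⟨⟨x, hx⟩⟩
      simp only [Submodule.mem_comap, Fintype.linearCombination_apply, Submodule.mem_bot] at h1 h2
      refine TX.injective_pair (A := ∑ a, w₁ a • frm (D x) a) (B := ∑ a, w₂ a • frm (D x) a) ?_
        (congrFun hz 0) (congrFun hz 1)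
      rw [LinearIndependent.pair_iff' h1]
      intro a ha
      exact h2 (Submodule.mem_span_singleton.2 ⟨a, ha⟩)
    have hcovb : {y | y ∈ S ∧ y ∈ V ∧ ¬ GoodAt X S T V (prj x₀ u w₁ w₂) y} ⊆
        T ∪ ⋃ x ∈ t, g x '' {p | p ∈ ball (c x) (ρ x) ∧
          dt (fderiv ℂ (fun q => prj x₀ u w₁ w₂ (g x q)) p) = 0} := by
      rintro y ⟨hyS, hyV, hyg⟩
      by_cases hyT : y ∈ T
      · exact Or.inl hyT
      · right
        obtain ⟨x, hx, p, hp, rfl⟩ := hcov y ⟨hyS, hyT⟩ hyV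
        refine mem_iUnion₂.2 ⟨x, hx, p, ⟨hp, ?_⟩, rfl⟩
        by_contra hdt
        exact hyg (good_of_patch (hP x) hp ((injective_iff_dt _).2 hdt))
    have hFa : ∀ x, ∀ p ∈ ball (c x) (ρ x), AnalyticAt ℂ (fun q => prj x₀ u w₁ w₂ (g x q)) p :=
      fun x p hp => (hP x).analyticAt (fun i y hy => prj_hol hu w₁ w₂ i hy) hp
    have : Nonempty X.pt := ⟨x₀⟩
    refine DimLe.mono (DimLe.union hT1 (dimLe_biUnion htc fun x hx => ?_)) hcovb
    exact H73.dimLe_image_zeros hB1 (hP x).hol (F := fun p =>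
      dt (fderiv ℂ (fun q => prj x₀ u w₁ w₂ (g x q)) p)) (fun p hp => analyticAt_dt (hFa x p hp))
      ⟨c x, mem_ball_self (hP x).pos, (injective_iff_dt _).1 (hinj x hx)⟩

end Vale.Agent.P277.H762
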