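import Vale.Agent.P277.H762.Herm
import Mathlib.Analysis.Calculus.BumpFunction.Convolution
import Mathlib.Analysis.Calculus.BumpFunction.FiniteDimension
import Mathlib.Analysis.Calculus.ContDiff.Convolution

/-!
# P277, task TX-CORE: mollification of closed semipositive `(1,1)`-forms
-/

open scoped Manifold ContDiff ComplexOrder Topology Convolution
open Complex Vale.Agent.P272.K Vale.Agent.P272 Filter MeasureTheory Metric Set

noncomputable section

namespace Vale.Agent.P277.TD

variable {n : ℕ}

/-- mollification -/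
def molF (φ : ContDiffBump (0 : Cm n)) (f : Cm n → ℂ) (x : Cm n) : ℂ :=
  ∫ z, φ.normed volume (x - z) • f z

variable {φ : ContDiffBump (0 : Cm n)} {f g : Cm n → ℂ} {x : Cm n}

theorem molF_eq_conv (φ : ContDiffBump (0 : Cm n)) (f : Cm n → ℂ) :
    molF φ f = (φ.normed volume ⋆[ContinuousLinearMap.lsmul ℝ ℝ, volume] f) := by
  funext x
  rw [convolution_eq_swap]
  rfl

theorem normed_eq_zero (φ : ContDiffBump (0 : Cm n)) {y : Cm n} (h : φ.rOut ≤ ‖y‖) :
    φ.normed volume y = 0 := by
  have h1 : y ∉ Function.support (φ.normed volume) := by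
    rw [φ.support_normed_eq, mem_ball_zero_iff, not_lt]
    exact h
  rwa [Function.notMem_support] at h1

/-- locality -/
theorem molF_congr (h : ∀ z ∈ ball x φ.rOut, f z = g z) : molF φ f x = molF φ g x := by
  unfold molF
  refine integral_congr_ae (ae_of_all _ fun z => ?_)
  by_cases hz : z ∈ ball x φ.rOut
  · simp only [h z hz]
  · have : φ.normed volume (x - z) = 0 := by
      refine normed_eq_zero φ ?_
      rw [← dist_eq_norm, dist_comm]
      simpa using hz
    simp only [this, zero_smul]

theorem contDiff_molF (hf : Integrable f) : ContDiff ℝ 1 (molF φ f) := by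
  rw [molF_eq_conv]
  exact φ.hasCompactSupport_normed.contDiff_convolution_left (n := 1) _ (φ.contDiff_normed)
    hf.locallyIntegrable

theorem fderiv_molF (hf : Integrable f) (x v : Cm n) :
    fderiv ℝ (molF φ f) x v = ∫ z, (fderiv ℝ (φ.normed volume) (x - z) v) • f z := by
  have hcs : HasCompactSupport (φ.normed volume) := φ.hasCompactSupport_normed
  have hcd : ContDiff ℝ 1 (φ.normed (volume : Measure (Cm n))) := φ.contDiff_normed
  have h1 := HasCompactSupport.hasFDerivAt_convolution_left (ContinuousLinearMap.lsmul ℝ ℝ)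
    hcs hcd hf.locallyIntegrable x
  rw [molF_eq_conv, h1.fderiv, convolution_eq_swap, ContinuousLinearMap.integral_apply]
  · rfl
  · have h2 := (hcs.fderiv ℝ).convolutionExists_left
      ((ContinuousLinearMap.lsmul ℝ ℝ : ℝ →L[ℝ] ℂ →L[ℝ] ℂ).precompL (Cm n))
      (hcd.continuous_fderiv one_ne_zero) hf.locallyIntegrable x
    exact h2.integrable_swap

theorem integrable_molF_integrand (hf : Integrable f) (x : Cm n) :
    Integrable fun z => φ.normed volume (x - z) • f z := by
  have hcs : HasCompactSupport (φ.normed (volume : Measure (Cm n))) := φ.hasCompactSupport_normed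
  have h2 := hcs.convolutionExists_left
      (ContinuousLinearMap.lsmul ℝ ℝ : ℝ →L[ℝ] ℂ →L[ℝ] ℂ)
      (φ.continuous_normed) hf.locallyIntegrable x
  exact h2.integrable_swap

/-- the test function `z ↦ φ (x - z)` -/
def tst (φ : ContDiffBump (0 : Cm n)) (x : Cm n) (z : Cm n) : ℝ := φ.normed volume (x - z)

theorem contDiff_tst (φ : ContDiffBump (0 : Cm n)) (x : Cm n) : ContDiff ℝ ∞ (tst φ x) := by
  have hcd : ContDiff ℝ ∞ (φ.normed (volume : Measure (Cm n))) := φ.contDiff_normed
  exact hcd.comp (contDiff_const.sub contDiff_id)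

theorem tsupport_tst (φ : ContDiffBump (0 : Cm n)) (x : Cm n) :
    tsupport (tst φ x) ⊆ closedBall x φ.rOut := by
  refine closure_minimal (fun z hz => ?_) isClosed_closedBall
  by_contra h
  refine hz (normed_eq_zero φ ?_)
  rw [← dist_eq_norm, dist_comm]
  simp only [mem_closedBall, not_le] at h
  exact h.le

theorem hasCompactSupport_tst (φ : ContDiffBump (0 : Cm n)) (x : Cm n) :
    HasCompactSupport (tst φ x) :=
  (isCompact_closedBall x φ.rOut).of_isClosed_subset (isClosed_tsupport _) (tsupport_tst φ x)

theorem fderiv_tst (φ : ContDiffBump (0 : Cm n)) (x z v : Cm n) :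
    fderiv ℝ (fun w => ((tst φ x w : ℝ) : ℂ)) z v =
      -((fderiv ℝ (φ.normed volume) (x - z) v : ℝ) : ℂ) := by
  have hcd : ContDiff ℝ 1 (φ.normed (volume : Measure (Cm n))) := φ.contDiff_normed
  have h1 := (hcd.differentiable one_ne_zero (x - z)).hasFDerivAt
  have h2 : HasFDerivAt (fun w : Cm n => x - w) (-(ContinuousLinearMap.id ℝ (Cm n))) z :=
    (hasFDerivAt_id z).const_sub x
  have h3 := (Complex.ofRealCLM.hasFDerivAt).comp z (h1.comp z h2)
  have h4 : fderiv ℝ (fun w => ((tst φ x w : ℝ) : ℂ)) z = _ := h3.fderiv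
  rw [h4]
  simp

theorem dz_molF (hf : Integrable f) (x : Cm n) (k : Fin n) :
    dz k (molF φ f) x = - ∫ z, f z * dz k (fun w => ((tst φ x w : ℝ) : ℂ)) z := by
  have hcs : HasCompactSupport (φ.normed volume) := φ.hasCompactSupport_normed
  have hcd : ContDiff ℝ 1 (φ.normed (volume : Measure (Cm n))) := φ.contDiff_normed
  have hi : ∀ v : Cm n, Integrable fun z => (fderiv ℝ (φ.normed volume) (x - z) v) • f z := by
    intro v
    have h2 := (hcs.fderiv ℝ).convolutionExists_left
      ((ContinuousLinearMap.lsmul ℝ ℝ : ℝ →L[ℝ] ℂ →L[ℝ] ℂ).precompL (Cm n))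
      (hcd.continuous_fderiv one_ne_zero) hf.locallyIntegrable x
    exact h2.integrable_swap.apply_continuousLinearMap v
  unfold dz
  rw [fderiv_molF hf, fderiv_molF hf, ← integral_const_mul, ← integral_sub (hi _)
    ((hi _).const_mul _), ← integral_div, ← integral_neg]
  refine integral_congr_ae (ae_of_all _ fun z => ?_)
  simp only [fderiv_tst, Complex.real_smul]
  ring

/-- matrices -/
def molM (φ : ContDiffBump (0 : Cm n)) (H : Cm n → Matrix (Fin n) (Fin n) ℂ) (x : Cm n) :
    Matrix (Fin n) (Fin n) ℂ := Matrix.of fun i j => molF φ (fun z => H z i j) x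

variable {H G : Cm n → Matrix (Fin n) (Fin n) ℂ} {a b e : Cm n}

theorem molM_apply (i j : Fin n) : molM φ H x i j = molF φ (fun z => H z i j) x := rfl

theorem molM_congr (h : ∀ z ∈ ball x φ.rOut, H z = G z) : molM φ H x = molM φ G x := by
  ext i j
  exact molF_congr fun z hz => by rw [h z hz]

theorem integrable_hh (hH : ∀ i j, Integrable fun z => H z i j) (a b : Cm n) :
    Integrable (hh H a b) :=
  integrable_finsetSum _ fun i _ => integrable_finsetSum _ fun j _ => (hH i j).mul_const _

theorem hh_molM (hH : ∀ i j, Integrable fun z => H z i j) (a b x : Cm n) :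
    hh (molM φ H) a b x = molF φ (hh H a b) x := by
  have hi : ∀ i j, Integrable fun z => φ.normed volume (x - z) • H z i j := fun i j =>
    integrable_molF_integrand (hH i j) x
  have e1 : molF φ (hh H a b) x = ∫ z, ∑ i, ∑ j, (φ.normed volume (x - z) • H z i j) *
      (a i * cj (b j)) := by
    unfold molF hh
    refine integral_congr_ae (ae_of_all _ fun z => ?_)
    simp only [Finset.smul_sum, smul_mul_assoc]
  rw [e1, integral_finsetSum _ fun i _ => integrable_finsetSum _ fun j _ => (hi i j).mul_const _]
  unfold hh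
  refine Finset.sum_congr rfl fun i _ => ?_
  rw [integral_finsetSum _ fun j _ => (hi i j).mul_const _]
  refine Finset.sum_congr rfl fun j _ => ?_
  rw [integral_mul_const]
  rfl

theorem molF_re (hf : Integrable f) (x : Cm n) :
    (molF φ f x).re = ∫ z, φ.normed volume (x - z) * (f z).re := by
  have h1 := integral_re (integrable_molF_integrand (φ := φ) hf x)
  unfold molF
  rw [← RCLike.re_eq_complex_re, ← h1]
  refine integral_congr_ae (ae_of_all _ fun z => ?_)
  simp

theorem hh_molM_re_nonneg (hH : ∀ i j, Integrable fun z => H z i j)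
    (hp : ∀ z, (H z).PosSemidef) (e x : Cm n) : 0 ≤ (hh (molM φ H) e e x).re := by
  rw [hh_molM hH, molF_re (integrable_hh hH e e)]
  exact integral_nonneg fun z => mul_nonneg (φ.nonneg_normed _) (hh_re_nonneg (hp z))

theorem molM_isHermitian (hp : ∀ z, (H z).IsHermitian) (x : Cm n) :
    (molM φ H x).IsHermitian := by
  ext i j
  rw [Matrix.conjTranspose_apply, molM_apply, molM_apply]
  unfold molF
  rw [RCLike.star_def, ← integral_conj]
  refine integral_congr_ae (ae_of_all _ fun z => ?_)
  have := (hp z).apply i j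
  simp only [Complex.real_smul, map_mul, Complex.conj_ofReal]
  rw [← this]
  simp

theorem contDiff_molM (hH : ∀ i j, Integrable fun z => H z i j) (i j : Fin n) :
    ContDiff ℝ 1 fun y => molM φ H y i j := contDiff_molF (hH i j)

/-- mollified forms are closed -/
theorem dz_molM (hH : ∀ i j, Integrable fun z => H z i j) {D : Set (Cm n)}
    (hc : ∀ a : Cm n → ℝ, ContDiff ℝ ∞ a → HasCompactSupport a → tsupport a ⊆ D →
      ∀ i j k, ∫ z, H z i j * dz k (fun w => (a w : ℂ)) z =
        ∫ z, H z k j * dz i (fun w => (a w : ℂ)) z) {x : Cm n} (hx : closedBall x φ.rOut ⊆ D)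
    (i j k : Fin n) : dz k (fun y => molM φ H y i j) x = dz i (fun y => molM φ H y k j) x := by
  have h1 := hc (tst φ x) (contDiff_tst φ x) (hasCompactSupport_tst φ x)
    ((tsupport_tst φ x).trans hx) i j k
  have e1 : (fun y => molM φ H y i j) = molF φ fun z => H z i j := rfl
  have e2 : (fun y => molM φ H y k j) = molF φ fun z => H z k j := rfl
  rw [e1, e2, dz_molF (hH i j), dz_molF (hH k j), h1]

/-- total mass -/
theorem integral_molM (hH : ∀ i j, Integrable fun z => H z i j) (e : Cm n) :
    Integrable (fun x => (hh (molM φ H) e e x).re) ∧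
      ∫ x, (hh (molM φ H) e e x).re = ∫ z, (hh H e e z).re := by
  have hi := integrable_hh hH e e
  have e1 : (fun x => hh (molM φ H) e e x) =
      (φ.normed volume ⋆[ContinuousLinearMap.lsmul ℝ ℝ, volume] hh H e e) := by
    rw [← molF_eq_conv]
    funext x
    exact hh_molM hH e e x
  have h1 : Integrable (fun x => hh (molM φ H) e e x) := by
    rw [e1]
    exact φ.integrable_normed.integrable_convolution _ hi
  have h2 : ∫ x, hh (molM φ H) e e x = ∫ z, hh H e e z := by
    have h3 := integral_convolution (ContinuousLinearMap.lsmul ℝ ℝ : ℝ →L[ℝ] ℂ →L[ℝ] ℂ)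
      (φ.integrable_normed (μ := volume)) hi
    rw [φ.integral_normed] at h3
    rw [e1]
    simpa using h3
  refine ⟨h1.re, ?_⟩
  have h4 := integral_re h1
  have h5 := integral_re hi
  simp only [RCLike.re_eq_complex_re] at h4 h5
  rw [h4, h5, h2]

/-- bounds -/
theorem norm_molF_le {M : ℝ} (h : ∀ z ∈ ball x φ.rOut, ‖f z‖ ≤ M) : ‖molF φ f x‖ ≤ M := by
  have hi : Integrable fun z => φ.normed volume (x - z) * M := by
    refine Integrable.mul_const ?_ M
    exact (φ.integrable_normed (μ := volume)).comp_sub_left x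
  have h1 : ‖molF φ f x‖ ≤ ∫ z, φ.normed volume (x - z) * M := by
    refine norm_integral_le_of_norm_le hi (ae_of_all _ fun z => ?_)
    rw [norm_smul, Real.norm_of_nonneg (φ.nonneg_normed _)]
    by_cases hz : z ∈ ball x φ.rOut
    · exact mul_le_mul_of_nonneg_left (h z hz) (φ.nonneg_normed _)
    · have : φ.normed volume (x - z) = 0 := by
        refine normed_eq_zero φ ?_
        rw [← dist_eq_norm, dist_comm]
        simpa using hz
      rw [this, zero_mul, zero_mul]
  refine h1.trans (le_of_eq ?_)
  rw [integral_mul_const, integral_sub_left_eq_self (fun z => φ.normed volume z) volume x,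
    φ.integral_normed, one_mul]

/-- convergence at points of continuity -/
theorem tendsto_molF {φ : ℕ → ContDiffBump (0 : Cm n)}
    (hφ : Tendsto (fun i => (φ i).rOut) atTop (𝓝 0)) (hf : Integrable f) (hc : ContinuousAt f x) :
    Tendsto (fun i => molF (φ i) f x) atTop (𝓝 (f x)) := by
  simp only [molF_eq_conv]
  exact ContDiffBump.convolution_tendsto_right hφ
    (Eventually.of_forall fun _ => hf.aestronglyMeasurable)
    (Tendsto.comp (hc : Tendsto f (𝓝 x) (𝓝 (f x))) tendsto_snd) tendsto_const_nhds

end Vale.Agent.P277.TD
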