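import Vale.Agent.P277.H762.D2
import Vale.Agent.P277.H762.Block2
import Vale.Agent.P277.H19.Xfer
import Vale.Agent.P277.H619.Pair2
import Vale.Agent.P277.H619.D0
import Vale.Agent.P277.H884.StF2

/-!
# P277, Theorem R2: flips with one-dimensional flipped loci, arbitrary singularities of `X 0`
-/

open scoped Manifold ContDiff Topology
open Vale.Agent.P272.K Vale.Agent.P285.H281.FD Vale.Agent.P267.H175 Set

noncomputable section

namespace Vale.Agent.P277.H762

open H619 H615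

/-- Theorem R2, general form: `v : W → X 0 ∖ τ` is a proper modification. -/
theorem resR2' (Y : Type) [TopologicalSpace Y] [T2Space Y] [CompactSpace Y]
    [ChartedSpace (Cm 4) Y] [IsManifold 𝓘(ℂ, Cm 4) ω Y] :
    ∃ b : ℕ, ∀ (N : ℕ) (X Z : ℕ → CSp) (W : Set Y) (v : Y → (X 0).pt) (τ : Set (X 0).pt)
      (O : Set Y) (f : ∀ j, (X j).pt → (Z j).pt) (f' : ∀ j, (X (j + 1)).pt → (Z j).pt)
      (A : ∀ j, Set (Z j).pt) (L : ∀ j, Bd (X j).pt) (L' : ∀ j, Bd (X (j + 1)).pt),
      PropMap (X 0) W v τ → O ⊆ W → IsOpenEmb (X 0) O v → DimLe (X 0) 2 (v '' O)ᶜ →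
      (∀ j < N, IsFlip (X j) (Z j) (X (j + 1)) (f j) (f' j) (A j) (L j) (L' j)) →
      (∀ j < N, DimLe (X (j + 1)) 1 {x | ∃ x', f' j x' = f' j x ∧ x' ≠ x}) → N ≤ b := by
  have : SecondCountableTopology Y := ChartedSpace.secondCountable_of_sigmaCompact (Cm 4) Y
  obtain ⟨b, hb⟩ := H19.stRkCpt stPair Y
  refine ⟨b, fun N X Z W v τ O f f' A L L' hW hOW hv hO hflip hdim => ?_⟩
  refine stBlock2_of stD2 H884.F.stF2 stPair Y N X Z W v τ hW O hOW hv hO f f'
    (fun j => Amin (f j)) L L' (fun j hj => (stD0 _ _ _ _ _ _ _ _ (hflip j hj)).1)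
    (fun j hj => ?_) b fun n a c ha hc =>
      hb n a c (fun i => CCF.mono' (ha i) (subset_univ _)) fun i => CCF.mono' (hc i) (subset_univ _)
  refine (hdim j hj).mono ?_
  rintro x hx
  have h1 := (stD0 _ _ _ _ _ _ _ _ (hflip j hj)).2.1
  have hx' : f' j x ∈ Amin (f' j) := by
    rw [← h1]; exact hx
  obtain ⟨x₁, x₂, h2, h3, h4⟩ := hx'
  by_cases h5 : x₁ = x
  · exact ⟨x₂, h3, fun h6 => h4 (h5.trans h6.symm)⟩
  · exact ⟨x₁, h2, h5⟩

/-- Theorem R2 -/
theorem resR2 (Y : Type) [TopologicalSpace Y] [T2Space Y] [CompactSpace Y]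
    [ChartedSpace (Cm 4) Y] [IsManifold 𝓘(ℂ, Cm 4) ω Y] :
    ∃ b : ℕ, ∀ (N : ℕ) (X Z : ℕ → CSp) (O : Set Y) (v : Y → (X 0).pt)
      (f : ∀ j, (X j).pt → (Z j).pt) (f' : ∀ j, (X (j + 1)).pt → (Z j).pt)
      (A : ∀ j, Set (Z j).pt) (L : ∀ j, Bd (X j).pt) (L' : ∀ j, Bd (X (j + 1)).pt),
      Continuous v → (∀ y, ∀ e : Chart 4 Y, At e y → ∀ g : (X 0).pt → ℂ, (X 0).Hol g (v y) →
        AnalyticAt ℂ (fun z => g (v (e.symm z))) (e y)) →
      IsOpenEmb (X 0) O v → DimLe (X 0) 2 (v '' O)ᶜ →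
      (∀ j < N, IsFlip (X j) (Z j) (X (j + 1)) (f j) (f' j) (A j) (L j) (L' j)) →
      (∀ j < N, DimLe (X (j + 1)) 1 {x | ∃ x', f' j x' = f' j x ∧ x' ≠ x}) → N ≤ b := by
  obtain ⟨b, hb⟩ := resR2' Y
  refine ⟨b, fun N X Z O v f f' A L L' hvc hvh hv hO hflip hdim => ?_⟩
  rcases Nat.eq_zero_or_pos N with rfl | hN
  · exact Nat.zero_le _
  have hn := (hflip 0 hN).normal
  have hd : Dense (v '' O) := by
    have := dense_compl_of_dimLe (by norm_num) hn.dense hO
    rwa [compl_compl] at this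
  have hsurj : Function.Surjective v := by
    have h1 : IsClosed (range v) := (isCompact_range hvc).isClosed
    have h2 : Dense (range v) := hd.mono (image_subset_range _ _)
    rw [← range_eq_univ, ← h1.closure_eq]
    exact h2.closure_eq
  have hW : PropMap (X 0) univ v ∅ :=
    { isOpen := isOpen_univ
      cont := hvc.continuousOn
      hol := fun y _ e he g hg => hvh y e he g hg
      closed := isClosed_empty
      dim := by
        have := hO.nonempty
        exact (dimLe_zero_iff.2 countable_empty).le (by norm_num)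
      maps := fun y _ h => h
      surj := fun x _ => by
        obtain ⟨y, hy⟩ := hsurj x
        exact ⟨y, mem_univ _, hy⟩
      proper := fun C hC _ => by
        rw [univ_inter]
        exact (hC.preimage hvc).isCompact }
  exact hb N X Z univ v ∅ O f f' A L L' hW (subset_univ _) hv hO hflip hdim

end Vale.Agent.P277.H762
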